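import Vale.Agent.P318.D.SysStmt
import Mathlib.NumberTheory.Bertrand

/-!
Track D: choice of the parameters of the systems.
-/

namespace Vale.Agent.P318.D

open Finset
open scoped BigOperators

namespace Sys2

lemma big (K : ℝ) : ∃ L0 : ℕ, ∀ L : ℕ, L0 ≤ L → 1 ≤ L ∧ K * (L : ℝ) ^ 2 ≤ 16 ^ L := by
  refine ⟨⌈K⌉₊ + 1, fun L hL => ⟨by omega, ?_⟩⟩
  have h1 : K ≤ L := (Nat.le_ceil K).trans (by exact_mod_cast (by omega : ⌈K⌉₊ ≤ L))
  have h2 : (L : ℝ) ≤ 2 ^ L := by exact_mod_cast (Nat.lt_two_pow_self).le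
  have h0 : (0 : ℝ) ≤ L := Nat.cast_nonneg L
  calc K * (L : ℝ) ^ 2 ≤ (L : ℝ) * (L : ℝ) ^ 2 := by gcongr
    _ = (L : ℝ) ^ 3 := by ring
    _ ≤ ((2 : ℝ) ^ L) ^ 3 := by gcongr
    _ = 8 ^ L := by rw [← pow_mul, mul_comm, pow_mul]; norm_num
    _ ≤ 16 ^ L := by gcongr; norm_num

lemma log16 : Real.log 16 ≤ 2.78 := by
  have : (16 : ℝ) = 2 ^ 4 := by norm_num
  rw [this, Real.log_pow]
  have := Real.log_two_lt_d9
  push_cast
  linarith

lemma log_two_pow_le {x : ℝ} (hx : 0 < x) (k : ℕ) (h : x ≤ 2 * 16 ^ k) :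
    Real.log x ≤ 2.78 * k + 1 := by
  have h1 := Real.log_le_log hx h
  rw [Real.log_mul (by norm_num) (by positivity), Real.log_pow] at h1
  have h2 := Real.log_two_lt_d9
  have h3 := log16
  have h4 : (0 : ℝ) ≤ k := Nat.cast_nonneg k
  nlinarith

/-- The level of a partition. -/
def lev {L d : ℕ} : Option (Fin L × Fin d) → ℕ
  | none => 0
  | some x => x.1.1 + 1

/-- The number of blocks. -/
def mm {L d : ℕ} (m0 : ℕ) : Option (Fin L × Fin d) → ℕ
  | none => 1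
  | some x => m0 * 16 ^ (x.1.1 + 1)

/-- The dimension of the blocks. -/
def md {L d : ℕ} : Option (Fin L × Fin d) → ℕ
  | none => 42000 * L * (d * 256 ^ L)
  | some x => 16 ^ (2 * L - (x.1.1 + 1))

variable {L d : ℕ}

lemma lev_le (a : Option (Fin L × Fin d)) : lev a ≤ L := by
  cases a with
  | none => simp [lev]
  | some x => exact x.1.2

lemma md_mul (x : Fin L × Fin d) : md (some x) * 16 ^ lev (some x) = 256 ^ L := by
  have := x.1.2
  simp only [md, lev]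
  rw [← pow_add, show 2 * L - (x.1.1 + 1) + (x.1.1 + 1) = 2 * L by omega, pow_mul]
  norm_num

lemma le_md_mul (hL : 1 ≤ L) (hd : 1 ≤ d) (a : Option (Fin L × Fin d)) :
    256 ^ L ≤ md a * 16 ^ lev a := by
  cases a with
  | none =>
    simp only [md, lev, pow_zero, mul_one]
    calc 256 ^ L = 1 * 1 * (1 * 256 ^ L) := by ring
      _ ≤ _ := by gcongr; norm_num
  | some x => exact (md_mul x).ge

lemma le_md (hL : 1 ≤ L) (hd : 1 ≤ d) (a : Option (Fin L × Fin d)) : 16 ^ L ≤ md a := by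
  have h1 := le_md_mul hL hd a
  have h2 : 16 ^ lev a ≤ 16 ^ L := Nat.pow_le_pow_right (by norm_num) (lev_le a)
  have h3 : 256 ^ L = 16 ^ L * 16 ^ L := by rw [← mul_pow]; norm_num
  have h4 : 16 ^ L * 16 ^ L ≤ md a * 16 ^ L := by
    rw [← h3]; exact h1.trans (Nat.mul_le_mul_left _ h2)
  exact Nat.le_of_mul_le_mul_right h4 (by positivity)

lemma mm_le {m0 : ℕ} (h : 1 ≤ m0) (a : Option (Fin L × Fin d)) : mm m0 a ≤ m0 * 16 ^ lev a := by
  cases a with
  | none => simpa [mm, lev] using h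
  | some x => exact le_rfl

lemma one_le_mm {m0 : ℕ} (h : 1 ≤ m0) (a : Option (Fin L × Fin d)) : 1 ≤ mm m0 a := by
  cases a with
  | none => exact le_rfl
  | some x => exact Nat.mul_pos h (Nat.pow_pos (by norm_num))

lemma card_co (m0 : ℕ) : Fintype.card (Co (mm (L := L) (d := d) m0) md) =
    (42000 + m0) * L * d * 256 ^ L := by
  have h1 : ∀ x : Fin L × Fin d, mm m0 (some x) * md (some x) = m0 * 256 ^ L := fun x => by
    rw [← md_mul x]; simp only [mm, lev]; ring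
  simp only [Fintype.card_sigma, Fintype.card_fin, Fintype.sum_sigma, sum_const, card_univ,
    smul_eq_mul, Fintype.sum_option, h1, Fintype.card_prod]
  simp only [mm, md]
  ring

lemma md_le (m0 : ℕ) (h : 1 ≤ m0) (a : Option (Fin L × Fin d)) :
    md a ≤ (42000 + m0) * L * d * 256 ^ L := by
  rw [← card_co m0, Fintype.card_sigma]
  have := single_le_sum (f := fun b : (Σ a : Option (Fin L × Fin d), Fin (mm m0 a)) =>
    Fintype.card (Fin (md b.1))) (fun _ _ => Nat.zero_le _) (mem_univ ⟨a, ⟨0, one_le_mm h a⟩⟩)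
  simpa using this

lemma card_lev {k : ℕ} (h1 : 1 ≤ k) (h2 : k ≤ L) :
    (univ.filter fun a : Option (Fin L × Fin d) => lev a = k).card = d := by
  have : (univ.filter fun a : Option (Fin L × Fin d) => lev a = k) =
      univ.image fun r : Fin d => some (⟨k - 1, by omega⟩, r) := by
    ext a
    rw [mem_filter, mem_image]
    cases a with
    | none =>
      simp only [lev, mem_univ, true_and, reduceCtorEq, exists_false, iff_false]
      omega
    | some x =>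
      simp only [lev, mem_univ, true_and, Option.some.injEq]
      constructor
      · intro h
        exact ⟨x.2, Prod.ext (Fin.ext (show k - 1 = x.1.1 by omega)) rfl⟩
      · rintro ⟨r, rfl⟩
        show k - 1 + 1 = k
        omega
  rw [this, card_image_of_injective _ fun r r' h => by simpa using h]
  simp

section
variable {ι A : Type} [Fintype ι] [DecidableEq ι] [Fintype A] [DecidableEq A] (q : ℕ)
  [Fact q.Prime] {m Md : A → ℕ} (π : (a : A) → ι → Fin (m a))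
  (x : ι → (a : A) → Fin (Md a) → ℤ) (D : A → ℕ)

lemma card_fib {β : A → Type} [∀ a, Fintype (β a)] [DecidableEq (Σ a, β a)] (a : A) :
    (univ.filter fun b : Σ a, β a => b.1 = a).card = Fintype.card (β a) := by
  have : (univ.filter fun b : Σ a, β a => b.1 = a) = univ.map (Function.Embedding.sigmaMk a) := by
    ext ⟨a', v⟩
    simp only [mem_filter, mem_univ, true_and, mem_map, Function.Embedding.sigmaMk_apply]
    constructor
    · rintro rfl
      exact ⟨v, rfl⟩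
    · rintro ⟨w, hw⟩
      exact (congrArg Sigma.fst hw).symm
  rw [this, card_map, card_univ]

lemma card_Bl (a : A) : ((mkSys q π x D).Bl a).card = m a := by
  have := card_fib (β := fun a => Fin (m a)) a
  rw [Fintype.card_fin] at this
  exact this

lemma card_Lb (b : Σ a : A, Fin (m a)) : ((mkSys q π x D).Lb b).card = Md b.1 := by
  have := card_fib (β := fun b : Σ a : A, Fin (m a) => Fin (Md b.1)) b
  rw [Fintype.card_fin] at this
  exact this

lemma card_image (a : A) (T : Finset ι) :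
    (T.image ((mkSys q π x D).pb a)).card = (T.image (π a)).card := by
  have : T.image ((mkSys q π x D).pb a) =
      (T.image (π a)).image (fun v => (⟨a, v⟩ : Σ a : A, Fin (m a))) := by
    rw [image_image]; rfl
  rw [this]
  exact card_image_of_injective _ fun v w h => sigma_mk_injective (β := fun a => Fin (m a)) h

end

/-- The numerical inequalities. -/
lemma nums {X L K C1 δ m0 d0 : ℝ} (hL : 1 ≤ L) (hK : K * L ^ 2 ≤ X) (hm : 1 ≤ m0) (hd : 1 ≤ d0)
    (hC : 1 ≤ C1) (hδ : 0 < δ)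
    (h : 1000 * (42000 + m0) ^ 2 * d0 + 1000 * C1 / δ ^ 2 ≤ K) :
    1000 * (42000 + m0) ^ 2 * d0 * L ^ 2 ≤ X ∧ 1000 * C1 * L ≤ δ ^ 2 * X := by
  have h1 : 0 ≤ 1000 * C1 / δ ^ 2 := by positivity
  have h2 : 0 ≤ 1000 * (42000 + m0) ^ 2 * d0 := by positivity
  constructor
  · refine le_trans ?_ hK
    gcongr
    linarith
  · have h3 : 1000 * C1 / δ ^ 2 * L ≤ X := by
      refine le_trans ?_ hK
      gcongr
      · linarith
      · linarith
      · nlinarith
    rw [div_mul_eq_mul_div, div_le_iff₀ (by positivity)] at h3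
    linarith

/-- The standing assumptions on the parameters. -/
structure Nm (X : ℝ) (L m0 d0 : ℕ) : Prop where
  hX : X = 16 ^ L
  hL : 1 ≤ L
  hm : 1 ≤ m0
  hd : 1 ≤ d0
  n1 : 1000 * (42000 + m0) ^ 2 * d0 * L ^ 2 ≤ X

namespace Nm

variable {X : ℝ} {m0 d0 : ℕ} (h : Nm X L m0 d0)
include h

lemma pw (k : ℕ) : (16 : ℝ) ^ (k * L) = X ^ k := by rw [h.hX, ← pow_mul, mul_comm]

lemma p256 : (256 : ℝ) ^ L = X ^ 2 := by rw [← h.pw, pow_mul]; norm_num

lemma d1 : 1 ≤ d0 * L := Nat.mul_pos h.hd h.hL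

lemma cardN : (Fintype.card (Fin (16 ^ (16 * L))) : ℝ) = X ^ 16 := by
  rw [Fintype.card_fin, ← h.pw]; push_cast; rfl

lemma x1 : 1000 * (42000 + m0) * (d0 * L ^ 2) ≤ X := by
  refine le_trans ?_ h.n1
  have h0 : (0 : ℝ) ≤ m0 := Nat.cast_nonneg _
  have : (42000 + m0 : ℝ) ≤ (42000 + m0) ^ 2 := by nlinarith
  rw [mul_assoc _ (d0 : ℝ)]
  gcongr

lemma dl : (L : ℝ) ≤ d0 * L ^ 2 := by
  have h1 : (1 : ℝ) ≤ L := by exact_mod_cast h.hL
  have h2 : (1 : ℝ) ≤ d0 := by exact_mod_cast h.hd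
  calc (L : ℝ) = 1 * L ^ 1 := by ring
    _ ≤ _ := by gcongr; norm_num

lemma x2 : 84000 * L ≤ X := by
  have h0 : (0 : ℝ) ≤ m0 := Nat.cast_nonneg _
  have h1 : (0 : ℝ) ≤ L := Nat.cast_nonneg _
  refine le_trans ?_ h.x1
  gcongr
  · linarith
  · exact h.dl

lemma x3 : 1000 ≤ X := by
  have h1 : (1 : ℝ) ≤ L := by exact_mod_cast h.hL
  linarith [h.x2]

lemma x4 : 1 ≤ X := by linarith [h.x3]

lemma x5 : 1000 * (m0 : ℝ) ≤ X := by
  have h0 : (0 : ℝ) ≤ m0 := Nat.cast_nonneg _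
  have h1 : (1 : ℝ) ≤ L := by exact_mod_cast h.hL
  refine le_trans ?_ h.x1
  calc 1000 * (m0 : ℝ) ≤ 1000 * (42000 + m0) * 1 := by linarith
    _ ≤ _ := by gcongr; exact h1.trans h.dl

lemma lN : Real.log (X ^ 16 + 2) ≤ 46 * L := by
  have h1 : (2 : ℝ) ≤ X ^ 16 := le_trans (by linarith [h.x3]) (le_self_pow₀ h.x4 (by norm_num))
  have h2 : (1 : ℝ) ≤ L := by exact_mod_cast h.hL
  have := log_two_pow_le (x := X ^ 16 + 2) (by positivity) (16 * L) (by rw [h.pw]; linarith)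
  push_cast at this
  linarith

lemma md1 (a : Option (Fin L × Fin (d0 * L))) : X ≤ md a := by
  rw [h.hX]; exact_mod_cast le_md h.hL h.d1 a

lemma cardM : (Fintype.card (Co (mm (L := L) (d := d0 * L) m0) md) : ℝ) =
    (42000 + m0) * d0 * L ^ 2 * X ^ 2 := by
  rw [card_co, ← h.p256]; push_cast; ring

lemma m3 : (42000 + m0) * d0 * L ^ 2 * X ^ 2 ≤ X ^ 3 := by
  have h1 := h.x1
  have h2 : (0 : ℝ) ≤ (42000 + m0) * (d0 * L ^ 2) := by positivity
  have : (42000 + m0) * d0 * (L : ℝ) ^ 2 ≤ X := by linarith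
  calc _ ≤ X * X ^ 2 := by gcongr
    _ = X ^ 3 := by ring

lemma md2 (a : Option (Fin L × Fin (d0 * L))) :
    (md a : ℝ) ≤ (42000 + m0) * d0 * L ^ 2 * X ^ 2 := by
  rw [← h.cardM, card_co]; exact_mod_cast md_le m0 h.hm a

lemma mm1 (a : Option (Fin L × Fin (d0 * L))) : (mm m0 a : ℝ) ≤ m0 * 16 ^ lev a := by
  exact_mod_cast mm_le h.hm a

lemma mm2 (a : Option (Fin L × Fin (d0 * L))) : (mm m0 a : ℝ) ≤ m0 * X := by
  refine (h.mm1 a).trans ?_
  rw [h.hX]
  gcongr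
  · norm_num
  · exact lev_le a

lemma hash (hH : HashDStmt) {A η : ℝ} (hη : 0 < η) (hη1 : η ≤ 1) (hA : 1 ≤ A)
    (hm2 : 20 * A ≤ η * m0) (hd1 : 400 ≤ η * d0) :
    ∃ π : (a : Option (Fin L × Fin (d0 * L))) → Fin (16 ^ (16 * L)) → Fin (mm m0 a),
      (∀ a v, X ^ 16 / (2 * (m0 * X)) ≤ (univ.filter fun i => π a i = v).card) ∧
      ∀ k, 1 ≤ k → k ≤ L → ∀ T : Finset (Fin (16 ^ (16 * L))), (T.card : ℝ) ≤ A * 16 ^ k →
        (1 - η) * (univ.filter fun a : Option (Fin L × Fin (d0 * L)) => lev a = k).card * T.card ≤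
          ∑ a ∈ univ.filter fun a => lev a = k, ((T.image (π a)).card : ℝ) := by
  have hX4 := h.x4
  have hX3 := h.x3
  have hL : (1 : ℝ) ≤ L := by exact_mod_cast h.hL
  obtain ⟨π, hπ1, hπ2⟩ := hH (Fin (16 ^ (16 * L))) (Option (Fin L × Fin (d0 * L))) (mm m0) lev L
    (fun k => A * 16 ^ k) η hη hη1 (one_le_mm h.hm)
    (by
      have : (16 * (L + 1) : ℝ) ≤ X ^ 16 :=
        le_trans (by linarith [h.x2]) (le_self_pow₀ hX4 (by norm_num))
      rw [← h.cardN] at this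
      exact_mod_cast this)
    (fun a => by
      have h1 : (Fintype.card (Option (Fin L × Fin (d0 * L))) : ℝ) ≤ X := by
        simp only [Fintype.card_option, Fintype.card_prod, Fintype.card_fin]
        push_cast
        have h2 := hL.trans h.dl
        have h3 := h.x1
        have h4 : (0 : ℝ) ≤ m0 * (d0 * L ^ 2) := by positivity
        linarith
      have h2 : (mm m0 a : ℝ) ≤ X * X :=
        (h.mm2 a).trans (by gcongr; linarith [h.x5, Nat.cast_nonneg (α := ℝ) m0])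
      have : (64 * Fintype.card (Option (Fin L × Fin (d0 * L))) * (mm m0 a) ^ 2 : ℝ) ≤ X ^ 16 :=
        calc _ ≤ X * X * (X * X) ^ 2 := by gcongr; linarith
          _ = X ^ 6 := by ring
          _ ≤ X ^ 16 := pow_le_pow_right₀ hX4 (by norm_num)
      rw [← h.cardN] at this
      exact_mod_cast this)
    (fun a ha => by
      cases a with
      | none => simp [lev] at ha
      | some x =>
        simp only [lev, mm]
        push_cast
        rw [← mul_assoc, ← mul_assoc]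
        exact mul_le_mul_of_nonneg_right (by linarith) (by positivity))
    (fun k h1 h2 => by
      rw [card_lev h1 h2, h.cardN]
      have h3 := Real.log_le_log (by positivity) (show X ^ 16 ≤ X ^ 16 + 2 by linarith)
      have h4 := mul_le_mul_of_nonneg_right hd1 (Nat.cast_nonneg (α := ℝ) L)
      have h5 := h.lN
      push_cast
      linarith)
  refine ⟨π, fun a v => le_trans ?_ (hπ1 a v), hπ2⟩
  rw [h.cardN]
  have : (1 : ℝ) ≤ mm m0 a := by exact_mod_cast one_le_mm h.hm a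
  gcongr
  exact h.mm2 a

lemma n0 : X ^ 14 * 500 ≤ X ^ 16 / (2 * (m0 * X)) := by
  have h1 : (1 : ℝ) ≤ m0 := by exact_mod_cast h.hm
  have h2 := h.x4
  rw [le_div_iff₀ (by positivity)]
  calc X ^ 14 * 500 * (2 * (m0 * X)) = X ^ 15 * (1000 * m0) := by ring
    _ ≤ X ^ 15 * X := by gcongr; exact h.x5
    _ = X ^ 16 := by ring

lemma s1 : 14 * X ^ 8 * (Fintype.card (Co (mm (L := L) (d := d0 * L) m0) md) : ℝ) ^ 2 ≤
    X ^ 16 / (2 * (m0 * X)) := by
  have h2 := h.x4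
  rw [h.cardM]
  refine le_trans ?_ h.n0
  calc _ ≤ 14 * X ^ 8 * (X ^ 3) ^ 2 := by gcongr; exact h.m3
    _ = X ^ 14 * 14 := by ring
    _ ≤ _ := by gcongr; norm_num

lemma s2 {l : ℝ} (h0 : 0 ≤ l) (hl : l ≤ X) :
    60 * (Fintype.card (Co (mm (L := L) (d := d0 * L) m0) md) : ℝ) ^ 2 *
      (Fintype.card (Co (mm (L := L) (d := d0 * L) m0) md) * l + 2) ≤
    X ^ 16 / (2 * (m0 * X)) := by
  have hX4 := h.x4
  have h4 := h.m3
  rw [h.cardM]
  refine le_trans ?_ h.n0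
  have h1 : X ^ 3 * X + 2 ≤ 3 * X ^ 8 := by
    have h2 : X ^ 4 ≤ X ^ 8 := pow_le_pow_right₀ hX4 (by norm_num)
    have h3 : 1 ≤ X ^ 8 := one_le_pow₀ hX4
    linarith
  calc _ ≤ 60 * (X ^ 3) ^ 2 * (X ^ 3 * X + 2) := by gcongr
    _ ≤ 60 * (X ^ 3) ^ 2 * (3 * X ^ 8) := by gcongr
    _ = X ^ 14 * 180 := by ring
    _ ≤ _ := by gcongr; norm_num

lemma exD {C1 δ : ℝ} (hC1 : 1 ≤ C1) (hδ : 0 < δ) (n2 : 1000 * C1 * L ≤ δ ^ 2 * X) :
    ∃ D : Option (Fin L × Fin (d0 * L)) → ℕ, (∀ a, 1 ≤ D a) ∧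
      (∀ a, C1 * (D a + 1) * Real.log (X ^ 16 + 2) ≤ δ ^ 2 * md a) ∧
      ∀ a, (md a : ℝ) ≤ 100 * C1 / δ ^ 2 * L * D a := by
  have hL : (1 : ℝ) ≤ L := by exact_mod_cast h.hL
  have hCL : 0 < C1 * L := by positivity
  have hy : ∀ a : Option (Fin L × Fin (d0 * L)), 4 ≤ δ ^ 2 * md a / (46 * C1 * L) := fun a => by
    rw [le_div_iff₀ (by positivity)]
    have := mul_le_mul_of_nonneg_left (h.md1 a) (sq_nonneg δ)
    linarith
  set D : Option (Fin L × Fin (d0 * L)) → ℕ := fun a => ⌊δ ^ 2 * md a / (46 * C1 * L)⌋₊ - 1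
    with hD
  have hD1 : ∀ a, (D a : ℝ) + 1 = ⌊δ ^ 2 * md a / (46 * C1 * L)⌋₊ := fun a => by
    have : 1 ≤ ⌊δ ^ 2 * md a / (46 * C1 * L)⌋₊ :=
      Nat.le_floor (by have := hy a; push_cast; linarith)
    simp only [hD]
    rw [Nat.cast_sub this]
    push_cast
    ring
  have hD2 : ∀ a, δ ^ 2 * md a / (46 * C1 * L) ≤ 2 * D a := fun a => by
    have := Nat.lt_floor_add_one (δ ^ 2 * md a / (46 * C1 * L))
    linarith [hD1 a, hy a]
  refine ⟨D, fun a => ?_, fun a => ?_, fun a => ?_⟩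
  · exact_mod_cast (show (1 : ℝ) ≤ D a by linarith [hD2 a, hy a])
  · have h1 : (D a : ℝ) + 1 ≤ δ ^ 2 * md a / (46 * C1 * L) := by
      rw [hD1]; exact Nat.floor_le (by positivity)
    rw [le_div_iff₀ (by positivity)] at h1
    refine le_trans ?_ h1
    calc C1 * (D a + 1) * Real.log (X ^ 16 + 2) ≤ C1 * (D a + 1) * (46 * L) := by
          gcongr; exact h.lN
      _ = _ := by ring
  · have h1 := hD2 a
    rw [div_le_iff₀ (by positivity)] at h1
    rw [div_mul_eq_mul_div, div_mul_eq_mul_div, le_div_iff₀ (by positivity)]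
    have : (0 : ℝ) ≤ C1 * L * D a := by positivity
    linarith

end Nm

lemma consts {η A : ℝ} (hη : 0 < η) (hη1 : η ≤ 1) (hA : 1 ≤ A) :
    ∃ m0 d0 : ℕ, (m0 : ℝ) ≤ 21 * A / η ∧ 20 * A ≤ η * m0 ∧ 1 ≤ m0 ∧ 400 ≤ η * d0 ∧ 1 ≤ d0 := by
  have h1 := Nat.lt_floor_add_one (21 * A / η)
  rw [div_lt_iff₀ hη] at h1
  have h2 := Nat.le_ceil (400 / η)
  rw [div_le_iff₀ hη] at h2
  refine ⟨⌊21 * A / η⌋₊, ⌈400 / η⌉₊, Nat.floor_le (by positivity), by linarith,
    Nat.le_floor ?_, by linarith, Nat.ceil_pos.2 (by positivity)⟩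
  rw [le_div_iff₀ hη]
  push_cast
  linarith

end Sys2

open Sys2

theorem sys_proof2 (hH : HashDStmt) (hC : ColStmt) : SysStmt := by
  intro δ η A hδ hδ4 hη hη1 hA
  obtain ⟨C1, hC1, hC⟩ := hC
  obtain ⟨m0, d0, hm1, hm2, hm4, hd1, hd4⟩ := consts hη hη1 hA
  have hm3 : (1 : ℝ) ≤ m0 := by exact_mod_cast hm4
  have hd3 : (1 : ℝ) ≤ d0 := by exact_mod_cast hd4
  obtain ⟨L0, hL0⟩ := big (1000 * (42000 + m0) ^ 2 * d0 + 1000 * C1 / δ ^ 2)
  have hCδ : 0 ≤ 100 * C1 / δ ^ 2 := by positivity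
  have hC0 : (1 : ℝ) ≤ (42000 + m0) * d0 := one_le_mul_of_one_le_of_one_le (by linarith) hd3
  refine ⟨(42000 + m0) * d0 + 100 * C1 / δ ^ 2, L0, by linarith, fun L hL => ?_⟩
  obtain ⟨hL1, hK⟩ := hL0 L hL
  have hLr : (1 : ℝ) ≤ L := by exact_mod_cast hL1
  obtain ⟨n1, n2⟩ := nums hLr hK hm3 hd3 hC1 hδ le_rfl
  obtain ⟨q, hq, hq1, hq2⟩ := Nat.exists_prime_lt_and_le_two_mul (16 ^ (150 * L)) (by positivity)
  have : Fact q.Prime := ⟨hq⟩
  obtain ⟨X, hX⟩ : ∃ X : ℝ, X = 16 ^ L := ⟨_, rfl⟩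
  rw [← hX] at n1 n2
  have h : Nm X L m0 d0 := ⟨hX, hL1, hm4, hd4, n1⟩
  have hq1' : (16 : ℝ) ^ (150 * L) ≤ q := by exact_mod_cast hq1.le
  have hq2' : (q : ℝ) ≤ 2 * 16 ^ (150 * L) := by exact_mod_cast hq2
  have hlq : Real.log q ≤ 420 * L := by
    have := log_two_pow_le (by exact_mod_cast hq.pos) _ hq2'
    push_cast at this
    linarith
  have hXq : ∀ k : ℕ, k ≤ 150 → X ^ k ≤ q := fun k hk =>
    (pow_le_pow_right₀ h.x4 hk).trans (by rw [← h.pw]; exact hq1')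
  obtain ⟨π, hπ1, hπ2⟩ := h.hash hH hη hη1 hA hm2 hd1
  obtain ⟨D, hD1, hD2, hD3⟩ := h.exD hC1 hδ n2
  have hX2 := h.x2
  have hX3 := h.x3
  obtain ⟨x, hWF, hRIP, hCode, hSpr⟩ := hC q (Fin (16 ^ (16 * L)))
    (Option (Fin L × Fin (d0 * L))) none
    (mm m0) md D (d0 * L * 256 ^ L) π δ (X ^ 16 / (2 * (m0 * X))) (X ^ 8) hδ hδ4
    (by have := hXq 1 (by norm_num); exact_mod_cast (show (100 : ℝ) ≤ q by linarith)) rfl
    (fun a => by exact_mod_cast (show (400 : ℝ) ≤ md a by linarith [h.md1 a]))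
    (fun a => by exact_mod_cast ((h.md2 a).trans h.m3).trans (hXq 3 (by norm_num)))
    (fun a => by linarith [h.md1 a])
    (by
      simp only [md]
      push_cast
      have h0 : (0 : ℝ) ≤ d0 * L * 256 ^ L := by positivity
      have := mul_le_mul_of_nonneg_left hlq h0
      linarith)
    (by exact_mod_cast (h.cardM.le.trans h.m3).trans (hXq 3 (by norm_num)))
    (by exact_mod_cast h.cardN.le.trans (hXq 16 (by norm_num))) hD1
    (fun a => by rw [h.cardN]; exact hD2 a)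
    (fun a => by
      have h1 := mul_le_mul_of_nonneg_left (h.md1 a) (sq_nonneg δ)
      have h2 := mul_le_mul_of_nonneg_left hlq (show 0 ≤ C1 by linarith)
      have h3 : 0 ≤ C1 * L := by positivity
      linarith)
    hπ1 h.s1 (h.s2 (Real.log_natCast_nonneg q) (by linarith))
  have hMC : (42000 + m0) * d0 * L ^ 2 * X ^ 2 ≤
      ((42000 + m0) * d0 + 100 * C1 / δ ^ 2) * L ^ 2 * 256 ^ L := by
    rw [h.p256]; gcongr; linarith
  refine ⟨mkSys q π x D, lev, none, d0 * L, hWF, hRIP, ⟨lev_le, fun a => ?_, h.d1,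
    fun k h1 h2 => card_lev h1 h2, (card_Bl q π x D none).le, fun a => ?_, fun b hb => ?_,
    fun a => ?_⟩, fun k h1 h2 T hT => ?_, by exact_mod_cast hCode, by rw [h.pw]; exact hSpr,
    by rw [h.pw]; exact h.cardN, h.cardM.le.trans hMC, fun a => ?_, hq1', hq2'⟩
  · cases a with
    | none => exact ⟨fun _ => rfl, fun _ => rfl⟩
    | some x => exact ⟨fun h => absurd h (Nat.succ_ne_zero _), fun h => absurd h (Option.some_ne_none _)⟩
  · refine (Nat.cast_inj.2 (card_Bl q π x D a)).le.trans ((h.mm1 a).trans ?_)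
    exact mul_le_mul_of_nonneg_right hm1 (by positivity)
  · refine (congrArg (fun n : ℕ => (n : ℝ) * 16 ^ lev b.1) (card_Lb q π x D b)).le.trans ?_
    obtain ⟨a, v⟩ := b
    cases a with
    | none => exact absurd rfl hb
    | some y => exact_mod_cast (md_mul y).le
  · have h2 : (256 : ℝ) ^ L ≤ md a * 16 ^ lev a := by exact_mod_cast le_md_mul hL1 h.d1 a
    change _ ≤ _ * 16 ^ lev a * (D a : ℝ)
    calc (256 : ℝ) ^ L ≤ 100 * C1 / δ ^ 2 * L * D a * 16 ^ lev a :=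
          h2.trans (by gcongr; exact hD3 a)
      _ = 100 * C1 / δ ^ 2 * L * 16 ^ lev a * D a := by ring
      _ ≤ _ := by gcongr; linarith
  · exact (hπ2 k h1 h2 T hT).trans
      (sum_congr rfl fun a _ => Nat.cast_inj.2 (card_image q π x D a T).symm).le
  · have := (h.md2 a).trans hMC
    have h0 : (0 : ℝ) ≤ md a := Nat.cast_nonneg _
    change (md a : ℝ) / 2 ≤ _
    linarith

end Vale.Agent.P318.D
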