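import Vale.Agent.P318.D.All0
import Vale.Agent.P318.D.Sys2

/-!
Track D: the lower bound with exponent three.
-/

namespace Vale.Agent.P318.D

theorem sysD : SysStmt := sys_proof2 hashD_proof colD

theorem finalD : FinalStmt := finalD_of sysD

end Vale.Agent.P318.D
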