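import Vale.Agent.P318.D.SysStmt

/-!
Track D: existence of the parity checks.
-/

namespace Vale.Agent.P318.D

open Finset
open scoped BigOperators
open Vale.Agent.P318.R

namespace ChkL

variable {p : ℕ} {ι κ κ' : Type} [Fintype ι] [Fintype κ] [Fintype κ'] [DecidableEq ι]
  [DecidableEq κ] [DecidableEq κ']

lemma pr_short [Fact p.Prime] (hM : 400 ≤ Fintype.card ι) (hp : Fintype.card ι ≤ p)
    (hlo : Real.exp (Fintype.card ι / 200) ≤ (p : ℝ) ^ Fintype.card κ) :
    pr (fun H : κ → ι → ZMod p => ∃ k : ι → ℤ, k ≠ 0 ∧ syn H k = 0 ∧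
      ∑ j, (k j : ℝ) ^ 2 ≤ (Fintype.card ι : ℝ) / 10000) ≤ Real.exp (-1) := by
  set M : ℝ := (Fintype.card ι : ℝ) with hMdef
  have hM1 : (400 : ℝ) ≤ M := by rw [hMdef]; exact_mod_cast hM
  have hp1 : M ≤ p := by rw [hMdef]; exact_mod_cast hp
  have hq : (0 : ℝ) < (p : ℝ) ^ Fintype.card κ := (Real.exp_pos _).trans_le hlo
  set R : ℕ := ⌊M / 10000⌋₊ with hR
  have hRle : (R : ℝ) ≤ M / 10000 := Nat.floor_le (by positivity)
  have h1 : pr (fun H : κ → ι → ZMod p => ∃ k ∈ (ballZ ι R).erase 0, syn H k = 0) ≤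
      Real.exp (M / 400) * ((p : ℝ) ^ Fintype.card κ)⁻¹ := by
    refine (pr_exists_mem_le_card_mul _ _ (δ := ((p : ℝ) ^ Fintype.card κ)⁻¹)
      fun k hk => le_of_eq (pr_syn_eq_zero ?_)).trans ?_
    · obtain ⟨hk0, hk⟩ := mem_erase.1 hk
      rw [mem_ballZ] at hk
      intro h0
      apply hk0
      funext j
      have hj : ((k j : ℤ) : ZMod p) = 0 := congrFun h0 j
      rw [ZMod.intCast_zmod_eq_zero_iff_dvd] at hj
      have h2 : k j ^ 2 ≤ R :=
        (single_le_sum (f := fun j => k j ^ 2) (fun _ _ => sq_nonneg _) (mem_univ j)).trans hk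
      have h3 : ((k j : ℝ)) ^ 2 ≤ R := by exact_mod_cast h2
      have h4 : ((k j : ℝ)) ^ 2 < (p : ℝ) ^ 2 := by nlinarith
      have h5 : |k j| < (p : ℤ) := by
        have := abs_lt_of_sq_lt_sq h4 (Nat.cast_nonneg p)
        exact_mod_cast this
      exact Int.eq_zero_of_abs_lt_dvd hj h5
    · refine mul_le_mul_of_nonneg_right ?_ (by positivity)
      refine le_trans ?_ (card_ballZ_two ι hRle (by linarith))
      exact_mod_cast card_erase_le
  have h3 : Real.exp (M / 400) * ((p : ℝ) ^ Fintype.card κ)⁻¹ ≤ Real.exp (-1) := by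
    rw [← div_eq_mul_inv, div_le_iff₀ hq]
    refine le_trans ?_ (mul_le_mul_of_nonneg_left hlo (Real.exp_pos _).le)
    rw [← Real.exp_add]
    exact Real.exp_le_exp.2 (by linarith)
  refine le_trans (pr_mono ?_) (h1.trans h3)
  rintro H ⟨k, h4, h5, h6⟩
  refine ⟨k, mem_erase.2 ⟨h4, mem_ballZ.2 ?_⟩, h5⟩
  have h8 : ((∑ j, k j ^ 2 : ℤ) : ℝ) ≤ M / 10000 := by
    push_cast
    exact h6
  obtain ⟨n, hn⟩ := Int.eq_ofNat_of_zero_le
    (show (0 : ℤ) ≤ ∑ j, k j ^ 2 from sum_nonneg fun _ _ => sq_nonneg _)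
  rw [hn] at h8 ⊢
  exact_mod_cast Nat.le_floor (by exact_mod_cast h8)

/-- Parity checks whose first part already excludes short vectors. -/
lemma exists_code_ext [Fact p.Prime] (hM : 400 ≤ Fintype.card ι) (hp : Fintype.card ι ≤ p)
    (hlo : Real.exp (Fintype.card ι / 200) ≤ (p : ℝ) ^ Fintype.card κ)
    (hhi : (p : ℝ) ^ Fintype.card (κ ⊕ κ') ≤ Real.exp (Fintype.card ι / 50)) :
    ∃ H : κ ⊕ κ' → ι → ZMod p, DualFar H ∧ ∀ k : ι → ℤ, k ≠ 0 → (∀ a, syn H k (.inl a) = 0) →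
      (Fintype.card ι : ℝ) / 10000 < ∑ j, (k j : ℝ) ^ 2 := by
  have : Nonempty ι := Fintype.card_pos_iff.1 (by omega)
  have hM1 : (400 : ℝ) ≤ Fintype.card ι := by exact_mod_cast hM
  have h1 : pr (fun H : κ ⊕ κ' → ι → ZMod p => ∃ k : ι → ℤ, k ≠ 0 ∧
      syn (fun a => H (.inl a)) k = 0 ∧ ∑ j, (k j : ℝ) ^ 2 ≤ (Fintype.card ι : ℝ) / 10000) ≤
        Real.exp (-1) := by
    rw [← pr_equiv ((Equiv.prodComm _ _).trans (Equiv.sumArrowEquivProdArrow κ κ' _).symm)]
    exact pr_prod_le _ (Real.exp_pos _).le fun _ => pr_short hM hp hlo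
  have h2 : pr (fun H : κ ⊕ κ' → ι → ZMod p => ¬ DualFar H) ≤ Real.exp (-1) := by
    refine pr_not_dualFar.trans ((mul_le_mul_of_nonneg_right hhi (Real.exp_pos _).le).trans ?_)
    rw [← Real.exp_add]
    exact Real.exp_le_exp.2 (by linarith)
  have h5 := Real.exp_neg_one_lt_d9
  obtain ⟨H, hH⟩ := exists_not_of_pr_lt_one
    (lt_of_le_of_lt ((pr_or_le _ _).trans (add_le_add h1 h2)) (by linarith))
  rw [not_or, not_not] at hH
  exact ⟨H, hH.2, fun k h3 h4 => not_le.1 fun h6 => hH.1 ⟨k, h3, funext h4, h6⟩⟩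

omit [DecidableEq ι] in
/-- A sparse vector is determined by its first power sums. -/
lemma vdm {K : Type} [Field K] [DecidableEq K] {e ξ : ι → K} (he : Function.Injective e) {h : ℕ}
    (hs : (univ.filter fun l => ξ l ≠ 0).card ≤ h) (h0 : ∀ n < h, ∑ l, e l ^ n * ξ l = 0) :
    ξ = 0 := by
  set s := univ.filter fun l => ξ l ≠ 0
  have h1 := Matrix.eq_zero_of_forall_pow_sum_mul_pow_eq_zero
    (f := fun j => e (s.equivFin.symm j)) (v := fun j => ξ (s.equivFin.symm j))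
    (he.comp (Subtype.val_injective.comp s.equivFin.symm.injective)) fun i => by
      rw [s.equivFin.symm.sum_comp fun l : s => ξ l * e l ^ (i : ℕ),
        sum_coe_sort s fun l => ξ l * e l ^ (i : ℕ), ← h0 i (i.2.trans_le hs)]
      exact (sum_filter_of_ne fun l _ hl => left_ne_zero_of_mul hl).trans
        (sum_congr rfl fun l _ => mul_comm _ _)
  funext l
  by_contra hl
  have h2 : l ∈ s := mem_filter.2 ⟨mem_univ _, hl⟩
  exact hl (by simpa using congrFun h1 (s.equivFin ⟨l, h2⟩))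

end ChkL

open ChkL

/-- Existence of the parity checks. -/
theorem chk_proof : ChkStmt := by
  intro q hq A _ _ a0 m Md h h1 h2 h3 h4 h5
  have hq1 : (1 : ℝ) < q := by exact_mod_cast hq.out.one_lt
  choose r hr1 hr2 using fun a => exists_rank hq.out.two_le (h3 a)
  let h' : A → ℕ := fun a => if a = a0 then h else 0
  have h6 : ∀ a, (q : ℝ) ^ Fintype.card (Fin (r a) ⊕ Fin (h' a)) ≤ Real.exp (Md a / 50) := by
    intro a
    have h7 : (q : ℝ) ^ h' a ≤ Real.exp (Md a / 100) := by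
      by_cases e : a = a0
      · rw [show h' a = h from if_pos e, e, ← Real.exp_log (zero_lt_one.trans hq1),
          ← Real.exp_nat_mul]
        exact Real.exp_le_exp.2 (by linarith)
      · rw [show h' a = 0 from if_neg e, pow_zero]
        exact Real.one_le_exp (by positivity)
    rw [Fintype.card_sum, Fintype.card_fin, Fintype.card_fin, pow_add]
    refine (mul_le_mul (hr2 a) h7 (by positivity) (Real.exp_pos _).le).trans (le_of_eq ?_)
    rw [← Real.exp_add]
    congr 1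
    ring
  choose H hH1 hH2 using fun a => exists_code_ext (p := q) (ι := Fin (Md a)) (κ := Fin (r a))
    (κ' := Fin (h' a)) (by simpa using h1 a) (by simpa using h2 a) (by simpa using hr1 a)
    (by simpa using h6 a)
  obtain ⟨e⟩ : Nonempty (Co m Md ↪ ZMod q) :=
    Function.Embedding.nonempty_of_card_le (by rwa [ZMod.card])
  refine ⟨fun a => Fin (r a) ⊕ Fin (h' a), inferInstance, inferInstance, H,
    Sum.elim (fun _ _ => 0) fun k l => if l.1.1 = a0 then 0 else e l ^ (k : ℕ), hH1, h6, ?_,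
    fun a _ z hz h0 => ?_, fun z hz h0 => ?_, fun ξ h7 h8 h9 => vdm e.injective h8 fun n hn => ?_⟩
  · rintro (k | k) l hl
    exacts [rfl, if_pos hl]
  · simpa using hH2 a z hz fun k => congrFun h0 _
  · simpa using hH2 a0 z hz fun k => h0 _ rfl
  · rw [← h9 (.inr ⟨n, hn.trans_eq (if_pos rfl).symm⟩)]
    refine sum_congr rfl fun l _ => ?_
    by_cases hl : l.1.1 = a0
    · rw [h7 l hl, mul_zero, mul_zero]
    · simp [hl]

end Vale.Agent.P318.D
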