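import Vale.Agent.P318.D.SysStmt

/-!
Track D, existence: random partitions and the choice of the columns.
-/

namespace Vale.Agent.P318.D

open Finset
open scoped BigOperators
open Vale.Agent.P318.R (pr pr_mono pr_or_le pr_exists_le pr_exists_mem_le collR)

namespace ColP

lemma card_le_coll {ι V : Type*} [DecidableEq ι] [DecidableEq V] (π : ι → V) (T : Finset ι) :
    T.card ≤ collR π T + (T.image π).card := by
  unfold collR
  rw [← card_filter_add_card_filter_not (s := T) fun i => ∃ j ∈ T, j ≠ i ∧ π j = π i]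
  refine Nat.add_le_add_left (card_le_card_of_injOn π (fun i hi => ?_) fun i hi j hj e => ?_) _
  · exact mem_coe.2 (mem_image_of_mem π (mem_filter.1 (mem_coe.1 hi)).1)
  · by_contra h
    exact (mem_filter.1 (mem_coe.1 hj)).2 ⟨i, (mem_filter.1 (mem_coe.1 hi)).1, h, e⟩

lemma exp_sub_one_le {x : ℝ} (h0 : 0 ≤ x) (h1 : x ≤ 1 / 2) : Real.exp x - 1 ≤ 2 * x := by
  have e2 := Real.add_one_le_exp (-x)
  have e3 : Real.exp x * Real.exp (-x) = 1 := by
    rw [← Real.exp_add]; norm_num
  have e4 := Real.exp_pos x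
  have e5 : Real.exp x * (1 - x) ≤ 1 := by nlinarith
  have e6 : Real.exp x ≤ 2 := by nlinarith
  nlinarith

lemma sum_fibre {B : Type*} [Fintype B] [DecidableEq B] {F : B → Type*} [∀ b, Fintype (F b)]
    (f : (Σ b, F b) → ℝ) (b : B) :
    ∑ l ∈ univ.filter (fun l : Σ b, F b => l.1 = b), f l = ∑ j, f ⟨b, j⟩ := by
  rw [sum_filter, Fintype.sum_sigma, sum_eq_single b (fun c _ hc => by simp [hc]) (by simp)]
  simp

lemma mem_J {S : Sys} {b : S.B} {i : S.ι} : i ∈ S.J b ↔ S.pb (S.own b) i = b := by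
  simp [Sys.J]

end ColP

open ColP

theorem hashD_proof : HashDStmt := by
  intro ι A _ _ _ _ m lev L s η hη hη1 hm hL hA hs hk
  have : ∀ a, Nonempty (Fin (m a)) := fun a => ⟨⟨0, hm a⟩⟩
  have hL' : 16 * ((L : ℝ) + 1) ≤ Fintype.card ι := by exact_mod_cast hL
  have hL0 : (0 : ℝ) ≤ L := Nat.cast_nonneg _
  have hn : (0 : ℝ) < Fintype.card ι := by linarith
  have p1 : pr (fun π : (a : A) → ι → Fin (m a) => ∃ a, ∃ v : Fin (m a),
      ((univ.filter fun i => π a i = v).card : ℝ) ≤ Fintype.card ι / (2 * m a)) ≤ 1 / 4 := by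
    have k : ∀ a : A, pr (fun π : (a : A) → ι → Fin (m a) => ∃ v : Fin (m a),
        ((univ.filter fun i => π a i = v).card : ℝ) ≤ Fintype.card ι / (2 * m a)) ≤
          1 / (4 * Fintype.card A) := fun a => by
      have h0 : (0 : ℝ) < Fintype.card A := Nat.cast_pos.2 (Fintype.card_pos_iff.2 ⟨a⟩)
      have h1 : (0 : ℝ) < m a := Nat.cast_pos.2 (hm a)
      have h2 : 64 * (Fintype.card A : ℝ) * (m a : ℝ) ^ 2 ≤ Fintype.card ι := by
        exact_mod_cast hA a
      refine ((pr_exists_le _).trans (sum_le_card_nsmul _ _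
        (2 * (1 / (8 * (Fintype.card A : ℝ) * m a))) fun v _ => ?_)).trans (le_of_eq ?_)
      · have h := R.pr_size (V := fun a => Fin (m a)) (univ : Finset ι) a v
        rw [card_univ, Fintype.card_fin] at h
        refine ((pr_mono fun π hπ => Or.inl hπ).trans h).trans ?_
        refine mul_le_mul_of_nonneg_left ?_ (by norm_num)
        rw [Real.exp_neg, one_div]
        refine inv_anti₀ (by positivity) ?_
        have h3 : 8 * (Fintype.card A : ℝ) * m a ≤ Fintype.card ι / (8 * m a) := by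
          rw [le_div_iff₀ (by positivity)]
          linarith
        linarith [Real.add_one_le_exp ((Fintype.card ι : ℝ) / (8 * m a))]
      · rw [card_univ, Fintype.card_fin, nsmul_eq_mul]
        field_simp
        norm_num
    refine ((pr_exists_le _).trans (sum_le_card_nsmul _ _ _ fun a _ => k a)).trans ?_
    rw [card_univ, nsmul_eq_mul, mul_one_div]
    exact div_le_of_le_mul₀ (by positivity) (by norm_num) (by linarith)
  have p2 : pr (fun π : (a : A) → ι → Fin (m a) => ∃ k ∈ Icc 1 L, ∃ T : Finset ι,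
      (T.card : ℝ) ≤ s k ∧ η * T.card * (univ.filter fun a => lev a = k).card <
        ∑ a ∈ univ.filter fun a => lev a = k, (collR (π a) T : ℝ)) ≤ 1 / 8 := by
    refine (R.pr_exists_mem_le_card_mul _ _ (δ := 2 * (1 / Fintype.card ι)) fun k hk' => ?_).trans ?_
    · obtain ⟨k1, k2⟩ := mem_Icc.1 hk'
      refine (R.pr_coll (V := fun a => Fin (m a)) _ fun a ha => ?_).trans ?_
      · obtain rfl := (mem_filter.1 ha).2
        rw [Fintype.card_fin]
        exact hs a k1
      · have h2 : Fintype.card ι * Real.exp (-(η * (univ.filter fun a => lev a = k).card / 4)) ≤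
            1 / Fintype.card ι := by
          have h3 : Real.exp (-(η * (univ.filter fun a => lev a = k).card / 4)) ≤
              Real.exp (-Real.log (Fintype.card ι)) * Real.exp (-Real.log (Fintype.card ι)) := by
            rw [← Real.exp_add]
            exact Real.exp_le_exp.2 (by linarith [hk k k1 k2])
          rw [Real.exp_neg (Real.log _), Real.exp_log hn] at h3
          refine (mul_le_mul_of_nonneg_left h3 hn.le).trans (le_of_eq ?_)
          field_simp
        have h4 := exp_sub_one_le (x := 1 / Fintype.card ι) (by positivity)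
          (one_div_le_one_div_of_le (by norm_num) (by linarith))
        linarith [Real.exp_le_exp.2 h2]
    · rw [Nat.card_Icc, Nat.add_sub_cancel, mul_one_div, ← mul_div_assoc, div_le_iff₀ hn]
      linarith
  obtain ⟨π, hπ⟩ := R.exists_not_of_pr_lt_one
    (lt_of_le_of_lt ((pr_or_le _ _).trans (add_le_add p1 p2)) (by norm_num))
  obtain ⟨g1, g2⟩ := not_or.1 hπ
  refine ⟨π, fun a v => (not_le.1 fun h => g1 ⟨a, v, h⟩).le, fun k k1 k2 T hT => ?_⟩
  have h1 := not_lt.1 fun h => g2 ⟨k, mem_Icc.2 ⟨k1, k2⟩, T, hT, h⟩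
  have h2 := card_nsmul_le_sum (univ.filter fun a => lev a = k)
    (fun a => (collR (π a) T : ℝ) + (T.image (π a)).card) T.card
    fun a _ => by exact_mod_cast card_le_coll (π a) T
  rw [sum_add_distrib, nsmul_eq_mul] at h2
  linarith

theorem col_proof (h1 : ChkStmt) (h2 : Law1Stmt) (h3 : Law2Stmt) (h4 : RipExStmt)
    (h5 : SpreadExStmt) : ColStmt := by
  obtain ⟨C, hC, h4⟩ := h4
  refine ⟨10 * C, by linarith, ?_⟩
  intro q _ ι A _ _ _ _ a0 m Md D h π δ n0 Ne hδ hδ4 hq ha0 hM hMq hMl hh hCo hι hD hDl hql hn0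
    hNe hn1
  obtain ⟨Ω, _, ρ, L1, L2⟩ : ∃ (Ω : Type) (_ : Fintype Ω)
      (ρ : ι → Ω → (a : A) → Fin (Md a) → ℤ), Law1 q a0 π ρ h ∧ Law2 q π ρ := by
    obtain ⟨κ, _, _, H, G, hc⟩ := h1 q A a0 m Md h hM hMq hMl hh hCo
    exact ⟨_, _, _, h2 q ι A a0 m Md h κ H G π ha0 hM hc, h3 q ι A a0 m Md h κ H G π ha0 hM hMl hc⟩
  have := L1.ne
  have hq' : (100 : ℝ) ≤ q := by exact_mod_cast hq
  have hq0 : (0 : ℝ) < q := by linarith
  have hι' : (Fintype.card ι : ℝ) ≤ q := by exact_mod_cast hι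
  have hlg : 0 ≤ Real.log (Fintype.card ι + 2) :=
    Real.log_nonneg (by linarith [(Nat.cast_nonneg (Fintype.card ι) : (0 : ℝ) ≤ _)])
  have hB : (Fintype.card (Σ a : A, Fin (m a)) : ℝ) ≤ q := by
    have : Fintype.card (Σ a : A, Fin (m a)) ≤ Fintype.card (Co m Md) :=
      Fintype.card_le_of_injective (fun b => ⟨b, ⟨0, by have := hM b.1; omega⟩⟩)
        fun b b' e => congrArg Sigma.fst e
    exact_mod_cast this.trans hCo
  have p2 := h5 q ι A m Md π Ω ρ D n0 Ne L1.ent L2 hn0 hNe hn1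
  have k := fun b : Σ a : A, Fin (m a) => h4 ι Ω (Fin (Md b.1)) (fun i ω j => (ρ i ω b.1 j : ℝ))
    (univ.filter fun i => π b.1 i = b.2) (D b.1) δ hδ hδ4 (fun i _ => L1.sg i b.1)
    (fun i _ t ht => by simpa using L1.nc i b.1 t ht) (by
      rw [Fintype.card_fin]
      have h6 : 0 ≤ C * (D b.1 + 1) * Real.log (Fintype.card ι + 2) := by positivity
      linarith [hDl b.1])
  simp only [Fintype.card_fin] at k
  have p1 := (pr_exists_le _).trans (sum_le_card_nsmul _ _ (8 * q * (1 / (q : ℝ) ^ 10))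
    fun b _ => (k b).trans (mul_le_mul (by linarith) (by
      have e : 1 / (q : ℝ) ^ 10 = Real.exp (-(10 * Real.log q)) := by
        rw [Real.exp_neg, one_div, mul_comm, Real.exp_mul, Real.exp_log hq0]
        norm_num
      rw [e]
      refine Real.exp_le_exp.2 (neg_le_neg ?_)
      rw [le_div_iff₀ (by linarith)]
      linarith [hql b.1]) (Real.exp_pos _).le (by positivity)))
  have p3 : (univ : Finset (Σ a : A, Fin (m a))).card • (8 * q * (1 / (q : ℝ) ^ 10)) ≤ 1 / 4 := by
    rw [card_univ, nsmul_eq_mul]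
    refine (mul_le_mul_of_nonneg_right hB (by positivity)).trans ?_
    have e : q * (8 * q * (1 / (q : ℝ) ^ 10)) = 8 / (q : ℝ) ^ 8 := by field_simp
    have h7 : (100 : ℝ) ≤ (q : ℝ) ^ 8 := hq'.trans (le_self_pow₀ (by linarith) (by norm_num))
    rw [e, div_le_iff₀ (by positivity)]
    linarith
  obtain ⟨x, hx⟩ := R.exists_not_of_pr_lt_one
    (lt_of_le_of_lt ((pr_or_le _ _).trans (add_le_add (p1.trans p3) p2)) (by norm_num))
  obtain ⟨g1, g2⟩ := not_or.1 hx
  have rip : (mkSys q π (fun i => ρ i (x i)) D).RIP δ := by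
    rintro ⟨(a : A), (v : Fin (m a))⟩ (T : Finset ι) hT hc z
    have hT' : T ⊆ univ.filter fun i => π a i = v :=
      fun i hi => mem_filter.2 ⟨mem_univ _, eq_of_heq (Sigma.mk.inj (mem_J.1 (hT hi))).2⟩
    have e : (mkSys q π (fun i => ρ i (x i)) D).sq ⟨a, v⟩
        ((mkSys q π (fun i => ρ i (x i)) D).comb T z) =
        ∑ j, (∑ i ∈ T, z i * (ρ i (x i) a j : ℝ)) ^ 2 := by
      refine (sum_fibre (F := fun b : Σ a : A, Fin (m a) => Fin (Md b.1)) _ ⟨a, v⟩).trans ?_
      refine sum_congr rfl fun j _ => congrArg (· ^ 2) (sum_congr rfl fun i hi => ?_)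
      have : (mkSys q π (fun i => ρ i (x i)) D).n i ⟨⟨a, v⟩, j⟩ = ρ i (x i) a j :=
        if_pos (mem_filter.1 (hT' hi)).2
      rw [this]
    rw [e]
    exact not_not.1 (fun h => g1 ⟨⟨a, v⟩, h⟩) T hT' hc z
  have hν : ∀ a, (1 : ℝ) ≤ (Md a : ℝ) / 2 := fun a => by
    have : (400 : ℝ) ≤ Md a := by exact_mod_cast hM a
    linarith
  refine ⟨fun i => ρ i (x i), ⟨fun _ _ => rfl, fun i l => ?_, fun i l hl => ?_, fun i => ?_, hν, hD,
    hq⟩, rip, L1.code x D, not_not.1 g2⟩
  · show col π i _ l = 0 ∨ col π i _ l = 1 ∨ col π i _ l = -1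
    unfold col
    split_ifs
    · exact L1.ent _ _ _ _
    · exact Or.inl rfl
  · have : π l.1.1 i = l.1.2 := by
      by_contra h
      exact hl (if_neg h)
    exact Sigma.ext rfl (heq_of_eq this)
  · by_contra hz
    push Not at hz
    have h6 := (rip ⟨a0, π a0 i⟩ {i} (fun j hj => by
      rw [mem_singleton.1 hj]; exact mem_J.2 rfl)
      (by rw [card_singleton]; exact hD a0) fun _ => 1).1
    simp only [Sys.sq, Sys.comb, sum_singleton, hz, Int.cast_zero, mul_zero, one_pow, mul_one,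
      ne_eq, OfNat.ofNat_ne_zero, not_false_eq_true, zero_pow, sum_const_zero] at h6
    have h7 : 0 < (1 - δ) * ((Md a0 : ℝ) / 2) := mul_pos (by linarith) (by linarith [hν a0])
    exact absurd h6 (not_le.2 h7)

end Vale.Agent.P318.D
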