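import Vale.Agent.P318.D.Stmt

/-!
Track D: the activity of one family of partitions is controlled by the activity of another one,
and the trivial bound.
-/

namespace Vale.Agent.P318.D

open Finset
open scoped BigOperators

namespace Cross

variable {S : Sys} {F : Fn S} {δ ε T p Ξ m E m' E' : ℝ} {τ : S.B → ℝ} {Sh : ℕ} {P : S.P}
  {R R' : Finset S.P}

theorem ind_pos {q : Prop} (h : q) : ind q = 1 := if_pos h

theorem ind_neg {q : Prop} (h : ¬q) : ind q = 0 := if_neg h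

theorem ind_nonneg (q : Prop) : 0 ≤ ind q := by
  by_cases h : q
  · rw [ind_pos h]; exact zero_le_one
  · rw [ind_neg h]

theorem ind_le_one (q : Prop) : ind q ≤ 1 := by
  by_cases h : q
  · rw [ind_pos h]
  · rw [ind_neg h]; exact zero_le_one

/-- The number of active blocks of a partition. -/
noncomputable def ac (S : Sys) (P : S.P) (ξ : S.G) : ℝ := ∑ b ∈ S.Bl P, ind (S.act b ξ)

theorem ac_nonneg (ξ : S.G) : 0 ≤ ac S P ξ := sum_nonneg fun _ _ => ind_nonneg _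

theorem cnt_nonneg (ξ : S.G) : 0 ≤ S.cnt R ξ :=
  div_nonneg (sum_nonneg fun _ _ => ac_nonneg ξ) (Nat.cast_nonneg _)

theorem sum_cnt (w : S.G → ℝ) :
    ∑ ξ, w ξ * S.cnt R ξ = (∑ P ∈ R, ∑ ξ, w ξ * ac S P ξ) / R.card := by
  rw [sum_comm, sum_div]
  exact sum_congr rfl fun ξ _ => by rw [← mul_sum, mul_div_assoc]; rfl

theorem avg_le (hR : R.Nonempty) {u v : S.P → ℝ} {K x : ℝ} (h : ∀ P ∈ R, u P ≤ K * v P + x) :
    (∑ P ∈ R, u P) / R.card ≤ K * ((∑ P ∈ R, v P) / R.card) + x := by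
  have h0 : (0 : ℝ) < R.card := Nat.cast_pos.2 hR.card_pos
  have h1 := sum_le_sum h
  rw [sum_add_distrib, ← mul_sum, sum_const, nsmul_eq_mul] at h1
  rw [div_le_iff₀ h0, add_mul, mul_assoc, div_mul_cancel₀ _ h0.ne', mul_comm x]
  exact h1

theorem W_nonneg (f : S.G → ℝ) (ξ : S.G) : 0 ≤ S.W f ξ := sq_nonneg _

theorem Wm_nonneg (ξ : S.G) : 0 ≤ F.Wm τ ξ := mul_nonneg (W_nonneg _ _) (sq_nonneg _)

theorem Wm_le (hN : Noise S) (hτ : S.Rate τ) (ξ : S.G) : F.Wm τ ξ ≤ S.W F.f ξ :=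
  mul_le_of_le_one_right (W_nonneg _ _)
    (pow_le_one₀ (hN.mu_mem τ ξ hτ).1 (hN.mu_mem τ ξ hτ).2)

theorem sum_W_le (hB : Basic S) (hF : F.OK) : ∑ ξ, S.W F.f ξ ≤ 1 := by
  rw [← hB.parseval]
  exact expect_le univ_nonempty fun β _ => pow_le_one₀ (hF.nonneg β) (hF.le_one β)

theorem I_nonneg : 0 ≤ F.I := sum_nonneg fun _ _ => expect_nonneg fun _ _ => abs_nonneg _

theorem Ee_nonneg : 0 ≤ F.Ee := sum_nonneg fun _ _ => expect_nonneg fun _ _ => abs_nonneg _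

theorem EP_nonneg : 0 ≤ F.EP P :=
  add_nonneg (div_nonneg I_nonneg (Real.sqrt_nonneg _)) Ee_nonneg

theorem HM_nonneg : 0 ≤ F.HM Ξ := sum_nonneg fun _ _ => mul_nonneg (W_nonneg _ _) (ind_nonneg _)

theorem E_nonneg (h : Fam F R m E) : 0 ≤ E :=
  h.ne.elim fun P hP => EP_nonneg.trans (h.err P hP)

theorem Er_le (hp : 0 ≤ p) (h : F.EP P ≤ E) :
    F.Er p P m m' E' ≤ √p * E + √m * E' + √m' * E := by
  have h1 : F.I / √(S.D P) ≤ E := (le_add_of_nonneg_right Ee_nonneg).trans h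
  unfold Fn.Er
  rw [Real.sqrt_div hp, div_mul_eq_mul_div, mul_div_assoc]
  gcongr

/-- The small symbol errors. -/
noncomputable def sm (S : Sys) (T p Ξ : ℝ) : ℝ :=
  Real.exp (-p) + T * S.M ^ 2 * Ξ ^ 6 / (S.q : ℝ) ^ 4

theorem sm_nonneg (hT : 0 ≤ T) : 0 ≤ sm S T p Ξ := by
  unfold sm
  positivity

theorem le_Ty (hT : 0 ≤ T) :
    (Sh + 1) * (S.N * (F.HM Ξ + sm S T p Ξ)) ≤ F.Ty T p Ξ Sh ∧ S.M * F.HM Ξ ≤ F.Ty T p Ξ Sh := by
  have h1 : 0 ≤ S.N := Nat.cast_nonneg _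
  have h2 : 0 ≤ S.M := Nat.cast_nonneg _
  have h3 : 0 ≤ F.HM Ξ := HM_nonneg
  have h4 : 0 ≤ sm S T p Ξ := sm_nonneg hT
  have h5 : 0 ≤ T * F.I / S.q := div_nonneg (mul_nonneg hT I_nonneg) (Nat.cast_nonneg _)
  have h6 : (0 : ℝ) ≤ Sh := Nat.cast_nonneg _
  have e : F.Ty T p Ξ Sh = (Sh + 1) * ((S.N + S.M) * (F.HM Ξ + sm S T p Ξ + T * F.I / S.q)) := by
    unfold Fn.Ty sm
    ring
  rw [e]
  refine ⟨mul_le_mul_of_nonneg_left (mul_le_mul (by linarith) (by linarith) (by linarith)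
    (by linarith)) (by linarith), ?_⟩
  calc S.M * F.HM Ξ = 1 * (S.M * F.HM Ξ) := (one_mul _).symm
    _ ≤ _ := by gcongr <;> linarith

theorem sqrt_shell (j : ℕ) : √(T / 4 ^ j) = √T * (1 / 2) ^ j := by
  rw [Real.sqrt_div' _ (by positivity), show (4 : ℝ) ^ j = (2 ^ j) ^ 2 by
    rw [← pow_mul, mul_comm, pow_mul]; norm_num, Real.sqrt_sq (by positivity), one_div, inv_pow,
    div_eq_mul_inv]

theorem sum_sqrt (k : ℕ) : ∑ j ∈ range k, √(T / 4 ^ j) ≤ √T * 2 := by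
  simp only [sqrt_shell, ← mul_sum]
  exact mul_le_mul_of_nonneg_left (sum_geometric_two_le k) (Real.sqrt_nonneg _)

theorem hyp (h : Hyp2 S F δ τ T p Ξ Sh) (h0 : 0 < δ) (h1 : δ ≤ 1 / 4) (h' : Fam F R' m E)
    (hP : P ∈ R') (hR : Fam F R m' E') {j : ℕ} (hj : j ∈ range (Sh + 1)) :
    Hyp S F δ τ (T / 4 ^ j) p P R m m' E' := by
  have hT := h.num.one_le_T
  refine ⟨h0, h1, h.wf, h.rip, h.ok, h.rate, by positivity, h.num.one_le_p, h.num.p_le_D P, ?_,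
    h'.one_le, h'.blocks P hP, hR⟩
  have h2 : (1 : ℝ) ≤ √T := Real.one_le_sqrt.2 hT
  have h3 : (1 / 2 : ℝ) ^ Sh ≤ (1 / 2) ^ j :=
    pow_le_pow_of_le_one (by norm_num) (by norm_num) (Nat.lt_succ_iff.1 (mem_range.1 hj))
  calc 100 * S.ν P = 100 * S.ν P * 2 ^ Sh * (1 * (1 / 2) ^ Sh) := by
        rw [one_mul, mul_assoc, ← mul_pow]; norm_num
    _ ≤ S.q * (√T * (1 / 2) ^ j) := by gcongr; exact h.num.fine P
    _ = _ := by rw [sqrt_shell]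

/-- The energy over all shells sees the active blocks. -/
theorem lower (hB : Basic S) (hN : Noise S) (h : Hyp2 S F δ τ T p Ξ Sh)
    (h1 : ∀ b ξ (t : ℝ), 0 ≤ t → 0 ≤ S.xw t b ξ)
    (h2 : ∀ b ξ, S.low Ξ ξ → S.ν (S.own b) ≤ T * S.sq b (S.cv0 ξ) →
      ∃ j ≤ Sh, 1 / 2 ≤ S.xw (T / 4 ^ j) b ξ) :
    ∑ ξ, F.Wm τ ξ * ac S P ξ ≤
      2 * ∑ j ∈ range (Sh + 1), ∑ ξ, F.Wm τ ξ * ∑ b ∈ S.Bl P, S.xw (T / 4 ^ j) b ξ +
        F.Ty T p Ξ Sh := by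
  have hT : 0 ≤ T := zero_le_one.trans h.num.one_le_T
  have h3 : ∀ b ξ (j : ℕ), 0 ≤ S.xw (T / 4 ^ j) b ξ := fun b ξ j => h1 b ξ _ (by positivity)
  refine le_trans ?_ (add_le_add_right (le_Ty hT).2 _)
  rw [sum_comm, mul_sum, Fn.HM, mul_sum, ← sum_add_distrib]
  refine sum_le_sum fun ξ _ => ?_
  rw [← mul_sum, sum_comm]
  have h4 : 0 ≤ ∑ b ∈ S.Bl P, ∑ j ∈ range (Sh + 1), S.xw (T / 4 ^ j) b ξ :=
    sum_nonneg fun b _ => sum_nonneg fun j _ => h3 b ξ j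
  have h5 := Wm_nonneg (F := F) (τ := τ) ξ
  have h6 := Wm_le (F := F) hN h.rate ξ
  by_cases hl : S.low Ξ ξ
  · rw [ind_neg (not_not.2 hl), mul_zero, mul_zero, add_zero, mul_left_comm]
    by_cases hW : S.W F.f ξ = 0
    · rw [le_antisymm (hW ▸ h6) h5, zero_mul, zero_mul]
    refine mul_le_mul_of_nonneg_left ?_ h5
    rw [mul_sum]
    refine sum_le_sum fun b _ => ?_
    by_cases hb : S.act b ξ
    · obtain ⟨j, hj, e⟩ := h2 b ξ hl (h.minD ξ hW b hb)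
      have := single_le_sum (f := fun j : ℕ => S.xw (T / 4 ^ j) b ξ) (fun j _ => h3 b ξ j)
        (mem_range.2 (Nat.lt_succ_of_le hj))
      rw [ind_pos hb]
      linarith
    · rw [ind_neg hb]
      exact mul_nonneg zero_le_two (sum_nonneg fun j _ => h3 b ξ j)
  · rw [ind_pos hl, mul_one]
    have := mul_le_mul h6 (hB.sum_act P ξ) (ac_nonneg ξ) (W_nonneg _ _)
    unfold ac
    nlinarith [mul_nonneg h5 h4]

/-- The symbol of the test vector in one block. -/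
theorem block_le {C t : ℝ} {b : S.B} {ξ : S.G} (hN : Noise S) (hR : RipL S δ) (h0 : 0 < δ)
    (h1 : δ ≤ 1 / 4) (hC : 1 ≤ C) (ht : t ≤ T) (hT : 0 ≤ T) (hx : 0 ≤ S.xw t b ξ)
    (h2 : ∀ i ∈ S.J b, S.hw t p i b ξ ≤ C)
    (h3 : S.low Ξ ξ → ∀ (w : S.ι → ℝ) (ψ : ℝ), (∀ i, 0 ≤ w i ∧ w i ≤ 1) → 0 ≤ ψ →
      (∀ A : Finset S.ι, A ⊆ S.J b → A.card ≤ S.D (S.own b) →
        ∑ i ∈ A, w i ^ 2 * S.dotb i b (S.cv0 ξ) ^ 2 ≤
          ψ * ((1 + δ) * S.ν (S.own b) * S.sq b (S.cv0 ξ))) →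
      ∑ i ∈ S.J b, w i ^ 2 * S.hw t p i b ξ ≤ (1 + δ) ^ 3 * ψ * S.xw t b ξ +
        C / δ * (S.J b).card * (Real.exp (-p) + t * S.M ^ 2 * Ξ ^ 6 / (S.q : ℝ) ^ 4)) :
    ∑ i ∈ S.J b, S.om R i ξ ^ 2 * S.hw t p i b ξ ≤
      2 * ε ^ 2 * S.xw t b ξ + 2 * (ind (S.Om R ε ξ ∩ S.J b).Nonempty * S.xw t b ξ) +
        C / δ * (ind (¬S.low Ξ ξ) + sm S T p Ξ) * ∑ _i ∈ S.J b, (1 : ℝ) := by
  have h4 := sm_nonneg (S := S) (p := p) (Ξ := Ξ) hT
  have h5 := ind_nonneg (S.Om R ε ξ ∩ S.J b).Nonempty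
  have h6 : ∀ i, S.om R i ξ ^ 2 ≤ 1 := fun i =>
    pow_le_one₀ (hN.om_mem R i ξ).1 (hN.om_mem R i ξ).2
  have h7 : C ≤ C / δ := le_div_self (by linarith) h0 (by linarith)
  by_cases hl : S.low Ξ ξ
  · have h8 : ∀ i ∈ S.J b, S.om R i ξ ^ 2 ≤ ε ^ 2 + ind (S.Om R ε ξ ∩ S.J b).Nonempty := by
      intro i hi
      by_cases he : ε ≤ S.om R i ξ
      · rw [ind_pos ⟨i, mem_inter.2 ⟨by simpa [Sys.Om] using he, hi⟩⟩]
        linarith [h6 i, sq_nonneg ε]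
      · linarith [pow_le_pow_left₀ (hN.om_mem R i ξ).1 (not_le.1 he).le 2]
    refine (h3 hl (fun i => S.om R i ξ) (ε ^ 2 + ind (S.Om R ε ξ ∩ S.J b).Nonempty)
      (fun i => hN.om_mem R i ξ) (by positivity) fun A hA hc => ?_).trans ?_
    · refine le_trans ?_ (mul_le_mul_of_nonneg_left (hR.up b A _ hA hc) (by positivity))
      rw [mul_sum]
      exact sum_le_sum fun i hi => mul_le_mul_of_nonneg_right (h8 i (hA hi)) (sq_nonneg _)
    · rw [ind_neg (not_not.2 hl), zero_add, sum_const, nsmul_one, mul_right_comm (C / δ) (sm S T p Ξ),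
        show 2 * ε ^ 2 * S.xw t b ξ + 2 * (ind (S.Om R ε ξ ∩ S.J b).Nonempty * S.xw t b ξ) =
          2 * (ε ^ 2 + ind (S.Om R ε ξ ∩ S.J b).Nonempty) * S.xw t b ξ by ring]
      have h9 : (1 + δ) ^ 3 ≤ 2 :=
        (pow_le_pow_left₀ (by linarith) (by linarith : 1 + δ ≤ 5 / 4) 3).trans (by norm_num)
      have h10 : 0 ≤ C / δ := by positivity
      unfold sm
      gcongr
  · rw [ind_pos hl, mul_sum]
    refine le_add_of_nonneg_of_le (by positivity) (sum_le_sum fun i hi => ?_)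
    have := mul_le_mul_of_nonneg_left (h2 i hi) (sq_nonneg (S.om R i ξ))
    nlinarith [h6 i, mul_nonneg (by linarith : 0 ≤ C / δ) h4]

end Cross

open Cross

theorem top_proof (hB : BasicStmt) (hN : NoiseStmt) (hC : Core0Stmt) (hS : SymStmt)
    (hSh : ShellStmt) : TopStmt := by
  obtain ⟨C, hC1, hC⟩ := hC
  obtain ⟨_, -, hSh⟩ := hSh
  refine ⟨4 * C, by linarith, fun S F δ T p Ξ Sh R m E h0 h1 h hR => ?_⟩
  have hT : 0 ≤ T := zero_le_one.trans h.num.one_le_T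
  have hI : 0 ≤ F.I + F.Ee := add_nonneg I_nonneg Ee_nonneg
  have hy : 0 ≤ F.Ty T p Ξ Sh :=
    (mul_nonneg (Nat.cast_nonneg _) HM_nonneg).trans (le_Ty hT).2
  have e : ∀ ξ, S.W F.f ξ = F.Wm (fun _ => 0) ξ := fun ξ => by simp [Fn.Wm, Sys.mu]
  simp only [e, sum_cnt]
  refine (avg_le (v := fun _ => 0) (K := 0) hR.ne fun P hP => ?_).trans (by rw [zero_mul, zero_add])
  refine (lower (hB S) (hN S) h (fun b ξ => (hSh S b ξ h.wf).1) fun b ξ h2 h3 =>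
    ((hSh S b ξ h.wf).2.2 δ T p Ξ Sh h1 h.num h2 h3).imp fun _ hj => ⟨hj.1, hj.2.2⟩).trans ?_
  have h2 : ∑ j ∈ range (Sh + 1), ∑ ξ, F.Wm (fun _ => 0) ξ * ∑ b ∈ S.Bl P, S.xw (T / 4 ^ j) b ξ ≤
      ∑ j ∈ range (Sh + 1), C * (F.I + F.Ee) * √(T / 4 ^ j) := sum_le_sum fun j hj => by
    have h3 := hyp h h0 h1 hR hP hR hj
    rw [← (hS S F _ _ p P h.wf h3.t_pos (zero_le_one.trans h3.one_le_p)).1, mul_right_comm]
    exact (hC S F δ _ _ p P R m m E h3).2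
  rw [← mul_sum] at h2
  have h3 := mul_le_mul_of_nonneg_left (sum_sqrt (T := T) (Sh + 1))
    (mul_nonneg (zero_le_one.trans hC1) hI)
  nlinarith [mul_le_mul_of_nonneg_right hC1 hy]

theorem cross_proof (hB : BasicStmt) (hN : NoiseStmt) (hC : Core0Stmt) (hS : SymStmt)
    (hP : PtStmt) (hSh : ShellStmt) (hE : ExpStmt) (hR : RipStmt) : CrossStmt := by
  obtain ⟨C, hC1, hC⟩ := hC
  obtain ⟨Cp, hP1, hP⟩ := hP
  obtain ⟨Cs, hS1, hSh⟩ := hSh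
  intro δ ε h0 h1 h2 h3
  have h1' : δ ≤ 1 / 4 := by linarith
  have k1 : 0 ≤ 8 * C / δ := by positivity
  have k2 : 0 ≤ 8 * Cp / δ := by positivity
  have k3 : 16 * Cs ≤ 32 * Cs / ε := by
    rw [le_div_iff₀ h2]
    nlinarith
  refine ⟨32 * Cs / ε + 8 * C / δ + 8 * Cp / δ + 1, by linarith, fun S F τ T p Ξ Sh R' R m E m' E'
    s hi h hR' hR'' hX hs => ?_⟩
  have hT : 0 ≤ T := zero_le_one.trans h.num.one_le_T
  have hp : 0 ≤ p := zero_le_one.trans h.num.one_le_p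
  have hy : 0 ≤ F.Ty T p Ξ Sh :=
    (mul_nonneg (Nat.cast_nonneg _) HM_nonneg).trans (le_Ty hT).2
  have hW := Wm_nonneg (F := F) (τ := τ)
  obtain ⟨e, he⟩ : ∃ e, e = √p * E + √m * E' + √m' * E := ⟨_, rfl⟩
  have he0 : 0 ≤ e := by
    have := E_nonneg hR'
    have := E_nonneg hR''
    rw [he]
    positivity
  obtain ⟨B, hBe⟩ : ∃ B, B = ∑ ξ, F.Wm τ ξ * S.cnt R ξ := ⟨_, rfl⟩
  have hB0 : 0 ≤ B := hBe ▸ sum_nonneg fun ξ _ => mul_nonneg (hW ξ) (cnt_nonneg ξ)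
  have hA0 : 0 ≤ ∑ ξ, F.Wm τ ξ * S.cnt R' ξ * ind (hi < S.cnt R ξ) :=
    sum_nonneg fun ξ _ => mul_nonneg (mul_nonneg (hW ξ) (cnt_nonneg ξ)) (ind_nonneg _)
  have key : ∑ ξ, F.Wm τ ξ * S.cnt R' ξ ≤
      16 * Cs * ∑ ξ, F.Wm τ ξ * S.cnt R' ξ * ind (hi < S.cnt R ξ) +
        (32 * Cs / ε * B + 8 * C / δ * (√T * e) + (8 * Cp / δ + 1) * F.Ty T p Ξ Sh) := by
    simp only [mul_right_comm _ (S.cnt R' _), sum_cnt]
    refine avg_le hR'.ne fun P hPm => ?_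
    refine (lower (hB S) (hN S) h (fun b ξ => (hSh S b ξ h.wf).1) fun b ξ h2 h3 =>
      ((hSh S b ξ h.wf).2.2 δ T p Ξ Sh h1' h.num h2 h3).imp fun _ hj => ⟨hj.1, hj.2.2⟩).trans ?_
    have s1 : ∀ j ∈ range (Sh + 1), ∑ ξ, F.Wm τ ξ * ∑ b ∈ S.Bl P, S.xw (T / 4 ^ j) b ξ ≤
        8 * ∑ ξ, F.Wm τ ξ * ∑ b ∈ S.Bl P,
          ind (S.Om R ε ξ ∩ S.J b).Nonempty * S.xw (T / 4 ^ j) b ξ +
        4 * Cp / δ * (S.N * (F.HM Ξ + sm S T p Ξ)) + 2 * C / δ * e * √(T / 4 ^ j) := by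
      intro j hj
      have h4 := hyp h h0 h1' hR' hPm hR'' hj
      have hx : ∀ b ξ, 0 ≤ S.xw (T / 4 ^ j) b ξ := fun b ξ => (hSh S b ξ h.wf).1 _ h4.t_pos.le
      obtain ⟨e1, e2⟩ := hS S F τ _ p P h.wf h4.t_pos hp
      have h5 := (hC S F δ τ _ p P R m m' E' h4).1
      rw [e1, (e2 R hR''.ne).1] at h5
      have h6 : ∑ ξ, F.Wm τ ξ * ∑ b ∈ S.Bl P, ∑ i ∈ S.J b,
          S.om R i ξ ^ 2 * S.hw (T / 4 ^ j) p i b ξ ≤
          2 * ε ^ 2 * ∑ ξ, F.Wm τ ξ * ∑ b ∈ S.Bl P, S.xw (T / 4 ^ j) b ξ +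
          2 * ∑ ξ, F.Wm τ ξ * ∑ b ∈ S.Bl P,
            ind (S.Om R ε ξ ∩ S.J b).Nonempty * S.xw (T / 4 ^ j) b ξ +
          Cp / δ * (S.N * (F.HM Ξ + sm S T p Ξ)) := by
        have h7 : ∑ ξ, F.Wm τ ξ * (ind (¬S.low Ξ ξ) + sm S T p Ξ) ≤ F.HM Ξ + sm S T p Ξ := by
          simp only [mul_add, sum_add_distrib, ← sum_mul]
          refine add_le_add (sum_le_sum fun ξ _ => mul_le_mul_of_nonneg_right
            (Wm_le (hN S) h.rate ξ) (ind_nonneg _)) (mul_le_of_le_one_left (sm_nonneg hT) ?_)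
          exact (sum_le_sum fun ξ _ => Wm_le (hN S) h.rate ξ).trans (sum_W_le (hB S) h.ok)
        refine le_trans ?_ (add_le_add_right (mul_le_mul_of_nonneg_left
          (mul_le_mul_of_nonneg_left h7 (Nat.cast_nonneg _)) (by positivity)) _)
        rw [mul_sum, mul_sum, mul_sum, mul_sum, ← sum_add_distrib, ← sum_add_distrib]
        refine sum_le_sum fun ξ _ => ?_
        have h8 := sum_le_sum fun b (_ : b ∈ S.Bl P) => block_le (R := R) (ε := ε) (hN S)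
          (hR S δ h0 h1' h.wf h.rip) h0 h1' hP1 (div_le_self hT (one_le_pow₀ (by norm_num))) hT
          (hx b ξ) (hP S δ T p Ξ Sh _ b ξ h0 h1' h.wf h.rip h.num h4.t_pos).1
          (hP S δ T p Ξ Sh _ b ξ h0 h1' h.wf h.rip h.num h4.t_pos).2
        rw [sum_add_distrib, sum_add_distrib, ← mul_sum, ← mul_sum, ← mul_sum,
          (hB S).sum_J h.wf P, sum_const, nsmul_one, card_univ] at h8
        refine (mul_le_mul_of_nonneg_left h8 (hW ξ)).trans_eq ?_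
        ring
      have h7 : 0 ≤ ∑ ξ, F.Wm τ ξ * ∑ b ∈ S.Bl P, S.xw (T / 4 ^ j) b ξ :=
        sum_nonneg fun ξ _ => mul_nonneg (hW ξ) (sum_nonneg fun b _ => hx b ξ)
      have h8 : 0 ≤ ∑ ξ, F.Wm τ ξ * ∑ b ∈ S.Bl P,
          ind (S.Om R ε ξ ∩ S.J b).Nonempty * S.xw (T / 4 ^ j) b ξ :=
        sum_nonneg fun ξ _ => mul_nonneg (hW ξ)
          (sum_nonneg fun b _ => mul_nonneg (ind_nonneg _) (hx b ξ))
      have h9 : 0 ≤ Cp / δ * (S.N * (F.HM Ξ + sm S T p Ξ)) := mul_nonneg (by positivity)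
        (mul_nonneg (Nat.cast_nonneg _) (add_nonneg HM_nonneg (sm_nonneg hT)))
      have h10 := mul_le_mul_of_nonneg_left (he ▸ Er_le (m := m) (m' := m') (E' := E') hp
        (hR'.err P hPm)) (by positivity : 0 ≤ C * √(T / 4 ^ j) / δ)
      have h11 := (mul_le_mul_of_nonneg_left h6 (by linarith : 0 ≤ 1 + 3 * δ)).trans
        (mul_le_mul_of_nonneg_right (by linarith : 1 + 3 * δ ≤ 2) (by positivity))
      have h12 := mul_le_mul_of_nonneg_right (by nlinarith : ε ^ 2 ≤ 1 / 8) h7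
      have e3 : 4 * Cp / δ * (S.N * (F.HM Ξ + sm S T p Ξ)) =
        4 * (Cp / δ * (S.N * (F.HM Ξ + sm S T p Ξ))) := by ring
      have e4 : 2 * C / δ * e * √(T / 4 ^ j) = 2 * (C * √(T / 4 ^ j) / δ * e) := by ring
      rw [e3, e4]
      linarith
    have s2 : ∑ j ∈ range (Sh + 1), ∑ ξ, F.Wm τ ξ * ∑ b ∈ S.Bl P,
        ind (S.Om R ε ξ ∩ S.J b).Nonempty * S.xw (T / 4 ^ j) b ξ ≤
        Cs * ∑ ξ, F.Wm τ ξ * ind (hi < S.cnt R ξ) * ac S P ξ + 2 * Cs / ε * B := by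
      rw [sum_comm, hBe, mul_sum, mul_sum, ← sum_add_distrib]
      refine sum_le_sum fun ξ _ => ?_
      rw [← mul_sum, sum_comm]
      have h4 : ∑ b ∈ S.Bl P, ∑ j ∈ range (Sh + 1),
          ind (S.Om R ε ξ ∩ S.J b).Nonempty * S.xw (T / 4 ^ j) b ξ ≤
          Cs * ∑ b ∈ S.Bl P, ind (S.Om R ε ξ ∩ S.J b).Nonempty * ind (S.act b ξ) := by
        rw [mul_sum]
        refine sum_le_sum fun b _ => ?_
        rw [← mul_sum, mul_left_comm]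
        exact mul_le_mul_of_nonneg_left ((hSh S b ξ h.wf).2.1 T _
          (zero_lt_one.trans_le h.num.one_le_T)) (ind_nonneg _)
      have h5 : ∑ b ∈ S.Bl P, ind (S.Om R ε ξ ∩ S.J b).Nonempty * ind (S.act b ξ) ≤
          ind (hi < S.cnt R ξ) * ac S P ξ + 2 * S.cnt R ξ / ε := by
        by_cases hc : hi < S.cnt R ξ
        · rw [ind_pos hc, one_mul]
          exact le_add_of_le_of_nonneg (sum_le_sum fun b _ =>
            mul_le_of_le_one_left (ind_nonneg _) (ind_le_one _))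
            (div_nonneg (mul_nonneg zero_le_two (cnt_nonneg ξ)) h2.le)
        · obtain ⟨e1, -, e2⟩ := hE S R s (ε / 4) ε ξ h.wf hR''.ne hX h2 (by linarith) (by linarith)
            (le_trans (by gcongr; exact not_lt.1 hc) hs)
          rw [ind_neg hc, zero_mul, zero_add]
          exact (sum_le_sum fun b _ => mul_le_of_le_one_right (ind_nonneg _) (ind_le_one _)).trans
            ((e2 P).trans e1)
      refine (mul_le_mul_of_nonneg_left (h4.trans (mul_le_mul_of_nonneg_left h5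
        (zero_le_one.trans hS1))) (hW ξ)).trans_eq ?_
      ring
    have s3 := sum_le_sum s1
    rw [sum_add_distrib, sum_add_distrib, ← mul_sum, ← mul_sum _ _ (2 * C / δ * e), sum_const,
      card_range, nsmul_eq_mul, Nat.cast_succ, mul_left_comm] at s3
    have s4 := mul_le_mul_of_nonneg_left (le_Ty (F := F) (p := p) (Ξ := Ξ) (Sh := Sh) hT).1
      (by positivity : 0 ≤ 4 * Cp / δ)
    have s5 := mul_le_mul_of_nonneg_left (sum_sqrt (T := T) (Sh + 1))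
      (by positivity : 0 ≤ 2 * C / δ * e)
    have e1 : 32 * Cs / ε * B = 16 * (2 * Cs / ε * B) := by ring
    have e2 : 8 * C / δ * (√T * e) = 2 * (2 * C / δ * e * (√T * 2)) := by ring
    have e3 : (8 * Cp / δ + 1) * F.Ty T p Ξ Sh =
      2 * (4 * Cp / δ * F.Ty T p Ξ Sh) + F.Ty T p Ξ Sh := by ring
    rw [e1, e2, e3, mul_assoc 16 Cs]
    linarith
  rw [← he, ← hBe]
  refine key.trans ?_
  rw [mul_add _ _ B, mul_add _ (√T * e), add_assoc, add_assoc]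
  have k4 : 0 ≤ 16 * Cs := by linarith
  gcongr <;> linarith

end Vale.Agent.P318.D
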