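import Vale.Agent.P318.D.Stmt
import Mathlib.Algebra.Order.Chebyshev

/-!
Track D: closure properties of dual bounds and the consequences of the restricted isometry property.
-/

namespace Vale.Agent.P318.D

open Finset
open scoped BigOperators

namespace DBRip

variable {S : Sys}

lemma abs_sum_le_of {W : Type} (s : Finset W) (a k : W → ℝ) (B : ℝ)
    (h : ∀ w ∈ s, |a w| ≤ k w * B) : |∑ w ∈ s, a w| ≤ (∑ w ∈ s, k w) * B := by
  rw [sum_mul]
  exact (abs_sum_le_sum_abs _ _).trans (sum_le_sum h)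

lemma scale {J : Finset S.ι} {Y : S.ι → S.G → ℝ} {ℓ c κ : ℝ} (h : S.DB J Y ℓ c) (hℓ : 0 ≤ ℓ)
    (hc : 0 ≤ c) (hκ : 0 ≤ κ) (θ : S.ι → ℝ) (hθ : ∀ i ∈ J, |θ i| ≤ κ) (β : S.G) (x : S.ι → ℝ) :
    |∑ i ∈ J, x i * (θ i * Y i β)| ≤ κ * (ℓ * ∑ i ∈ J, |x i| + c * √(∑ i ∈ J, x i ^ 2)) := by
  have h1 := h β fun i => x i * θ i
  simp only [mul_assoc] at h1
  refine h1.trans ?_
  have h2 : ∑ i ∈ J, |x i * θ i| ≤ κ * ∑ i ∈ J, |x i| := by
    rw [mul_sum]
    refine sum_le_sum fun i hi => ?_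
    rw [abs_mul, mul_comm κ]
    exact mul_le_mul_of_nonneg_left (hθ i hi) (abs_nonneg _)
  have h3 : √(∑ i ∈ J, (x i * θ i) ^ 2) ≤ κ * √(∑ i ∈ J, x i ^ 2) := by
    rw [← Real.sqrt_sq hκ, ← Real.sqrt_mul (sq_nonneg κ), mul_sum]
    refine Real.sqrt_le_sqrt (sum_le_sum fun i hi => ?_)
    rw [mul_pow, mul_comm (κ ^ 2)]
    refine mul_le_mul_of_nonneg_left ?_ (sq_nonneg _)
    rw [← sq_abs]
    exact pow_le_pow_left₀ (abs_nonneg _) (hθ i hi) 2
  have h4 := mul_le_mul_of_nonneg_left h2 hℓ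
  have h5 := mul_le_mul_of_nonneg_left h3 hc
  nlinarith

lemma subset {J J' : Finset S.ι} {Y : S.ι → S.G → ℝ} {ℓ c : ℝ} (h : S.DB J Y ℓ c) (hJ : J' ⊆ J) :
    S.DB J' Y ℓ c := fun β x => by
  have := h β fun i => if i ∈ J' then x i else 0
  simp only [ite_mul, zero_mul, ite_pow, ne_eq, OfNat.ofNat_ne_zero, not_false_eq_true,
    zero_pow, apply_ite abs, abs_zero, sum_ite_mem, inter_eq_right.2 hJ] at this
  exact this

lemma congr {J : Finset S.ι} {Y Y' : S.ι → S.G → ℝ} {ℓ c : ℝ} (h : S.DB J Y ℓ c)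
    (e : ∀ i ∈ J, Y' i = Y i) : S.DB J Y' ℓ c := fun β x => by
  rw [sum_congr rfl fun i hi => by rw [e i hi]]
  exact h β x

lemma sum_cv (J : Finset S.ι) (k Y : S.ι → S.G → ℝ) (β : S.G) (x : S.ι → ℝ) :
    ∑ i ∈ J, x i * S.cv (k i) (Y i) β = ∑ w, ∑ i ∈ J, x i * (k i w * Y i (β + w)) := by
  rw [sum_comm]
  exact sum_congr rfl fun i _ => by rw [Sys.cv, mul_sum]

lemma cv {J : Finset S.ι} {Y : S.ι → S.G → ℝ} {ℓ c : ℝ} {k : S.G → ℝ} (hk : S.Mk k)
    (h : S.DB J Y ℓ c) : S.DB J (fun i => S.cv k (Y i)) ℓ c := fun β x => by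
  rw [sum_cv J (fun _ => k)]
  refine (abs_sum_le_of univ _ k _ fun w _ => ?_).trans (le_of_eq (by rw [hk.2.1, one_mul]))
  have e : ∑ i ∈ J, x i * (k w * Y i (β + w)) = k w * ∑ i ∈ J, x i * Y i (β + w) := by
    rw [mul_sum]
    exact sum_congr rfl fun i _ => by ring
  rw [e, abs_mul, abs_of_nonneg (hk.1 w)]
  exact mul_le_mul_of_nonneg_left (h _ x) (hk.1 w)

lemma mem_J {P : S.P} {b : S.B} (hb : b ∈ S.Bl P) (i : S.ι) : i ∈ S.J b ↔ S.pb P i = b := by
  have : S.own b = P := (mem_filter.1 hb).2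
  simp only [Sys.J, mem_filter, mem_univ, true_and, this]

lemma sum_split (hW : S.WF) (P : S.P) (J : Finset S.ι) (g : S.ι → ℝ) :
    ∑ i ∈ J, g i = ∑ b ∈ S.Bl P, ∑ i ∈ J ∩ S.J b, g i := by
  rw [← sum_fiberwise_of_maps_to (s := J) (t := S.Bl P) (g := S.pb P)
    fun i _ => mem_filter.2 ⟨mem_univ _, hW.own_pb P i⟩]
  refine sum_congr rfl fun b hb => sum_congr ?_ fun _ _ => rfl
  ext i
  rw [mem_filter, mem_inter, mem_J hb]

lemma glue (hW : S.WF) {J : Finset S.ι} {Y : S.ι → S.G → ℝ} {ℓ c : ℝ} (P : S.P) {m : ℝ}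
    (hc : 0 ≤ c) (hm : ((S.Bl P).card : ℝ) ≤ m) (h : ∀ b ∈ S.Bl P, S.DB (J ∩ S.J b) Y ℓ c) :
    S.DB J Y ℓ (c * √m) := fun β x => by
  rw [sum_split hW P J, sum_split hW P J fun i => |x i|, sum_split hW P J fun i => x i ^ 2]
  refine (abs_sum_le_sum_abs _ _).trans ((sum_le_sum fun b hb => h b hb β x).trans ?_)
  rw [sum_add_distrib, ← mul_sum, ← mul_sum, mul_assoc]
  refine add_le_add le_rfl (mul_le_mul_of_nonneg_left ?_ hc)
  have hm0 : 0 ≤ m := (Nat.cast_nonneg _).trans hm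
  rw [← Real.sqrt_mul hm0]
  refine Real.le_sqrt_of_sq_le ((sq_sum_le_card_mul_sum_sq).trans ?_)
  rw [sum_congr rfl fun b _ => Real.sq_sqrt (sum_nonneg fun _ _ => sq_nonneg _)]
  exact mul_le_mul_of_nonneg_right hm (sum_nonneg fun _ _ => sum_nonneg fun _ _ => sq_nonneg _)

lemma cv_zk (R : Finset S.P) (i : S.ι) (f : S.G → ℝ) (β : S.G) :
    S.cv (S.zk R i) f β = ∑ P ∈ R, (R.card : ℝ)⁻¹ * S.cv (S.eA {S.pb P i}) f β := by
  simp only [Sys.cv, Sys.zk, mul_sum, sum_div, sum_mul]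
  rw [sum_comm]
  exact sum_congr rfl fun _ _ => sum_congr rfl fun _ _ => by ring

/-! ### Restricted isometry -/

lemma sq_nonneg' (b : S.B) (x : S.Λ → ℝ) : 0 ≤ S.sq b x := sum_nonneg fun _ _ => sq_nonneg _

lemma inner (b : S.B) (T : Finset S.ι) (z : S.ι → ℝ) (x : S.Λ → ℝ) :
    ∑ i ∈ T, z i * S.dotb i b x = ∑ l ∈ S.Lb b, S.comb T z l * x l := by
  simp only [Sys.dotb, Sys.comb, mul_sum, sum_mul]
  rw [sum_comm]
  exact sum_congr rfl fun _ _ => sum_congr rfl fun _ _ => by ring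

variable {δ : ℝ}

lemma up (h0 : 0 < δ) (hW : S.WF) (h : S.RIP δ) (b : S.B) (T : Finset S.ι) (x : S.Λ → ℝ)
    (hT : T ⊆ S.J b) (hD : T.card ≤ S.D (S.own b)) :
    ∑ i ∈ T, S.dotb i b x ^ 2 ≤ (1 + δ) * S.ν (S.own b) * S.sq b x := by
  have h1 := (h b T hT hD fun i => S.dotb i b x).2
  have h2 := inner b T (fun i => S.dotb i b x) x
  simp only [← pow_two] at h2
  have h3 := sum_mul_sq_le_sq_mul_sq (S.Lb b) (S.comb T fun i => S.dotb i b x) x
  rw [← h2] at h3
  have hν := hW.one_le_ν (S.own b)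
  have h4 := sq_nonneg' b x
  set Z := ∑ i ∈ T, S.dotb i b x ^ 2
  have h5 : Z ^ 2 ≤ (1 + δ) * S.ν (S.own b) * Z * S.sq b x :=
    h3.trans (mul_le_mul_of_nonneg_right h1 h4)
  by_contra hc
  push Not at hc
  have h6 : 0 ≤ (1 + δ) * S.ν (S.own b) * S.sq b x := by positivity
  nlinarith

lemma few (h0 : 0 < δ) (hW : S.WF) (h : S.RIP δ) (b : S.B) (x : S.Λ → ℝ) (θ : ℝ) (hθ : 0 ≤ θ)
    (hx : (1 + δ) * S.ν (S.own b) * S.sq b x ≤ S.D (S.own b) * θ ^ 2) :
    ((S.J b).filter fun i => θ < |S.dotb i b x|).card ≤ S.D (S.own b) := by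
  by_contra hc
  obtain ⟨T, hT, hcard⟩ := exists_subset_card_eq (not_le.1 hc).le
  have h1 := up h0 hW h b T x (hT.trans (filter_subset _ _)) hcard.le
  have hne : T.Nonempty := card_pos.1 (by have := hW.one_le_D (S.own b); omega)
  have h2 : ∑ _i ∈ T, θ ^ 2 < ∑ i ∈ T, S.dotb i b x ^ 2 :=
    sum_lt_sum_of_nonempty hne fun i hi => by
      rw [← sq_abs (S.dotb i b x)]
      exact pow_lt_pow_left₀ (mem_filter.1 (hT hi)).2 hθ two_ne_zero
  rw [sum_const, hcard, nsmul_eq_mul] at h2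
  linarith

lemma dual (h0 : 0 < δ) (hW : S.WF) (h : S.RIP δ) (b : S.B) (x : S.Λ → ℝ) (z : S.ι → ℝ) :
    |∑ i ∈ S.J b, z i * S.dotb i b x| ≤ √((1 + δ) * S.ν (S.own b) * S.sq b x) *
      ((∑ i ∈ S.J b, |z i|) / √(S.D (S.own b)) + √(∑ i ∈ S.J b, z i ^ 2)) := by
  have hν := hW.one_le_ν (S.own b)
  have hD : (0 : ℝ) < S.D (S.own b) := by exact_mod_cast hW.one_le_D (S.own b)
  have h4 := sq_nonneg' b x
  have hA : 0 ≤ (1 + δ) * S.ν (S.own b) * S.sq b x := by positivity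
  have h1 := up h0 hW h b _ x (filter_subset _ _) (few h0 hW h b x
    (√((1 + δ) * S.ν (S.own b) * S.sq b x) / √(S.D (S.own b))) (by positivity) (by
      rw [div_pow, Real.sq_sqrt hA, Real.sq_sqrt hD.le, mul_div_cancel₀ _ hD.ne']))
  set A := (1 + δ) * S.ν (S.own b) * S.sq b x
  set θ := √A / √(S.D (S.own b)) with hθ
  have hθ0 : 0 ≤ θ := by positivity
  rw [← sum_filter_add_sum_filter_not (S.J b) fun i => θ < |S.dotb i b x|]
  refine (abs_add_le _ _).trans ?_
  rw [mul_add, add_comm]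
  refine add_le_add ?_ ?_
  · refine (abs_sum_le_of _ _ (fun i => |z i|) θ fun i hi => ?_).trans ?_
    · rw [abs_mul]
      exact mul_le_mul_of_nonneg_left (not_lt.1 (mem_filter.1 hi).2) (abs_nonneg _)
    · refine (mul_le_mul_of_nonneg_right (sum_le_sum_of_subset_of_nonneg (filter_subset _ _)
        fun _ _ _ => abs_nonneg _) hθ0).trans (le_of_eq ?_)
      rw [hθ]
      ring
  · rw [← Real.sqrt_mul hA]
    refine Real.abs_le_sqrt ((sum_mul_sq_le_sq_mul_sq _ _ _).trans ?_)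
    rw [mul_comm A]
    exact mul_le_mul (sum_le_sum_of_subset_of_nonneg (filter_subset _ _)
      fun _ _ _ => sq_nonneg _) h1 (sum_nonneg fun _ _ => sq_nonneg _)
      (sum_nonneg fun _ _ => sq_nonneg _)

lemma low (h0 : 0 < δ) (h1 : δ ≤ 1 / 4) (hW : S.WF) (h : S.RIP δ) (b : S.B) (z : S.ι → ℝ) :
    S.ν (S.own b) * ∑ i ∈ S.J b, z i ^ 2 ≤ (1 + 3 * δ) * S.sq b (S.comb (S.J b) z) +
      9 / δ * S.ν (S.own b) * (∑ i ∈ S.J b, |z i|) ^ 2 / S.D (S.own b) := by
  have hν := hW.one_le_ν (S.own b)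
  have hD : (0 : ℝ) < S.D (S.own b) := by exact_mod_cast hW.one_le_D (S.own b)
  set L := ∑ i ∈ S.J b, |z i| with hL
  have hL0 : 0 ≤ L := sum_nonneg fun _ _ => abs_nonneg _
  set D : ℝ := ((S.D (S.own b) : ℕ) : ℝ) with hDd
  set ν := S.ν (S.own b) with hνd
  set T := (S.J b).filter fun i => L / D < |z i| with hT
  set T' := (S.J b).filter fun i => ¬ L / D < |z i| with hT'
  have c1 : T.card ≤ S.D (S.own b) := by
    rcases T.eq_empty_or_nonempty with he | hne
    · rw [he]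
      exact Nat.zero_le _
    have k1 : ∑ _i ∈ T, L / D < ∑ i ∈ T, |z i| :=
      sum_lt_sum_of_nonempty hne fun i hi => (mem_filter.1 hi).2
    have k2 : ∑ i ∈ T, |z i| ≤ L :=
      sum_le_sum_of_subset_of_nonneg (filter_subset _ _) fun _ _ _ => abs_nonneg _
    rw [sum_const, nsmul_eq_mul, ← mul_div_assoc, div_lt_iff₀ hD] at k1
    by_contra hc
    have k3 : D ≤ T.card := by
      rw [hDd]
      exact_mod_cast (not_le.1 hc).le
    nlinarith
  have c2 : ∑ i ∈ T', |z i| ≤ L :=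
    sum_le_sum_of_subset_of_nonneg (filter_subset _ _) fun _ _ _ => abs_nonneg _
  have c3 : ∑ i ∈ T', z i ^ 2 ≤ L ^ 2 / D := by
    have : ∑ i ∈ T', z i ^ 2 ≤ (∑ i ∈ T', |z i|) * (L / D) := by
      rw [sum_mul]
      refine sum_le_sum fun i hi => ?_
      rw [← sq_abs, pow_two]
      exact mul_le_mul_of_nonneg_left (not_lt.1 (mem_filter.1 hi).2) (abs_nonneg _)
    refine this.trans ((mul_le_mul_of_nonneg_right c2 (by positivity)).trans (le_of_eq (by ring)))
  have c4 : S.sq b (S.comb T' z) ≤ 4 * (1 + δ) * (ν * (L ^ 2 / D)) := by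
    have k1 := dual h0 hW h b (S.comb T' z) fun i => if i ∈ T' then z i else 0
    have hs : S.J b ∩ T' = T' := inter_eq_right.2 (filter_subset _ _)
    simp only [ite_mul, zero_mul, ite_pow, ne_eq, OfNat.ofNat_ne_zero, not_false_eq_true,
      zero_pow, apply_ite abs, abs_zero, sum_ite_mem] at k1
    rw [hs, DBRip.inner] at k1
    simp only [← pow_two] at k1
    have k0 := sq_nonneg' b (S.comb T' z)
    change |S.sq b (S.comb T' z)| ≤ _ at k1
    rw [abs_of_nonneg k0] at k1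
    set v := S.sq b (S.comb T' z)
    have k2 : √(∑ i ∈ T', z i ^ 2) ≤ L / √D := by
      refine (Real.sqrt_le_sqrt c3).trans (le_of_eq ?_)
      rw [Real.sqrt_div (sq_nonneg _), Real.sqrt_sq hL0]
    have k3 : (∑ i ∈ T', |z i|) / √D ≤ L / √D := by gcongr
    have k4 : v ≤ √((1 + δ) * ν * v) * (2 * (L / √D)) :=
      k1.trans (mul_le_mul_of_nonneg_left (by linarith) (Real.sqrt_nonneg _))
    have k5 := pow_le_pow_left₀ k0 k4 2
    rw [mul_pow, mul_pow, div_pow, Real.sq_sqrt (by positivity), Real.sq_sqrt hD.le] at k5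
    by_contra hc
    push Not at hc
    have k6 : 0 ≤ 4 * (1 + δ) * (ν * (L ^ 2 / D)) := by positivity
    nlinarith
  have c5 := (h b T (filter_subset _ _) c1 z).1
  have c6 : δ * S.sq b (S.comb T z) ≤
      δ * (1 + δ) * S.sq b (S.comb (S.J b) z) + (1 + δ) * S.sq b (S.comb T' z) := by
    simp only [Sys.sq, mul_sum, ← sum_add_distrib]
    refine sum_le_sum fun l _ => ?_
    have e : S.comb (S.J b) z l = S.comb T z l + S.comb T' z l :=
      (sum_filter_add_sum_filter_not _ _ _).symm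
    have e' : S.comb T z l = S.comb (S.J b) z l - S.comb T' z l := by linarith
    rw [e']
    nlinarith [sq_nonneg (δ * S.comb (S.J b) z l + S.comb T' z l)]
  rw [← sum_filter_add_sum_filter_not (S.J b) fun i => L / D < |z i|]
  have hw := sq_nonneg' b (S.comb (S.J b) z)
  set w := S.sq b (S.comb (S.J b) z)
  set q := ν * (L ^ 2 / D) with hq
  have hq0 : 0 ≤ q := by positivity
  have c7 : ν * ∑ i ∈ T', z i ^ 2 ≤ q := mul_le_mul_of_nonneg_left c3 (by linarith)
  have e : 9 / δ * ν * L ^ 2 / D = 9 * q / δ := by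
    rw [hq]
    ring
  rw [e, mul_add]
  set a := ν * ∑ i ∈ T, z i ^ 2 with ha
  have c8 : (1 - δ) * a ≤ S.sq b (S.comb T z) := by
    rw [ha, ← mul_assoc]
    exact c5
  have hp : 0 < δ * (1 - δ) := mul_pos h0 (by linarith)
  refine le_of_mul_le_mul_left ?_ hp
  have e2 : δ * (1 - δ) * ((1 + 3 * δ) * w + 9 * q / δ) =
      δ * (1 - δ) * (1 + 3 * δ) * w + 9 * (1 - δ) * q := by
    field_simp
  rw [e2]
  have d1 := mul_le_mul_of_nonneg_left c8 h0.le
  have d2 := mul_le_mul_of_nonneg_left c7 hp.le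
  have d3 := mul_le_mul_of_nonneg_left c4 (by linarith : 0 ≤ 1 + δ)
  have d4 : δ * (1 + δ) * w ≤ δ * (1 - δ) * (1 + 3 * δ) * w := by
    refine mul_le_mul_of_nonneg_right ?_ hw
    have : 0 ≤ δ * δ * (1 - 3 * δ) := by
      have : 0 ≤ 1 - 3 * δ := by linarith
      positivity
    nlinarith
  have d5 : ((1 + δ) * (4 * (1 + δ)) + δ * (1 - δ)) * q ≤ 9 * (1 - δ) * q :=
    mul_le_mul_of_nonneg_right (by nlinarith) hq0
  nlinarith

end DBRip

open DBRip

theorem db_proof : DBStmt := fun S =>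
  { mono := fun J Y ℓ c ℓ' c' h h1 h2 β x => (h β x).trans (add_le_add
      (mul_le_mul_of_nonneg_right h1 (sum_nonneg fun _ _ => abs_nonneg _))
      (mul_le_mul_of_nonneg_right h2 (Real.sqrt_nonneg _)))
    congr := fun J Y Y' ℓ c h e => congr h e
    subset := fun J J' Y ℓ c h hJ => subset h hJ
    of_abs := fun J Y ℓ h β x => by
      rw [zero_mul, add_zero, mul_comm]
      refine abs_sum_le_of _ _ _ _ fun i hi => ?_
      rw [abs_mul]
      exact mul_le_mul_of_nonneg_left (h i hi β) (abs_nonneg _)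
    sub := fun J Y Y' ℓ c ℓ' c' h h' β x => by
      simp only [mul_sub, sum_sub_distrib]
      refine (abs_sub _ _).trans ((add_le_add (h β x) (h' β x)).trans (le_of_eq (by ring)))
    cv := fun J Y ℓ c k hk h => cv hk h
    dom := fun J Y ℓ c k k' κ hk hℓ hc hκ hd h β x => by
      rw [sum_cv J k']
      refine (abs_sum_le_of univ _ (fun w => κ * k w) _ fun w _ =>
        scale h hℓ hc (mul_nonneg hκ (hk.1 w)) (fun i => k' i w) (fun i hi => hd i hi w)
          (β + w) x).trans (le_of_eq ?_)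
      rw [← mul_sum, hk.2.1]
      ring
    mul := fun J Y ℓ c θ κ hℓ hc hκ hθ h β x =>
      (scale h hℓ hc hκ (fun i => θ i β) (fun i hi => hθ i hi β) β x).trans (le_of_eq (by ring))
    glue := fun hW J Y ℓ c P m hc hm h => glue hW P hc hm h
    glue_univ := fun hW Y ℓ c P m hc hm h => glue hW P hc hm fun b hb => by
      rw [univ_inter]
      exact h b hb
    zk := fun hW hA J Y ℓ c R m hR hc hm h β x => by
      have h1 : ∀ P ∈ R, S.DB J (fun i => S.cv (S.eA {S.pb P i}) (Y i)) ℓ (c * √m) :=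
        fun P hP => glue hW P hc (hm P hP) fun b hb =>
          congr (cv (hA {b}) (subset h inter_subset_left)) fun i hi => by
            rw [(mem_J hb i).1 (mem_inter.1 hi).2]
      have hR0 : (0 : ℝ) < R.card := by exact_mod_cast hR.card_pos
      simp only [cv_zk, mul_sum]
      rw [sum_comm, ← mul_sum]
      refine (abs_sum_le_of R _ (fun _ => (R.card : ℝ)⁻¹) _ fun P hP => ?_).trans
        (le_of_eq (by rw [sum_const, nsmul_eq_mul, mul_inv_cancel₀ hR0.ne', one_mul]))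
      simp only [mul_left_comm (x _), ← mul_sum]
      rw [abs_mul, abs_of_nonneg (by positivity)]
      exact mul_le_mul_of_nonneg_left (h1 P hP β x) (by positivity)
    sup := fun J Y ℓ c h i hi β => by
      have := h β fun j => if j = i then 1 else 0
      simpa [apply_ite abs, hi] using this
    pair := fun J Y ℓ c g h => by
      rw [← expect_sum_comm, ← expect_sum_comm, mul_expect, mul_expect, ← expect_add_distrib]
      exact (abs_expect_le _ _).trans (expect_le_expect fun β _ => h β fun i => g i β) }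

theorem rip_proof : RipStmt := fun S δ h0 h1 hW h =>
  { norm := fun b i hi => by
      have := h b {i} (singleton_subset_iff.2 hi) (by simpa using hW.one_le_D (S.own b))
        fun _ => 1
      have e : S.comb {i} (fun _ => 1) = fun l => (S.n i l : ℝ) := by
        funext l
        simp [Sys.comb]
      rw [e] at this
      simpa using this
    up := up h0 hW h
    few := few h0 hW h
    dual := dual h0 hW h
    low := low h0 h1 hW h }

end Vale.Agent.P318.D
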