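import Vale.Agent.P318.D.Stmt
import Mathlib.Analysis.SpecialFunctions.Trigonometric.Bounds
import Mathlib.Analysis.Real.Pi.Bounds

/-!
Track D: the Fejer kernel.
-/

namespace Vale.Agent.P318.D

open Finset
open Vale.Agent.P318.R (ang)

namespace Fej

lemma sum_Ioo {M : Type*} [AddCommMonoid M] (g : ℤ → M) (K : ℕ) :
    ∑ j ∈ Ioo (-((K + 1 : ℕ) : ℤ)) ((K + 1 : ℕ) : ℤ), g j =
      g 0 + ∑ m ∈ range K, (g (m + 1) + g (-(m + 1))) := by
  induction K with
  | zero =>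
    have : Ioo (-((0 + 1 : ℕ) : ℤ)) ((0 + 1 : ℕ) : ℤ) = {0} := by
      ext j; simp only [mem_Ioo, mem_singleton]; omega
    rw [this]; simp
  | succ K ih =>
    have : Ioo (-((K + 1 + 1 : ℕ) : ℤ)) ((K + 1 + 1 : ℕ) : ℤ) = insert ((K : ℤ) + 1)
        (insert (-((K : ℤ) + 1)) (Ioo (-((K + 1 : ℕ) : ℤ)) ((K + 1 : ℕ) : ℤ))) := by
      ext j; simp only [mem_Ioo, mem_insert]; omega
    rw [this, sum_insert (by simp only [mem_Ioo, mem_insert]; omega),
      sum_insert (by simp only [mem_Ioo]; omega), ih, sum_range_succ]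
    abel

lemma sum_sum (g : ℤ → ℝ) (K : ℕ) :
    ∑ m ∈ range K, ∑ m' ∈ range K, g (m - m') =
      ∑ j ∈ Ioo (-(K : ℤ)) K, ((K : ℝ) - |(j : ℝ)|) * g j := by
  induction K with
  | zero => simp
  | succ K ih =>
    have h1 : ∑ j ∈ Ioo (-(K : ℤ)) K, ((K : ℝ) - |(j : ℝ)|) * g j =
        ∑ j ∈ Ioo (-((K + 1 : ℕ) : ℤ)) ((K + 1 : ℕ) : ℤ), ((K : ℝ) - |(j : ℝ)|) * g j := by
      refine sum_subset (fun j hj => ?_) fun j h1 h2 => ?_
      · simp only [mem_Ioo] at hj ⊢; omega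
      · simp only [mem_Ioo] at h1 h2
        have : j = K ∨ j = -K := by omega
        rcases this with rfl | rfl <;> simp
    have h2 : ∑ m ∈ range K, g (m - K) = ∑ m ∈ range K, g (-(m + 1)) := by
      rw [← sum_range_reflect]
      refine sum_congr rfl fun m hm => ?_
      have := mem_range.1 hm
      congr 1; omega
    have h3 : ∑ m ∈ range K, g (K - m) = ∑ m ∈ range K, g (m + 1) := by
      rw [← sum_range_reflect]
      refine sum_congr rfl fun m hm => ?_
      have := mem_range.1 hm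
      congr 1; omega
    have h4 : ∑ j ∈ Ioo (-((K + 1 : ℕ) : ℤ)) ((K + 1 : ℕ) : ℤ),
        (((K + 1 : ℕ) : ℝ) - |(j : ℝ)|) * g j =
        ∑ j ∈ Ioo (-((K + 1 : ℕ) : ℤ)) ((K + 1 : ℕ) : ℤ), ((K : ℝ) - |(j : ℝ)|) * g j +
          ∑ j ∈ Ioo (-((K + 1 : ℕ) : ℤ)) ((K + 1 : ℕ) : ℤ), g j := by
      rw [← sum_add_distrib]
      exact sum_congr rfl fun j _ => by push_cast; ring
    rw [h4, ← h1, ← ih, sum_Ioo g K]
    simp only [sum_range_succ, sum_add_distrib, h2, h3, sub_self]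
    ring

/-- The coefficients. -/
lemma coef_nonneg {κ : ℕ} {j : ℤ} (hj : j ∈ Ioo (-(κ : ℤ)) κ) : 0 ≤ 1 - |(j : ℝ)| / κ := by
  have h := mem_Ioo.1 hj
  have h1 : |(j : ℝ)| ≤ κ := by exact_mod_cast (abs_lt.2 h).le
  exact sub_nonneg.2 (div_le_one_of_le₀ h1 (Nat.cast_nonneg _))

lemma sum_coef_mul {κ : ℕ} (hκ : 1 ≤ κ) (g : ℤ → ℝ) :
    ∑ j ∈ Ioo (-(κ : ℤ)) κ, (1 - |(j : ℝ)| / κ) * g j =
      (∑ m ∈ range κ, ∑ m' ∈ range κ, g (m - m')) / κ := by
  have h0 : (κ : ℝ) ≠ 0 := by positivity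
  rw [sum_sum, sum_div]
  exact sum_congr rfl fun j _ => by field_simp

lemma sum_coef {κ : ℕ} (hκ : 1 ≤ κ) : ∑ j ∈ Ioo (-(κ : ℤ)) κ, (1 - |(j : ℝ)| / κ) = κ := by
  have h0 : (κ : ℝ) ≠ 0 := by positivity
  have := sum_coef_mul hκ fun _ => 1
  simp only [mul_one, sum_const, card_range, nsmul_eq_mul] at this
  rw [this]
  field_simp

variable {q : ℕ} [NeZero q]

lemma cos_int (n : ℤ) : Real.cos (ang (n : ZMod q)) = Real.cos (2 * Real.pi * n / q) := by
  rw [R.cos_ang, ZMod.stdAddChar_coe, ← Complex.exp_ofReal_mul_I_re]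
  congr 2
  push_cast
  ring

lemma cos_mul (j n : ℤ) (z : ZMod q) :
    Real.cos (ang ((j : ZMod q) * (z + (n : ZMod q)))) =
      Real.cos (j * (2 * Real.pi * (z.val + n) / q)) := by
  have : (j : ZMod q) * (z + (n : ZMod q)) = ((j * (z.val + n) : ℤ) : ZMod q) := by simp
  rw [this, cos_int]
  congr 1
  push_cast
  ring

lemma cos_neg (z : ZMod q) : Real.cos (ang (-z)) = Real.cos (ang z) := by
  rw [R.cos_ang, R.cos_ang, AddChar.map_neg_eq_conj, Complex.conj_re]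

/-- The complex form of the kernel. -/
lemma fej_eq (κ : ℕ) (z : ZMod q) : (fej κ z : ℂ) = ∑ j ∈ Ioo (-(κ : ℤ)) κ,
    ((1 - |(j : ℝ)| / κ : ℝ) : ℂ) * ZMod.stdAddChar ((j : ZMod q) * z) := by
  refine Complex.ext ?_ ?_
  · simp only [Complex.ofReal_re, Complex.re_sum, Complex.re_ofReal_mul, fej, R.cos_ang]
  · simp only [Complex.ofReal_im, Complex.im_sum, Complex.im_ofReal_mul]
    refine (sum_involution (fun j _ => -j) (fun j _ => ?_) (fun j _ h h' => h ?_)
      (fun j hj => ?_) fun j _ => neg_neg j).symm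
    · rw [Int.cast_neg, Int.cast_neg, neg_mul, AddChar.map_neg_eq_conj, Complex.conj_im, abs_neg]
      ring
    · have : j = 0 := by omega
      simp [this]
    · simp only [mem_Ioo] at hj ⊢; omega

end Fej

open Fej

theorem fej_proof : FejStmt := by
  intro q _ κ hκ z
  have hq : (0 : ℝ) < q := Nat.cast_pos.2 (NeZero.pos q)
  refine ⟨?_, ?_, ?_, ?_⟩
  · unfold fej
    have e : ∀ j : ℤ, Real.cos (ang ((j : ZMod q) * z)) =
        Real.cos (j * (2 * Real.pi * z.val / q)) := fun j => by simpa using cos_mul j 0 z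
    simp only [e]
    rw [sum_coef_mul hκ fun j => Real.cos (j * (2 * Real.pi * z.val / q))]
    refine div_nonneg ?_ (Nat.cast_nonneg _)
    simp only [Int.cast_sub, Int.cast_natCast, sub_mul, Real.cos_sub, sum_add_distrib,
      ← sum_mul_sum]
    exact add_nonneg (mul_self_nonneg _) (mul_self_nonneg _)
  · refine le_trans (sum_le_sum fun j hj => ?_) (sum_coef hκ).le
    exact mul_le_of_le_one_right (coef_nonneg hj) (Real.cos_le_one _)
  · unfold fej
    simp only [mul_neg, cos_neg]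
  · unfold fej
    rw [← sum_sub_distrib]
    refine (abs_sum_le_sum_abs _ _).trans ?_
    have k : ∀ j ∈ Ioo (-(κ : ℤ)) κ, |(1 - |(j : ℝ)| / κ) * Real.cos (ang ((j : ZMod q) * (z + 1))) -
        (1 - |(j : ℝ)| / κ) * Real.cos (ang ((j : ZMod q) * z))| ≤
          (1 - |(j : ℝ)| / κ) * (7 * κ / q) := fun j hj => by
      rw [← mul_sub, abs_mul, abs_of_nonneg (coef_nonneg hj)]
      refine mul_le_mul_of_nonneg_left ?_ (coef_nonneg hj)
      have e1 := cos_mul j 1 z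
      have e0 := cos_mul j 0 z
      simp only [Int.cast_one, Int.cast_zero, add_zero] at e0 e1
      rw [e0, e1]
      refine (Real.abs_cos_sub_cos_le _ _).trans ?_
      have e : (j : ℝ) * (2 * Real.pi * (z.val + 1) / q) - j * (2 * Real.pi * z.val / q) =
          j * (2 * Real.pi) / q := by ring
      have h1 : |(j : ℝ)| ≤ κ := by exact_mod_cast (abs_lt.2 (mem_Ioo.1 hj)).le
      rw [e, abs_div, abs_mul, abs_of_pos hq, abs_of_pos Real.two_pi_pos]
      refine div_le_div_of_nonneg_right ?_ hq.le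
      nlinarith [Real.pi_lt_d2, abs_nonneg (j : ℝ), Real.pi_pos]
    refine (sum_le_sum k).trans (le_of_eq ?_)
    rw [← sum_mul, sum_coef hκ]
    ring

end Vale.Agent.P318.D
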