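import Vale.Agent.P318.D.Stmt

/-!
Track D: from the isoperimetric inequality and the metric to the integrality gap.
-/

namespace Vale.Agent.P318.D

open Finset
open scoped BigOperators

namespace Gap

theorem ind_nonneg (p : Prop) : 0 ≤ ind p := by
  unfold ind; split_ifs <;> norm_num

theorem ind_le_one (p : Prop) : ind p ≤ 1 := by
  unfold ind; split_ifs <;> norm_num

theorem ind_pos {p : Prop} (h : p) : ind p = 1 := by
  unfold ind; simp [h]

theorem ind_neg {p : Prop} (h : ¬ p) : ind p = 0 := by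
  unfold ind; simp [h]

/-- The symmetric capacity of a weighted list of edges. -/
noncomputable def ec {X E : Type} [Fintype E] (w : E → ℝ) (p m : E → X) (x y : X) : ℝ :=
  ∑ e, w e * (ind (x = p e) * ind (y = m e) + ind (y = p e) * ind (x = m e))

theorem ec_symm {X E : Type} [Fintype E] (w : E → ℝ) (p m : E → X) (x y : X) :
    ec w p m x y = ec w p m y x :=
  Finset.sum_congr rfl fun e _ => by ring

theorem ec_nonneg {X E : Type} [Fintype E] {w : E → ℝ} (hw : ∀ e, 0 ≤ w e) (p m : E → X)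
    (x y : X) : 0 ≤ ec w p m x y :=
  Finset.sum_nonneg fun e _ => mul_nonneg (hw e)
    (add_nonneg (mul_nonneg (ind_nonneg _) (ind_nonneg _))
      (mul_nonneg (ind_nonneg _) (ind_nonneg _)))

theorem sum_ind {X : Type} [Fintype X] (a : X) (g : X → ℝ) : ∑ x, ind (x = a) * g x = g a := by
  rw [Finset.sum_eq_single a]
  · rw [ind_pos rfl, one_mul]
  · intro b _ hb
    rw [ind_neg hb, zero_mul]
  · intro h
    exact absurd (Finset.mem_univ a) h

theorem sum_ec {X E : Type} [Fintype X] [Fintype E] (w : E → ℝ) (p m : E → X) (g : X → X → ℝ) :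
    ∑ x, ∑ y, ec w p m x y * g x y = ∑ e, w e * (g (p e) (m e) + g (m e) (p e)) := by
  have h1 : ∀ x y, ec w p m x y * g x y = ∑ e, w e *
      (ind (x = p e) * (ind (y = m e) * g x y) + ind (x = m e) * (ind (y = p e) * g x y)) := by
    intro x y
    unfold ec
    rw [Finset.sum_mul]
    exact Finset.sum_congr rfl fun e _ => by ring
  simp_rw [h1]
  have h2 : ∀ x, ∑ y, ∑ e, w e *
      (ind (x = p e) * (ind (y = m e) * g x y) + ind (x = m e) * (ind (y = p e) * g x y)) =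
      ∑ e, w e * (ind (x = p e) * g x (m e) + ind (x = m e) * g x (p e)) := by
    intro x
    rw [Finset.sum_comm]
    refine Finset.sum_congr rfl fun e _ => ?_
    rw [← Finset.mul_sum, Finset.sum_add_distrib, ← Finset.mul_sum, ← Finset.mul_sum,
      sum_ind (m e) (g x), sum_ind (p e) (g x)]
  simp_rw [h2]
  rw [Finset.sum_comm]
  refine Finset.sum_congr rfl fun e _ => ?_
  rw [← Finset.mul_sum, Finset.sum_add_distrib, sum_ind (p e) (fun x => g x (m e)),
    sum_ind (m e) (fun x => g x (p e))]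

theorem sum_cut {X : Type} [Fintype X] [DecidableEq X] (A : Finset X) (g : X → X → ℝ) :
    ∑ x ∈ A, ∑ y ∈ Aᶜ, g x y = ∑ x, ∑ y, g x y * (ind (x ∈ A) * (1 - ind (y ∈ A))) := by
  rw [← Finset.sum_add_sum_compl A]
  have h0 : ∑ x ∈ Aᶜ, ∑ y, g x y * (ind (x ∈ A) * (1 - ind (y ∈ A))) = 0 := by
    refine Finset.sum_eq_zero fun x hx => Finset.sum_eq_zero fun y _ => ?_
    rw [ind_neg (Finset.mem_compl.1 hx)]
    ring
  rw [h0, add_zero]
  refine Finset.sum_congr rfl fun x hx => ?_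
  rw [← Finset.sum_add_sum_compl A]
  have h1 : ∑ y ∈ A, g x y * (ind (x ∈ A) * (1 - ind (y ∈ A))) = 0 := by
    refine Finset.sum_eq_zero fun y hy => ?_
    rw [ind_pos hy]
    ring
  rw [h1, zero_add]
  refine Finset.sum_congr rfl fun y hy => ?_
  rw [ind_pos hx, ind_neg (Finset.mem_compl.1 hy)]
  ring

theorem sum_mem_ind {X : Type} [Fintype X] [DecidableEq X] (A : Finset X) (g : X → ℝ) :
    ∑ x ∈ A, g x = ∑ x, ind (x ∈ A) * g x := by
  rw [← Finset.sum_add_sum_compl A]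
  have h0 : ∑ x ∈ Aᶜ, ind (x ∈ A) * g x = 0 := by
    refine Finset.sum_eq_zero fun x hx => ?_
    rw [ind_neg (Finset.mem_compl.1 hx), zero_mul]
  rw [h0, add_zero]
  exact Finset.sum_congr rfl fun x hx => by rw [ind_pos hx, one_mul]

theorem cut_abs (p q : Prop) :
    ind p * (1 - ind q) + ind q * (1 - ind p) = |ind p - ind q| := by
  by_cases hp : p <;> by_cases hq : q <;> simp [ind_pos, ind_neg, hp, hq]

/-! ### Residues -/

theorem sum_val (q : ℕ) [NeZero q] (g : ℕ → ℝ) :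
    ∑ z : ZMod q, g z.val = ∑ k ∈ range q, g k := by
  refine Finset.sum_nbij' (fun z => z.val) (fun k => (k : ZMod q)) ?_ ?_ ?_ ?_ ?_
  · intro z _
    simpa using ZMod.val_lt z
  · intro k _
    simp
  · intro z _
    simp
  · intro k hk
    exact ZMod.val_cast_of_lt (by simpa using hk)
  · intro z _
    rfl

theorem sum_id (n : ℕ) : ∑ k ∈ range n, (k : ℝ) = n * (n - 1) / 2 := by
  induction n with
  | zero => simp
  | succ n ih => rw [Finset.sum_range_succ, ih]; push_cast; ring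

theorem sum_sq (n : ℕ) : ∑ k ∈ range n, (k : ℝ) ^ 2 = n * (n - 1) * (2 * n - 1) / 6 := by
  induction n with
  | zero => simp
  | succ n ih => rw [Finset.sum_range_succ, ih]; push_cast; ring

theorem ex_sq (q : ℕ) [NeZero q] (a : ℝ) :
    𝔼 z : ZMod q, ((z.val : ℝ) / q - a) ^ 2 =
      (q - 1) * (2 * q - 1) / (6 * q ^ 2) - a * (q - 1) / q + a ^ 2 := by
  have hq : (q : ℝ) ≠ 0 := by exact_mod_cast NeZero.ne q
  rw [Fintype.expect_eq_sum_div_card, sum_val q (fun k => ((k : ℝ) / q - a) ^ 2), ZMod.card]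
  have h : ∀ k : ℕ, ((k : ℝ) / q - a) ^ 2 = 1 / q ^ 2 * (k : ℝ) ^ 2 - 2 * a / q * k + a ^ 2 := by
    intro k
    field_simp
    ring
  simp_rw [h]
  rw [Finset.sum_add_distrib, Finset.sum_sub_distrib, ← Finset.mul_sum, ← Finset.mul_sum, sum_id,
    sum_sq, Finset.sum_const, Finset.card_range, nsmul_eq_mul]
  field_simp

theorem ex_ex_sq (q : ℕ) [NeZero q] (hq : 100 ≤ q) :
    1 / 7 ≤ 𝔼 z' : ZMod q, 𝔼 z : ZMod q, ((z.val : ℝ) / q - (z'.val : ℝ) / q) ^ 2 := by
  have hq' : (100 : ℝ) ≤ q := by exact_mod_cast hq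
  have hq0 : (q : ℝ) ≠ 0 := by positivity
  simp_rw [ex_sq]
  rw [Fintype.expect_eq_sum_div_card, sum_val q (fun k => ((q : ℝ) - 1) * (2 * q - 1) /
    (6 * q ^ 2) - (k : ℝ) / q * (q - 1) / q + ((k : ℝ) / q) ^ 2), ZMod.card]
  have h : ∀ k : ℕ, ((q : ℝ) - 1) * (2 * q - 1) / (6 * q ^ 2) - (k : ℝ) / q * (q - 1) / q +
      ((k : ℝ) / q) ^ 2 = ((q : ℝ) - 1) * (2 * q - 1) / (6 * q ^ 2) - (q - 1) / q ^ 2 * k +
        1 / q ^ 2 * (k : ℝ) ^ 2 := by
    intro k
    field_simp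
  simp_rw [h]
  rw [Finset.sum_add_distrib, Finset.sum_sub_distrib, ← Finset.mul_sum, ← Finset.mul_sum, sum_id,
    sum_sq, Finset.sum_const, Finset.card_range, nsmul_eq_mul]
  have e : ((q : ℝ) * (((q : ℝ) - 1) * (2 * q - 1) / (6 * q ^ 2)) -
      (q - 1) / q ^ 2 * (q * (q - 1) / 2) + 1 / q ^ 2 * (q * (q - 1) * (2 * q - 1) / 6)) / q =
      (q ^ 2 - 1) / (6 * q ^ 2) := by
    field_simp
    ring
  rw [e, div_le_div_iff₀ (by norm_num) (by positivity)]
  nlinarith

theorem ex_near (q : ℕ) [NeZero q] : 𝔼 z : ZMod q, ind (z = 0 ∨ z = -1) ≤ 2 / q := by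
  rw [Fintype.expect_eq_sum_div_card, ZMod.card]
  refine div_le_div_of_nonneg_right ?_ (Nat.cast_nonneg q)
  have h : ∀ z : ZMod q, ind (z = 0 ∨ z = -1) ≤ ind (z = 0) * 1 + ind (z = -1) * 1 := by
    intro z
    by_cases h0 : z = 0
    · rw [ind_pos (Or.inl h0), ind_pos h0]
      have := ind_nonneg (z = -1)
      linarith
    · by_cases h1 : z = -1
      · rw [ind_pos (Or.inr h1), ind_pos h1]
        have := ind_nonneg (z = 0)
        linarith
      · rw [ind_neg (not_or.2 ⟨h0, h1⟩), ind_neg h0, ind_neg h1]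
        norm_num
  refine (Finset.sum_le_sum fun z _ => h z).trans ?_
  rw [Finset.sum_add_distrib, sum_ind (0 : ZMod q) (fun _ => 1), sum_ind (-1 : ZMod q) (fun _ => 1)]
  norm_num

theorem val_step {q : ℕ} [NeZero q] (y : ZMod q) (h0 : y ≠ 0) (h1 : y ≠ -1) (s : ℤ)
    (hs : s = 0 ∨ s = 1 ∨ s = -1) : |(((y + (s : ZMod q)).val : ℕ) : ℝ) - y.val| ≤ 1 := by
  have hlt := ZMod.val_lt y
  have hpos : 0 < y.val := by
    rw [Nat.pos_iff_ne_zero]
    intro h
    exact h0 ((ZMod.val_eq_zero y).1 h)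
  have hlt' : y.val + 1 < q := by
    rcases Nat.lt_or_ge (y.val + 1) q with h | h
    · exact h
    · exfalso
      apply h1
      have e : y.val + 1 = q := by omega
      have : ((y.val + 1 : ℕ) : ZMod q) = 0 := by rw [e]; simp
      push_cast at this
      rw [ZMod.natCast_zmod_val] at this
      exact eq_neg_of_add_eq_zero_left this
  rcases hs with rfl | rfl | rfl
  · simp
  · have e : y + ((1 : ℤ) : ZMod q) = ((y.val + 1 : ℕ) : ZMod q) := by
      push_cast
      rw [ZMod.natCast_zmod_val]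
    rw [e, ZMod.val_cast_of_lt hlt']
    simp
  · obtain ⟨k, hk⟩ : ∃ k, y.val = k + 1 := ⟨y.val - 1, by omega⟩
    have e : y + ((-1 : ℤ) : ZMod q) = (k : ZMod q) := by
      have : y = ((k + 1 : ℕ) : ZMod q) := by rw [← hk, ZMod.natCast_zmod_val]
      rw [this]
      push_cast
      ring
    rw [e, ZMod.val_cast_of_lt (by omega), hk]
    simp

/-! ### Geometry -/

variable (S : Sys)

theorem q_pos : (0 : ℝ) < S.q := by exact_mod_cast S.hq.out.pos

theorem ph_nonneg (c : S.ι → ZMod S.q) (β : S.G) (i : S.ι) : 0 ≤ S.ph c β i :=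
  div_nonneg (Nat.cast_nonneg _) (Nat.cast_nonneg _)

theorem ph_le_one (c : S.ι → ZMod S.q) (β : S.G) (i : S.ι) : S.ph c β i ≤ 1 := by
  unfold Sys.ph
  rw [div_le_one (q_pos S)]
  exact_mod_cast (ZMod.val_lt _).le

theorem abs_ph (c : S.ι → ZMod S.q) (u v : S.G) (i : S.ι) : |S.ph c u i - S.ph c v i| ≤ 1 := by
  have := ph_nonneg S c u i
  have := ph_nonneg S c v i
  have := ph_le_one S c u i
  have := ph_le_one S c v i
  rw [abs_le]
  constructor <;> linarith

theorem sq_ph (c : S.ι → ZMod S.q) (u v : S.G) (i : S.ι) : (S.ph c u i - S.ph c v i) ^ 2 ≤ 1 := by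
  have := abs_ph S c u v i
  rw [← sq_abs]
  nlinarith [abs_nonneg (S.ph c u i - S.ph c v i)]

theorem rho_nonneg (c : S.ι → ZMod S.q) (u v : S.G) : 0 ≤ S.rho c u v :=
  Finset.sum_nonneg fun _ _ => sq_nonneg _

theorem rho_le (c : S.ι → ZMod S.q) (u v : S.G) : S.rho c u v ≤ S.N := by
  unfold Sys.rho Sys.N
  refine (Finset.sum_le_sum fun i _ => sq_ph S c u v i).trans ?_
  simp

theorem rho_symm (c : S.ι → ZMod S.q) (u v : S.G) : S.rho c u v = S.rho c v u :=
  Finset.sum_congr rfl fun i _ => by ring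

theorem rho_self (c : S.ι → ZMod S.q) (u : S.G) : S.rho c u u = 0 := by
  simp [Sys.rho]

theorem rho_three (c : S.ι → ZMod S.q) (a b e f : S.G) :
    S.rho c a f ≤ 3 * (S.rho c a b + S.rho c b e + S.rho c e f) := by
  unfold Sys.rho
  rw [← Finset.sum_add_distrib, ← Finset.sum_add_distrib, Finset.mul_sum]
  refine Finset.sum_le_sum fun i _ => ?_
  nlinarith [sq_nonneg (S.ph c a i - S.ph c b i - (S.ph c b i - S.ph c e i)),
    sq_nonneg (S.ph c a i - S.ph c b i - (S.ph c e i - S.ph c f i)),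
    sq_nonneg (S.ph c b i - S.ph c e i - (S.ph c e i - S.ph c f i))]

theorem dot_single (j : S.ι) (l : S.Λ) (a : ZMod S.q) :
    S.dot (S.nG j) (Pi.single l a) = (S.n j l : ZMod S.q) * a := by
  unfold Sys.dot Sys.nG
  rw [Finset.sum_eq_single l]
  · simp
  · intro b _ hb
    simp [hb]
  · intro h
    exact absurd (Finset.mem_univ l) h

theorem ph_step (hB : Basic S) (hW : S.WF) (c : S.ι → ZMod S.q) (β : S.G) (j : S.ι)
    (hj : ¬ S.near c j β) (l : S.Λ) (s : ℤ) (hs : s = 0 ∨ s = 1 ∨ s = -1) :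
    |S.ph c (β + Pi.single l (s : ZMod S.q)) j - S.ph c β j| ≤ 1 / S.q := by
  have hj' := not_or.1 hj
  have h := val_step (S.y c j β) hj'.1 hj'.2 (S.n j l * s) (by
    rcases hW.ent j l with h | h | h <;> rcases hs with h' | h' | h' <;> simp [h, h'])
  unfold Sys.ph
  rw [hB.y_add, dot_single, ← sub_div, abs_div, abs_of_pos (q_pos S)]
  refine div_le_div_of_nonneg_right ?_ (q_pos S).le
  push_cast at h
  exact h

theorem rho_step (hB : Basic S) (hW : S.WF) {v : S.ι → S.G} (hv : S.Step v)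
    (hN : S.N ≤ S.q) (c : S.ι → ZMod S.q) (β : S.G) (i : S.ι) (hi : S.near c i β)
    (hd : ¬ ∃ i j, i ≠ j ∧ S.near c i β ∧ S.near c j β) : S.rho c (β + v i) (β - v i) ≤ 2 := by
  obtain ⟨l, -, hl⟩ := hv i
  have hq := q_pos S
  have hq' : (100 : ℝ) ≤ S.q := by exact_mod_cast hW.big
  have h : ∀ j, (S.ph c (β + v i) j - S.ph c (β - v i) j) ^ 2 ≤
      ind (j = i) * 1 + 4 / (S.q : ℝ) ^ 2 := by
    intro j
    by_cases hj : j = i
    · rw [ind_pos hj]
      have := sq_ph S c (β + v i) (β - v i) j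
      have : 0 ≤ 4 / (S.q : ℝ) ^ 2 := by positivity
      linarith
    · rw [ind_neg hj, zero_mul, zero_add]
      have hn : ¬ S.near c j β := fun h => hd ⟨j, i, hj, h, hi⟩
      have a1 := ph_step S hB hW c β j hn l (S.n i l) (hW.ent i l)
      have a2 := ph_step S hB hW c β j hn l (-S.n i l) (by
        rcases hW.ent i l with h | h | h <;> simp [h])
      have e : β - v i = β + Pi.single l ((-S.n i l : ℤ) : ZMod S.q) := by
        rw [hl, sub_eq_add_neg, ← Pi.single_neg]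
        push_cast
        rfl
      rw [← e] at a2
      rw [← hl] at a1
      have a3 : |S.ph c (β + v i) j - S.ph c (β - v i) j| ≤ 2 / S.q := by
        have := abs_sub_le (S.ph c (β + v i) j) (S.ph c β j) (S.ph c (β - v i) j)
        rw [abs_sub_comm (S.ph c β j)] at this
        have e2 : (2 : ℝ) / S.q = 1 / S.q + 1 / S.q := by ring
        linarith
      have a4 := pow_le_pow_left₀ (abs_nonneg _) a3 2
      rw [sq_abs, div_pow] at a4
      norm_num at a4 ⊢
      exact a4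
  refine (Finset.sum_le_sum fun j _ => h j).trans ?_
  rw [Finset.sum_add_distrib, sum_ind i (fun _ => 1), Finset.sum_const, Finset.card_univ,
    nsmul_eq_mul]
  have : (Fintype.card S.ι : ℝ) * (4 / (S.q : ℝ) ^ 2) ≤ 1 := by
    rw [← mul_div_assoc, div_le_one (by positivity)]
    unfold Sys.N at hN
    nlinarith
  linarith

theorem ex_rho (hB : Basic S) (hW : S.WF) (c : S.ι → ZMod S.q) :
    S.N / 7 ≤ 𝔼 y, 𝔼 x, S.rho c x y := by
  unfold Sys.rho
  simp_rw [Finset.expect_sum_comm]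
  have h : ∀ i, 1 / 7 ≤ 𝔼 y, 𝔼 x, (S.ph c x i - S.ph c y i) ^ 2 := by
    intro i
    have e1 : ∀ y, 𝔼 x, (S.ph c x i - S.ph c y i) ^ 2 =
        𝔼 z : ZMod S.q, ((z.val : ℝ) / S.q - S.ph c y i) ^ 2 := fun y =>
      hB.y_unif hW c i (fun z => ((z.val : ℝ) / S.q - S.ph c y i) ^ 2)
    simp_rw [e1]
    have e2 := hB.y_unif hW c i
      (fun z' => 𝔼 z : ZMod S.q, ((z.val : ℝ) / S.q - (z'.val : ℝ) / S.q) ^ 2)
    exact (ex_ex_sq S.q hW.big).trans_eq e2.symm
  refine le_trans ?_ (Finset.sum_le_sum fun i _ => h i)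
  rw [Finset.sum_const, Finset.card_univ, nsmul_eq_mul]
  unfold Sys.N
  linarith

theorem rho_rep {c : S.ι → ZMod S.q} {η : ℝ} {r : S.G → S.G} (hr : S.Rep c η r) (x y : S.G) :
    S.rho c x y - S.N / 25 ≤ S.rho c (r x) (r y) := by
  have h : ∀ i, (S.ph c x i - S.ph c y i) ^ 2 - 1 / 25 ≤ (S.ph c (r x) i - S.ph c (r y) i) ^ 2 := by
    intro i
    have a1 := abs_le.1 (hr.close x i)
    have a2 := abs_le.1 (hr.close y i)
    have a3 := abs_le.1 (abs_ph S c x y i)
    obtain ⟨D, hD⟩ : ∃ D, D = S.ph c x i - S.ph c y i := ⟨_, rfl⟩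
    obtain ⟨e, he⟩ : ∃ e, e = S.ph c (r x) i - S.ph c (r y) i - D := ⟨_, rfl⟩
    have e1 : S.ph c (r x) i - S.ph c (r y) i = D + e := by rw [he]; ring
    have b1 : -(1 / 50) ≤ e := by rw [he, hD]; linarith
    have b2 : e ≤ 1 / 50 := by rw [he, hD]; linarith
    rw [e1, ← hD]
    rw [← hD] at a3
    nlinarith [sq_nonneg e, mul_nonneg (sub_nonneg.2 a3.1) (sub_nonneg.2 b1),
      mul_nonneg (sub_nonneg.2 a3.2) (sub_nonneg.2 b2)]
  refine le_trans ?_ (Finset.sum_le_sum fun i _ => h i)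
  rw [Finset.sum_sub_distrib, Finset.sum_const, Finset.card_univ, nsmul_eq_mul]
  unfold Sys.N Sys.rho
  linarith

/-! ### The weighted graph -/

theorem card_pos : (0 : ℝ) < Fintype.card S.G := by exact_mod_cast Fintype.card_pos

/-- The weight of the edge across the hyperplane `i` with midpoint `β`. -/
noncomputable def wt (c : S.ι → ZMod S.q) (e : S.ι × S.G) : ℝ :=
  ind (S.near c e.1 e.2) * (S.q / 2) / Fintype.card S.G

theorem wt_nonneg (c : S.ι → ZMod S.q) (e : S.ι × S.G) : 0 ≤ wt S c e :=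
  div_nonneg (mul_nonneg (ind_nonneg _) (by positivity)) (Nat.cast_nonneg _)

theorem sum_wt (c : S.ι → ZMod S.q) (g : S.ι × S.G → ℝ) :
    ∑ e, wt S c e * g e = ∑ i, 𝔼 β, ind (S.near c i β) * (S.q / 2 * g (i, β)) := by
  rw [Fintype.sum_prod_type]
  refine Finset.sum_congr rfl fun i _ => ?_
  rw [Fintype.expect_eq_sum_div_card, Finset.sum_div]
  refine Finset.sum_congr rfl fun β _ => ?_
  unfold wt
  ring

/-- The capacities. -/
noncomputable def cap (c : S.ι → ZMod S.q) (v : S.ι → S.G) (r : S.G → S.G) (K : ℝ)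
    (x y : S.G) : ℝ :=
  ec (wt S c) (fun e => e.2 + v e.1) (fun e => e.2 - v e.1) x y + K * ind (r x = r y)

theorem cap_symm (c : S.ι → ZMod S.q) (v : S.ι → S.G) (r : S.G → S.G) (K : ℝ) (x y : S.G) :
    cap S c v r K x y = cap S c v r K y x := by
  unfold cap
  rw [ec_symm]
  have : (r x = r y) = (r y = r x) := propext eq_comm
  rw [this]

theorem cap_nonneg (c : S.ι → ZMod S.q) (v : S.ι → S.G) (r : S.G → S.G) {K : ℝ} (hK : 0 ≤ K)
    (x y : S.G) : 0 ≤ cap S c v r K x y :=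
  add_nonneg (ec_nonneg (wt_nonneg S c) _ _ _ _) (mul_nonneg hK (ind_nonneg _))

theorem cut_ge_I (c : S.ι → ZMod S.q) (v : S.ι → S.G) (r : S.G → S.G) {K : ℝ} (hK : 0 ≤ K)
    (A : Finset S.G) :
    (jump S c v fun x => ind (x ∈ A)).I ≤ ∑ x ∈ A, ∑ y ∈ Aᶜ, cap S c v r K x y := by
  have h1 : ∑ x ∈ A, ∑ y ∈ Aᶜ, ec (wt S c) (fun e => e.2 + v e.1) (fun e => e.2 - v e.1) x y ≤
      ∑ x ∈ A, ∑ y ∈ Aᶜ, cap S c v r K x y :=
    Finset.sum_le_sum fun x _ => Finset.sum_le_sum fun y _ =>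
      le_add_of_nonneg_right (mul_nonneg hK (ind_nonneg _))
  refine le_trans (le_of_eq ?_) h1
  rw [sum_cut, sum_ec (wt S c) _ _ (fun x y => ind (x ∈ A) * (1 - ind (y ∈ A))), sum_wt]
  unfold Fn.I
  refine Finset.sum_congr rfl fun i _ => Finset.expect_congr rfl fun β _ => ?_
  have hq := q_pos S
  rw [cut_abs]
  simp only [jump]
  rw [abs_mul, abs_mul, abs_of_nonneg (ind_nonneg _), abs_of_pos (by positivity : 0 < (S.q : ℝ) / 2)]

theorem cut_ge_K (c : S.ι → ZMod S.q) (v : S.ι → S.G) (r : S.G → S.G) {K : ℝ} (hK : 0 ≤ K)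
    (A : Finset S.G) {a b : S.G} (ha : a ∈ A) (hb : b ∉ A) (hab : r a = r b) :
    K ≤ ∑ x ∈ A, ∑ y ∈ Aᶜ, cap S c v r K x y := by
  have h1 : K ≤ cap S c v r K a b := by
    unfold cap
    rw [ind_pos hab, mul_one]
    exact le_add_of_nonneg_left (ec_nonneg (wt_nonneg S c) _ _ _ _)
  refine h1.trans (le_trans ?_ (Finset.single_le_sum (f := fun x => ∑ y ∈ Aᶜ, cap S c v r K x y)
    (fun x _ => Finset.sum_nonneg fun y _ => cap_nonneg S c v r hK x y) ha))
  exact Finset.single_le_sum (f := fun y => cap S c v r K a y)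
    (fun y _ => cap_nonneg S c v r hK a y) (Finset.mem_compl.2 hb)

theorem var_ind (A : Finset S.G) :
    S.var (fun x => ind (x ∈ A)) = (∑ _x ∈ A, 1 / (Fintype.card S.G : ℝ)) -
      (∑ _x ∈ A, 1 / (Fintype.card S.G : ℝ)) ^ 2 := by
  have h1 : 𝔼 x, ind (x ∈ A) = ∑ _x ∈ A, 1 / (Fintype.card S.G : ℝ) := by
    rw [sum_mem_ind, Fintype.expect_eq_sum_div_card, Finset.sum_div]
    exact Finset.sum_congr rfl fun x _ => by ring
  have h2 : ∀ x, ind (x ∈ A) ^ 2 = ind (x ∈ A) := by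
    intro x
    by_cases h : x ∈ A
    · rw [ind_pos h]; norm_num
    · rw [ind_neg h]; norm_num
  unfold Sys.var
  simp_rw [h2]
  rw [h1]

theorem cut_le {c : S.ι → ZMod S.q} {v : S.ι → S.G} {r : S.G → S.G} {η κ : ℝ}
    (hr : S.Rep c η r) (hκ : 0 < κ)
    (hiso : ∀ f, S.Cell c f → S.var f ≤ κ * (jump S c v f).I + 1 / 300) (A : Finset S.G)
    (h1 : 1 / 100 ≤ ∑ _x ∈ A, 1 / (Fintype.card S.G : ℝ))
    (h2 : ∑ _x ∈ A, 1 / (Fintype.card S.G : ℝ) ≤ 1 - 1 / 100) :
    1 / (200 * κ) ≤ ∑ x ∈ A, ∑ y ∈ Aᶜ, cap S c v r (1 / (200 * κ)) x y := by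
  have hK : 0 ≤ 1 / (200 * κ) := by positivity
  by_cases hc : ∀ u w, S.same c u w → (u ∈ A ↔ w ∈ A)
  · have hcell : S.Cell c fun x => ind (x ∈ A) := by
      refine ⟨fun β => ?_, fun u w huw => ?_⟩
      · by_cases h : β ∈ A
        · exact Or.inr (ind_pos h)
        · exact Or.inl (ind_neg h)
      · have : (u ∈ A) = (w ∈ A) := propext (hc u w huw)
        simp only [this]
    have h3 := hiso _ hcell
    rw [var_ind] at h3
    refine le_trans ?_ (cut_ge_I S c v r hK A)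
    rw [div_le_iff₀ (by positivity)]
    nlinarith [mul_nonneg (sub_nonneg.2 h1) (sub_nonneg.2 h2)]
  · obtain ⟨u, hu⟩ := not_forall.1 hc
    obtain ⟨w, hw⟩ := not_forall.1 hu
    obtain ⟨hs, hne⟩ := Classical.not_imp.1 hw
    have e := hr.cell u w hs
    by_cases hA : u ∈ A
    · exact cut_ge_K S c v r hK A hA (fun h => hne ⟨fun _ => h, fun _ => hA⟩) e
    · have hw' : w ∈ A := by
        by_contra h
        exact hne ⟨fun h' => absurd h' hA, fun h' => absurd h' h⟩
      exact cut_ge_K S c v r hK A hw' hA e.symm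

theorem cost_le (hB : Basic S) (hW : S.WF) {c : S.ι → ZMod S.q} {v : S.ι → S.G} {r : S.G → S.G}
    {d : S.G → S.G → ℝ} {η K : ℝ} (hK : 0 ≤ K) (hv : S.Step v) (hr : S.Rep c η r) (hN : 1 ≤ S.N)
    (hq3 : S.N ^ 3 ≤ S.q) (hdn : S.dn c ≤ 16 * S.N ^ 2 / (S.q : ℝ) ^ 2)
    (hd : ∀ x y, d x y ≤ 2 * S.rho c (r x) (r y)) :
    ∑ x, ∑ y, cap S c v r K x y * d x y ≤ 80 * S.N := by
  have hq := q_pos S
  have hNq : S.N ≤ S.q := le_trans (by nlinarith [mul_nonneg (sub_nonneg.2 hN) (sub_nonneg.2 hN)])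
    hq3
  have h1 : ∑ x, ∑ y, cap S c v r K x y * d x y ≤
      ∑ x, ∑ y, ec (wt S c) (fun e => e.2 + v e.1) (fun e => e.2 - v e.1) x y * d x y := by
    refine Finset.sum_le_sum fun x _ => Finset.sum_le_sum fun y _ => ?_
    unfold cap
    rw [add_mul]
    refine add_le_of_nonpos_right ?_
    by_cases h : r x = r y
    · have := hd x y
      rw [h, rho_self] at this
      rw [ind_pos h]
      nlinarith
    · rw [ind_neg h]
      simp
  refine h1.trans ?_
  rw [sum_ec, sum_wt]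
  have h2 : ∀ i β, ind (S.near c i β) *
      (S.q / 2 * (d (β + v i) (β - v i) + d (β - v i) (β + v i))) ≤
      24 * S.q * ind (S.y c i β = 0 ∨ S.y c i β = -1) +
        2 * S.q * S.N * ind (∃ i j, i ≠ j ∧ S.near c i β ∧ S.near c j β) := by
    intro i β
    have a1 := hd (β + v i) (β - v i)
    have a2 := hd (β - v i) (β + v i)
    rw [rho_symm S c (r (β - v i))] at a2
    by_cases hi : S.near c i β
    · have hi' : S.y c i β = 0 ∨ S.y c i β = -1 := hi
      rw [ind_pos hi, ind_pos hi']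
      by_cases hD : ∃ i j, i ≠ j ∧ S.near c i β ∧ S.near c j β
      · rw [ind_pos hD]
        have := rho_le S c (r (β + v i)) (r (β - v i))
        nlinarith
      · rw [ind_neg hD]
        have b1 := rho_step S hB hW hv hNq c β i hi hD
        have b2 := rho_three S c (r (β + v i)) (β + v i) (β - v i) (r (β - v i))
        have b3 := hr.close2 (β + v i)
        have b4 := hr.close2 (β - v i)
        rw [rho_symm] at b4
        nlinarith
    · rw [ind_neg hi, zero_mul]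
      have hN0 : 0 ≤ S.N := by linarith
      exact add_nonneg (mul_nonneg (by positivity) (ind_nonneg _))
        (mul_nonneg (by positivity) (ind_nonneg _))
  have h3 : ∀ i, 𝔼 β, ind (S.near c i β) *
      (S.q / 2 * (d (β + v i) (β - v i) + d (β - v i) (β + v i))) ≤ 80 := by
    intro i
    refine (Finset.expect_le_expect fun β _ => h2 i β).trans ?_
    rw [Finset.expect_add_distrib, ← Finset.mul_expect, ← Finset.mul_expect,
      hB.y_unif hW c i (fun z => ind (z = 0 ∨ z = -1))]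
    have b1 : 24 * (S.q : ℝ) * 𝔼 z : ZMod S.q, ind (z = 0 ∨ z = -1) ≤ 48 := by
      refine (mul_le_mul_of_nonneg_left (ex_near S.q) (by positivity)).trans (le_of_eq ?_)
      field_simp
      norm_num
    have b2 : 2 * (S.q : ℝ) * S.N * S.dn c ≤ 32 := by
      have hN0 : 0 ≤ S.N := by linarith
      refine (mul_le_mul_of_nonneg_left hdn (by positivity)).trans ?_
      have e : 2 * (S.q : ℝ) * S.N * (16 * S.N ^ 2 / (S.q : ℝ) ^ 2) = 32 * (S.N ^ 3 / S.q) := by
        field_simp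
        norm_num
      rw [e]
      have : S.N ^ 3 / S.q ≤ 1 := by rwa [div_le_one hq]
      linarith
    unfold Sys.dn at b2
    linarith
  refine (Finset.sum_le_sum fun i _ => h3 i).trans (le_of_eq ?_)
  rw [Finset.sum_const, Finset.card_univ, nsmul_eq_mul, mul_comm]
  rfl

theorem spread_le (hB : Basic S) (hW : S.WF) {c : S.ι → ZMod S.q} {r : S.G → S.G}
    {d : S.G → S.G → ℝ} {η : ℝ} (hr : S.Rep c η r) (hN : 1 ≤ S.N)
    (hd : ∀ x y, S.rho c (r x) (r y) ≤ d x y) (Y : Finset S.G)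
    (hY : 1 - 1 / 100 ≤ ∑ _x ∈ Y, 1 / (Fintype.card S.G : ℝ)) :
    S.N / 20 ≤ ∑ x ∈ Y, ∑ y ∈ Y,
      1 / (Fintype.card S.G : ℝ) * (1 / (Fintype.card S.G : ℝ)) * d x y := by
  have hG := card_pos S
  have h0 : ∀ g : S.G → ℝ, ∑ x ∈ Y, 1 / (Fintype.card S.G : ℝ) * g x = 𝔼 x, ind (x ∈ Y) * g x := by
    intro g
    rw [sum_mem_ind, Fintype.expect_eq_sum_div_card, Finset.sum_div]
    exact Finset.sum_congr rfl fun x _ => by ring
  have h1 : ∑ x ∈ Y, ∑ y ∈ Y,
      1 / (Fintype.card S.G : ℝ) * (1 / (Fintype.card S.G : ℝ)) * d x y =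
      𝔼 x, 𝔼 y, ind (x ∈ Y) * (ind (y ∈ Y) * d x y) := by
    simp_rw [← Finset.mul_expect, ← h0, Finset.mul_sum, mul_assoc]
  have hm : 99 / 100 ≤ 𝔼 x, ind (x ∈ Y) := by
    have := h0 fun _ => 1
    simp only [mul_one] at this
    linarith
  have h2 : ∀ x y, S.rho c y x - S.N / 25 - 2 * S.N + S.N * ind (x ∈ Y) + S.N * ind (y ∈ Y) ≤
      ind (x ∈ Y) * (ind (y ∈ Y) * d x y) := by
    intro x y
    have a1 := rho_rep S hr x y
    have a2 := hd x y
    have a3 := rho_le S c x y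
    rw [rho_symm S c y x]
    by_cases hx : x ∈ Y <;> by_cases hy : y ∈ Y
    · rw [ind_pos hx, ind_pos hy]; linarith
    · rw [ind_pos hx, ind_neg hy]; linarith
    · rw [ind_neg hx, ind_pos hy]; linarith
    · rw [ind_neg hx, ind_neg hy]; linarith
  rw [h1]
  refine le_trans ?_ (Finset.expect_le_expect fun x _ => Finset.expect_le_expect fun y _ => h2 x y)
  simp only [Finset.expect_add_distrib, Finset.expect_sub_distrib, ← Finset.mul_expect,
    Fintype.expect_const]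
  have h3 := ex_rho S hB hW c
  nlinarith [mul_nonneg (sub_nonneg.2 hN) (sub_nonneg.2 hm)]

end Gap

theorem gapD_proof (hB : BasicStmt) : GapStmt := by
  refine ⟨1 / 10240000, by norm_num, ?_⟩
  intro S c v r d η κ hW hv hr hN hq3 hdn hd htri hdr hκ hiso n hn
  have hG := Gap.card_pos S
  have hK : 0 < 1 / (200 * κ) := by positivity
  have hN0 : 0 < S.N := by linarith
  have h := gap_ge_of_weighted (X := S.G) (fun _ => 1 / (Fintype.card S.G : ℝ))
    (fun _ => by positivity)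
    (by rw [Finset.sum_const, Finset.card_univ, nsmul_eq_mul]; field_simp)
    (Gap.cap_symm S c v r (1 / (200 * κ))) (Gap.cap_nonneg S c v r hK.le) hd htri
    (K := 1 / (200 * κ)) (A := 80 * S.N) (B := S.N / 20) (β := 1 / 100) hK (by positivity)
    (by norm_num) (by norm_num) (fun A h1 h2 => Gap.cut_le S hr hκ hiso A h1 h2)
    (Gap.cost_le S (hB S) hW hK.le hv hr hN hq3 hdn fun x y => (hdr x y).2)
    (fun Y hY => Gap.spread_le S (hB S) hW hr hN (fun x y => (hdr x y).1) Y hY) hn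
  refine le_trans (le_of_eq ?_) h
  field_simp
  norm_num

end Vale.Agent.P318.D
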