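import Vale.Agent.P318.D.Stmt

/-!
Track D: the general test inequality and its two instances.
-/

namespace Vale.Agent.P318.D

open Finset
open scoped BigOperators

namespace GenP

variable {S : Sys}

lemma I_nonneg (F : Fn S) : 0 ≤ F.I :=
  sum_nonneg fun _ _ => expect_nonneg fun _ _ => abs_nonneg _

lemma Ee_nonneg (F : Fn S) : 0 ≤ F.Ee :=
  sum_nonneg fun _ _ => expect_nonneg fun _ _ => abs_nonneg _

lemma Ee_le_EP (F : Fn S) (P : S.P) : F.Ee ≤ F.EP P := by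
  have h : 0 ≤ F.I / √(S.D P) := div_nonneg (I_nonneg F) (Real.sqrt_nonneg _)
  unfold Fn.EP
  linarith

lemma EP_nonneg (F : Fn S) (P : S.P) : 0 ≤ F.EP P := (Ee_nonneg F).trans (Ee_le_EP F P)

lemma Eb_nonneg (F : Fn S) (b : S.B) : 0 ≤ F.Eb b :=
  add_nonneg (div_nonneg (sum_nonneg fun _ _ => expect_nonneg fun _ _ => abs_nonneg _)
    (Real.sqrt_nonneg _)) (sum_nonneg fun _ _ => expect_nonneg fun _ _ => abs_nonneg _)

lemma Bt_nonneg (F : Fn S) (τ : S.B → ℝ) (t : ℝ) (P : S.P) : 0 ≤ F.Bt τ t P :=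
  sum_nonneg fun _ _ => expect_nonneg fun _ _ => sq_nonneg _

lemma nsq_nonneg (Y : S.ι → S.G → ℝ) : 0 ≤ nsq Y :=
  sum_nonneg fun _ _ => expect_nonneg fun _ _ => sq_nonneg _

lemma fam_nonneg {F : Fn S} {R : Finset S.P} {m E : ℝ} (h : Fam F R m E) : 0 ≤ E := by
  obtain ⟨P, hP⟩ := h.ne
  exact (EP_nonneg F P).trans (h.err P hP)

lemma l0_eq {t : ℝ} (ht : 0 < t) (p D : ℝ) : l0 t p D = 90 / √t * √(p / D) := by
  unfold l0
  rw [mul_comm t D, ← div_div, Real.sqrt_div' _ ht.le]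
  ring

lemma l0_nonneg (t p D : ℝ) : 0 ≤ l0 t p D := by
  unfold l0
  positivity

lemma c0_nonneg (t : ℝ) : 0 ≤ c0 t := by
  unfold c0
  positivity

/-- Pairing with a bounded family. -/
lemma pair_le (α Y : S.ι → S.G → ℝ) {r : ℝ} (h : ∀ i β, |Y i β| ≤ r) :
    ∑ i, 𝔼 β, α i β * Y i β ≤ r * ∑ i, 𝔼 β, |α i β| := by
  rw [mul_sum]
  refine sum_le_sum fun i _ => ?_
  rw [mul_expect]
  refine expect_le_expect fun β _ => (le_abs_self _).trans ?_
  rw [abs_mul, mul_comm]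
  exact mul_le_mul_of_nonneg_right (h i β) (abs_nonneg _)

variable {F : Fn S} {δ : ℝ} {τ : S.B → ℝ} {t p : ℝ} {P : S.P} {R : Finset S.P} {m m' E' : ℝ}

lemma al_le (hV : VStmt) (H : Hyp S F δ τ t p P R m m' E') :
    ∑ i, 𝔼 β, |F.al τ t P i β| ≤ F.I :=
  sum_le_sum fun i _ => (hV S F τ t P H.wf H.ok H.rate H.t_pos).2.2.1 i

lemma s_nonneg (H : Hyp S F δ τ t p P R m m' E') (u : ℝ) (hu : 0 ≤ u) : 0 ≤ u / S.ν P :=
  div_nonneg hu (zero_le_one.trans (H.wf.one_le_ν P))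

/-- The averaged part of the heavy vector. -/
lemma zk_le (hB : BasicStmt) (hD : DBStmt) (hH : HeatStmt) (hN : NoiseStmt) (hZ : ZStmt)
    (hX : XStmt) (H : Hyp S F δ τ t p P R m m' E') :
    ∑ i, 𝔼 β, F.al τ t P i β * S.cv (S.zk R i) (F.UH τ t p P i) β ≤
      l0 t p (S.D P) * F.I + 9 / δ * (c0 t * √m) * E' := by
  have hs := s_nonneg H t H.t_pos.le
  have hk := fun b => (hH S).mkv (t / S.ν P) b hs
  have hn := (hN S).mk_nz τ H.rate
  let Y : S.ι → S.G → ℝ := fun i =>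
    S.cv (S.nz τ) (S.cv (S.hk (t / S.ν P) (S.pb P i)) (F.UH τ t p P i))
  have hY : S.DB univ Y (l0 t p (S.D P)) (c0 t * √m) := by
    refine (hD S).glue_univ H.wf Y _ _ P m (c0_nonneg t) H.blocks fun b hb => ?_
    have h1 := (hX S F δ τ t p P R m m' E' H).2.2.1 b hb
    have h2 := (hD S).cv _ _ _ _ _ hn ((hD S).cv _ _ _ _ _ (hk b) h1)
    refine (hD S).congr _ _ _ _ _ h2 fun i hi => ?_
    simp only [Y, ((hB S).mem_J H.wf P i b hb).1 hi]
  have h := hZ S δ H.δ_pos H.δ_le H.wf H.rip F R Y m' E' _ _ H.fam (l0_nonneg _ _ _)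
    (mul_nonneg (c0_nonneg t) (Real.sqrt_nonneg m)) hY
  refine le_trans (le_of_eq ?_) ((le_abs_self _).trans h)
  refine sum_congr rfl fun i _ => ?_
  unfold Fn.al
  rw [(hB S).cv_adj _ _ _ (hk _).2.2, (hB S).cv_adj _ _ _ hn.2.2,
    (hB S).cv_comm (S.hk (t / S.ν P) (S.pb P i)) (S.zk R i), (hB S).cv_comm (S.nz τ) (S.zk R i)]

/-- The pairing with the test vector. -/
lemma test_le (hB : BasicStmt) (hP : PairStmt) (hV : VStmt) (H : Hyp S F δ τ t p P R m m' E')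
    (Y : S.ι → S.G → ℝ) {ℓ c : ℝ} (hℓ : 0 ≤ ℓ) (hc : 0 ≤ c)
    (hY : ∀ b ∈ S.Bl P, S.DB (S.J b) Y ℓ c) :
    ∑ i, 𝔼 β, F.al τ t P i β * Y i β ≤
      F.Bt τ t P / 2 + 9 / (2 * δ) * √(20 / t) * F.EP P + (1 + 3 * δ) / 2 * nsq Y + ℓ * F.I +
        9 / δ * c * F.EP P := by
  obtain ⟨v1, v2, -, v4, -⟩ := hV S F τ t P H.wf H.ok H.rate H.t_pos
  have hδ := H.δ_pos
  have ht := H.t_pos
  have h3 : 0 < 1 + 3 * δ := by positivity
  have hb : ∀ b ∈ S.Bl P, ∑ i ∈ S.J b, 𝔼 β, F.al τ t P i β * Y i β ≤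
      (∑ l ∈ S.Lb b, 𝔼 β, F.V τ t l β ^ 2) / 2 + 9 / (2 * δ) * √(20 / t) * F.Eb b +
        (1 + 3 * δ) / 2 * (∑ i ∈ S.J b, 𝔼 β, Y i β ^ 2) +
        ℓ * (∑ i ∈ S.J b, 𝔼 β, |F.al τ t P i β|) + 9 / δ * c * F.Eb b := by
    intro b hb
    have h := hP S δ hδ H.δ_le H.wf H.rip b (F.al τ t P) Y (F.V τ t)
      (fun l => S.cv (S.hk (t / S.ν P) b) (S.cv (S.nz τ) (F.er l))) (√(20 / t)) ℓ c
      (1 / (1 + 3 * δ)) (F.Eb b) (Real.sqrt_nonneg _) hℓ hc (by positivity) (v2 b hb)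
      (fun β => by rw [Real.sq_sqrt (by positivity)]; exact v1 b β) (hY b hb) (v4 b hb)
    refine ((le_abs_self _).trans h).trans ?_
    have e1 : 1 / (1 + 3 * δ) / 2 * ((1 + 3 * δ) * ∑ l ∈ S.Lb b, 𝔼 β, F.V τ t l β ^ 2 +
        9 / δ * √(20 / t) * F.Eb b) = (∑ l ∈ S.Lb b, 𝔼 β, F.V τ t l β ^ 2) / 2 +
        1 / (1 + 3 * δ) * (9 / (2 * δ) * √(20 / t) * F.Eb b) := by
      field_simp
    have e2 : (∑ i ∈ S.J b, 𝔼 β, Y i β ^ 2) / (2 * (1 / (1 + 3 * δ))) =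
        (1 + 3 * δ) / 2 * ∑ i ∈ S.J b, 𝔼 β, Y i β ^ 2 := by
      field_simp
    have h0 : 0 ≤ 9 / (2 * δ) * √(20 / t) * F.Eb b := by
      have := Eb_nonneg F b
      positivity
    have h1 : 1 / (1 + 3 * δ) ≤ 1 := by
      rw [div_le_one h3]
      linarith
    have h2 := mul_le_mul_of_nonneg_right h1 h0
    rw [e1, e2]
    linarith
  rw [← (hB S).sum_J H.wf P]
  refine (sum_le_sum hb).trans ?_
  simp only [sum_add_distrib, ← mul_sum, ← sum_div]
  rw [(hB S).sum_J H.wf P, (hB S).sum_J H.wf P, (hB S).sum_Lb P]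
  have h4 := (hB S).sum_Eb H.wf F P
  have h5 := mul_le_mul_of_nonneg_left h4 (show 0 ≤ 9 / (2 * δ) * √(20 / t) by positivity)
  have h6 := mul_le_mul_of_nonneg_left h4 (show 0 ≤ 9 / δ * c by positivity)
  have h7 := mul_le_mul_of_nonneg_left (al_le hV H) hℓ
  unfold Fn.Bt nsq
  linarith

/-- The three parts of the error term, in the unit `1 / (δ √t)`. -/
lemma parts (H : Hyp S F δ τ t p P R m m' E') :
    0 ≤ √(p / S.D P) * F.I ∧ 0 ≤ √m * E' ∧ F.EP P ≤ √m' * F.EP P := by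
  refine ⟨mul_nonneg (Real.sqrt_nonneg _) (I_nonneg F),
    mul_nonneg (Real.sqrt_nonneg _) (fam_nonneg H.fam), ?_⟩
  exact le_mul_of_one_le_left (EP_nonneg F P) (Real.one_le_sqrt.2 H.fam.one_le)

lemma unit_le (H : Hyp S F δ τ t p P R m m' E') : 1 / √t ≤ 1 / (δ * √t) := by
  have hs := Real.sqrt_pos.2 H.t_pos
  have hδ := H.δ_pos
  have := H.δ_le
  refine one_div_le_one_div_of_le (by positivity) ?_
  nlinarith

/-- The cost of a test vector with the dual bound `(κ * 2 l0, κ * 2 c0 √m')`. -/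
lemma cost_le (H : Hyp S F δ τ t p P R m m' E') {κ : ℝ} (hκ : 0 ≤ κ) :
    2 * (κ * (2 * l0 t p (S.D P))) * F.I + 18 / δ * (κ * (2 * c0 t * √m')) * F.EP P ≤
      360 * κ / (δ * √t) * F.Er p P m m' E' := by
  obtain ⟨p1, p2, p3⟩ := parts H
  have hu := unit_le H
  have hs := Real.sqrt_pos.2 H.t_pos
  have hδ := H.δ_pos
  have p4 : 0 ≤ √m' * F.EP P := (EP_nonneg F P).trans p3
  have hw : 0 ≤ 1 / (δ * √t) := by positivity
  rw [l0_eq H.t_pos]
  unfold c0 Fn.Er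
  have e1 : 2 * (κ * (2 * (90 / √t * √(p / S.D P)))) * F.I =
      360 * κ * (1 / √t * (√(p / S.D P) * F.I)) := by ring
  have e2 : 18 / δ * (κ * (2 * (5 / √t) * √m')) * F.EP P =
      180 * κ * (1 / (δ * √t) * (√m' * F.EP P)) := by
    field_simp
    ring
  have e3 : 360 * κ / (δ * √t) * (√(p / S.D P) * F.I + √m * E' + √m' * F.EP P) =
      360 * κ * (1 / (δ * √t) * (√(p / S.D P) * F.I)) + 360 * κ * (1 / (δ * √t) * (√m * E')) +
        360 * κ * (1 / (δ * √t) * (√m' * F.EP P)) := by ring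
  rw [e1, e2, e3]
  have h1 := mul_le_mul_of_nonneg_left (mul_le_mul_of_nonneg_right hu p1) hκ
  have h2 := mul_nonneg hκ (mul_nonneg hw p2)
  have h3 := mul_nonneg hκ (mul_nonneg hw p4)
  linarith

lemma Er_nonneg (H : Hyp S F δ τ t p P R m m' E') : 0 ≤ F.Er p P m m' E' := by
  obtain ⟨p1, p2, p3⟩ := parts H
  have := EP_nonneg F P
  unfold Fn.Er
  linarith

lemma mul_unit {t : ℝ} (ht : 0 < t) {δ : ℝ} (hδ : 0 < δ) (C : ℝ) :
    t * (C / (δ * √t)) = C * √t / δ := by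
  have hs := Real.sqrt_pos.2 ht
  have h := Real.mul_self_sqrt ht.le
  rw [mul_div_assoc', div_eq_div_iff (by positivity) (by positivity)]
  linear_combination (-(C * δ)) * h

end GenP

open GenP

theorem gen_proof (hB : BasicStmt) (hD : DBStmt) (hH : HeatStmt) (hN : NoiseStmt) (hP : PairStmt)
    (hZ : ZStmt) (hV : VStmt) (hX : XStmt) : GenStmt := by
  refine ⟨360, by norm_num, fun S F δ τ t p P R m m' E' H Y ℓ c hℓ hc hY => ?_⟩
  have h0 := (abs_le.1 (hV S F τ t P H.wf H.ok H.rate H.t_pos).2.2.2.2).2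
  have e : ∑ i, 𝔼 β, F.al τ t P i β * F.U τ t P i β =
      ∑ i, 𝔼 β, F.al τ t P i β * F.UL τ t p P i β +
      ∑ i, 𝔼 β, F.al τ t P i β * S.cv (S.zk R i) (F.UH τ t p P i) β +
      ∑ i, 𝔼 β, F.al τ t P i β * (F.X τ t p P R i β - Y i β) +
      ∑ i, 𝔼 β, F.al τ t P i β * Y i β := by
    simp only [← sum_add_distrib, ← expect_add_distrib]
    refine sum_congr rfl fun i _ => expect_congr rfl fun β _ => ?_
    have e1 : F.UH τ t p P i β = F.U τ t P i β - F.UL τ t p P i β := rfl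
    unfold Fn.X
    rw [e1]
    ring
  have h1 := (pair_le (F.al τ t P) _ (hX S F δ τ t p P R m m' E' H).2.1).trans
    (mul_le_mul_of_nonneg_left (al_le hV H) (l0_nonneg _ _ _))
  have h2 := zk_le hB hD hH hN hZ hX H
  have h3 := le_abs_self (∑ i, 𝔼 β, F.al τ t P i β * (F.X τ t p P R i β - Y i β))
  have h4 := test_le hB hP hV H Y hℓ hc hY
  obtain ⟨p1, p2, p3⟩ := parts H
  have hu := unit_le H
  have hs := Real.sqrt_pos.2 H.t_pos
  have hδ := H.δ_pos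
  have hE := EP_nonneg F P
  have hw : 0 ≤ 1 / (δ * √t) := by positivity
  have k1 : l0 t p (S.D P) * F.I ≤ 90 * (1 / (δ * √t) * (√(p / S.D P) * F.I)) := by
    rw [l0_eq H.t_pos]
    have := mul_le_mul_of_nonneg_right hu p1
    calc 90 / √t * √(p / S.D P) * F.I = 90 * (1 / √t * (√(p / S.D P) * F.I)) := by ring
      _ ≤ _ := by linarith
  have k2 : 9 / δ * (c0 t * √m) * E' = 45 * (1 / (δ * √t) * (√m * E')) := by
    unfold c0
    field_simp
    ring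
  have k3 : c0 t * F.Ee ≤ 5 * (1 / (δ * √t) * (√m' * F.EP P)) := by
    unfold c0
    have := mul_le_mul hu ((Ee_le_EP F P).trans p3) (Ee_nonneg F) hw
    calc 5 / √t * F.Ee = 5 * (1 / √t * F.Ee) := by ring
      _ ≤ _ := by linarith
  have k4 : 9 / (2 * δ) * √(20 / t) * F.EP P ≤ 45 / 2 * (1 / (δ * √t) * (√m' * F.EP P)) := by
    have h20 : √(20 : ℝ) ≤ 5 := Real.sqrt_le_iff.2 ⟨by norm_num, by norm_num⟩
    rw [Real.sqrt_div' _ H.t_pos.le]
    have := mul_le_mul_of_nonneg_left (mul_le_mul h20 p3 hE (by norm_num)) hw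
    calc 9 / (2 * δ) * (√20 / √t) * F.EP P = 9 / 2 * (1 / (δ * √t) * (√20 * F.EP P)) := by
          field_simp
      _ ≤ _ := by linarith
  have k5 := mul_nonneg hw p2
  have k6 := mul_nonneg hw (hE.trans p3)
  have e3 : 360 / (δ * √t) * F.Er p P m m' E' =
      360 * (1 / (δ * √t) * (√(p / S.D P) * F.I)) + 360 * (1 / (δ * √t) * (√m * E')) +
        360 * (1 / (δ * √t) * (√m' * F.EP P)) := by
    unfold Fn.Er
    ring
  have e4 : 18 / δ * c * F.EP P = 2 * (9 / δ * c * F.EP P) := by ring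
  rw [e3, e4]
  rw [e] at h0
  linarith

theorem core0_proof (hG : GenStmt) (hV : VStmt) (hX : XStmt) : Core0Stmt := by
  obtain ⟨C, hC, hG⟩ := hG
  refine ⟨C + 360, by linarith, fun S F δ τ t p P R m m' E' H => ⟨?_, ?_⟩⟩
  · have h := hG S F δ τ t p P R m m' E' H (F.X τ t p P R) _ _
      (mul_nonneg zero_le_two (l0_nonneg _ _ _))
      (mul_nonneg (mul_nonneg zero_le_two (c0_nonneg t)) (Real.sqrt_nonneg m'))
      (hX S F δ τ t p P R m m' E' H).2.2.2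
    have h1 := cost_le H zero_le_one
    simp only [sub_self, mul_zero, expect_const_zero, sum_const_zero, abs_zero, one_mul,
      mul_one] at h h1
    have h2 : F.Bt τ t P ≤ (1 + 3 * δ) * nsq (F.X τ t p P R) +
        (C + 360) / (δ * √t) * F.Er p P m m' E' := by
      rw [add_div, add_mul]
      linarith
    have h3 := mul_le_mul_of_nonneg_left h2 H.t_pos.le
    rw [mul_add, ← mul_assoc t (_ / _), mul_unit H.t_pos H.δ_pos] at h3
    linarith
  · have h0 := (abs_le.1 (hV S F τ t P H.wf H.ok H.rate H.t_pos).2.2.2.2).2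
    have h1 := (pair_le (F.al τ t P) _ (hX S F δ τ t p P R m m' E' H).1).trans
      (mul_le_mul_of_nonneg_left (al_le hV H) (c0_nonneg t))
    have h2 : F.Bt τ t P ≤ c0 t * (F.I + F.Ee) := by linarith
    have h3 := mul_le_mul_of_nonneg_left h2 H.t_pos.le
    have hs := Real.sqrt_pos.2 H.t_pos
    have e : t * c0 t = 5 * √t := by
      have := mul_unit H.t_pos one_pos 5
      rw [one_mul, div_one] at this
      exact this
    rw [← mul_assoc, e] at h3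
    refine h3.trans (mul_le_mul_of_nonneg_right ?_ (add_nonneg (I_nonneg F) (Ee_nonneg F)))
    exact mul_le_mul_of_nonneg_right (by linarith) hs.le

theorem core1_proof (hB : BasicStmt) (hD : DBStmt) (hH : HeatStmt) (hPk : PkStmt) (hX : XStmt)
    (hG : GenStmt) (hNe : NearStmt) : Core1Stmt := by
  obtain ⟨C, hC, hG⟩ := hG
  obtain ⟨Cn, hCn, hNe⟩ := hNe
  obtain ⟨Ck, hCk, hPk⟩ := hPk
  refine ⟨2 * Cn + 360 * (1 + Ck) + C, by linarith,
    fun S F δ τ t p P R m m' E' a H ha => ?_⟩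
  have ht := H.t_pos
  have hδ := H.δ_pos
  have hs := Real.sqrt_pos.2 ht
  have ha0 : 0 < a := by linarith
  have hl : 0 ≤ 2 * l0 t p (S.D P) := mul_nonneg zero_le_two (l0_nonneg _ _ _)
  have hc : 0 ≤ 2 * c0 t * √m' :=
    mul_nonneg (mul_nonneg zero_le_two (c0_nonneg t)) (Real.sqrt_nonneg m')
  have hκ : 0 ≤ Ck * a ^ 2 := by positivity
  have hY : ∀ b ∈ S.Bl P, S.DB (S.J b) (F.X1 a τ t p P R)
      ((1 + Ck * a ^ 2) * (2 * l0 t p (S.D P))) ((1 + Ck * a ^ 2) * (2 * c0 t * √m')) := by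
    intro b hb
    have h1 := (hX S F δ τ t p P R m m' E' H).2.2.2 b hb
    have h2 := (hD S).dom _ _ _ _ (S.hk (2 * a ^ 4 * t / S.ν P) b) (S.pkt a t P) (Ck * a ^ 2)
      ((hH S).mkv _ b (s_nonneg H _ (by positivity))) hl hc hκ (fun i hi w => by
        have := (hPk S δ a t P i hδ H.δ_le H.wf H.rip ha ht H.fine).dom w
        rwa [((hB S).mem_J H.wf P i b hb).1 hi] at this) h1
    have h3 := (hD S).sub _ _ _ _ _ _ _ h1 h2
    exact (hD S).mono _ _ _ _ _ _ h3 (le_of_eq (by ring)) (le_of_eq (by ring))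
  have h := hG S F δ τ t p P R m m' E' H (F.X1 a τ t p P R) _ _ (by positivity) (by positivity) hY
  have e : ∀ i β, F.X τ t p P R i β - F.X1 a τ t p P R i β =
      S.cv (S.pkt a t P i) (F.X τ t p P R i) β := by
    intro i β
    unfold Fn.X1
    ring
  simp only [e] at h
  have h1 := hNe S F δ τ t p P R m m' E' a H ha
  have h2 := cost_le H (show 0 ≤ 1 + Ck * a ^ 2 by positivity)
  have hEr := Er_nonneg H
  have hR1 : 0 ≤ √m * √m' * ∑ b, τ b * F.Eb b :=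
    mul_nonneg (by positivity) (sum_nonneg fun b _ => mul_nonneg (H.rate b).1 (Eb_nonneg F b))
  have hR2 : 0 ≤ √m' * kap t * F.I / S.q := by
    have := I_nonneg F
    positivity
  set Q := F.Er p P m m' E' + √m * √m' * ∑ b, τ b * F.Eb b + √m' * kap t * F.I / S.q with hQ
  set N := a ^ 4 * F.Bt τ (a ^ 4 * t) P + nsq (F.X τ t p P R) with hN
  have hN0 : 0 ≤ N := add_nonneg (mul_nonneg (by positivity) (Bt_nonneg F _ _ _)) (nsq_nonneg _)
  have hQ1 : F.Er p P m m' E' ≤ Q := by linarith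
  have ha3 : 1 ≤ a ^ 3 := one_le_pow₀ ha
  have ha2 : a ^ 2 ≤ a ^ 3 := pow_le_pow_right₀ ha (by norm_num)
  have k1 : 360 * (1 + Ck * a ^ 2) / (δ * √t) * F.Er p P m m' E' ≤
      360 * (1 + Ck) * a ^ 3 / (δ * √t) * Q := by
    refine mul_le_mul (div_le_div_of_nonneg_right ?_ (by positivity)) hQ1 hEr (by positivity)
    nlinarith
  have k2 : C / (δ * √t) * F.Er p P m m' E' ≤ C * a ^ 3 / (δ * √t) * Q := by
    refine mul_le_mul (div_le_div_of_nonneg_right ?_ (by positivity)) hQ1 hEr (by positivity)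
    nlinarith
  have k3 : 2 * (Cn / a * N) ≤ (2 * Cn + 360 * (1 + Ck) + C) / a * N := by
    rw [← mul_assoc, ← mul_div_assoc]
    refine mul_le_mul_of_nonneg_right (div_le_div_of_nonneg_right ?_ ha0.le) hN0
    linarith
  have h3 : F.Bt τ t P ≤ (1 + 3 * δ) * nsq (F.X1 a τ t p P R) +
      (2 * Cn + 360 * (1 + Ck) + C) / a * N +
      (2 * Cn + 360 * (1 + Ck) + C) * a ^ 3 / (δ * √t) * Q := by
    have e2 : (2 * Cn + 360 * (1 + Ck) + C) * a ^ 3 / (δ * √t) * Q =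
        2 * (Cn * a ^ 3 / (δ * √t) * Q) + 360 * (1 + Ck) * a ^ 3 / (δ * √t) * Q +
          C * a ^ 3 / (δ * √t) * Q := by ring
    rw [e2]
    linarith
  have h4 := mul_le_mul_of_nonneg_left h3 ht.le
  rw [mul_add, mul_add, ← mul_assoc t (_ / (δ * √t)), mul_unit ht hδ] at h4
  refine h4.trans (le_of_eq ?_)
  rw [hN]
  ring

end Vale.Agent.P318.D
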