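import Vale.Agent.P318.D.Stmt

/-!
Track D: the geometry of the cells. For typical offsets the relation `same` is an equivalence,
and representatives of the cells form an almost acute configuration.
-/

set_option linter.dupNamespace false

namespace Vale.Agent.P318.D

open Finset
open scoped BigOperators

namespace Geo

theorem ind_true {p : Prop} (h : p) : ind p = 1 := by
  unfold ind; exact if_pos h

theorem ind_false {p : Prop} (h : ¬ p) : ind p = 0 := by
  unfold ind; exact if_neg h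

theorem ind_nonneg (p : Prop) : 0 ≤ ind p := by
  by_cases h : p
  · rw [ind_true h]; norm_num
  · rw [ind_false h]

variable (S : Sys) (c : S.ι → ZMod S.q)

theorem q_pos : (0 : ℝ) < S.q := by
  have := S.hq.out.pos
  exact_mod_cast this

theorem ph_nonneg (u : S.G) (i : S.ι) : 0 ≤ S.ph c u i := by
  unfold Sys.ph
  exact div_nonneg (Nat.cast_nonneg _) (q_pos S).le

theorem ph_lt_one (u : S.G) (i : S.ι) : S.ph c u i < 1 := by
  unfold Sys.ph
  rw [div_lt_one (q_pos S)]
  have : NeZero S.q := ⟨S.hq.out.pos.ne'⟩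
  exact_mod_cast ZMod.val_lt _

theorem abs_ep_le (γ : S.G) (i : S.ι) : |S.ep γ i| ≤ 1 / 2 := by
  unfold Sys.ep cen
  have : NeZero S.q := ⟨S.hq.out.pos.ne'⟩
  have hq := q_pos S
  rw [abs_div, abs_of_pos hq, div_le_iff₀ hq]
  have h := ZMod.natAbs_valMinAbs_le (S.dot (S.nG i) γ)
  have h2 : (S.dot (S.nG i) γ).valMinAbs.natAbs * 2 ≤ S.q :=
    le_trans (Nat.mul_le_mul_right 2 h) (Nat.div_mul_le_self _ _)
  have h3 : (((S.dot (S.nG i) γ).valMinAbs.natAbs : ℕ) : ℝ) * 2 ≤ S.q := by exact_mod_cast h2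
  have h4 : (((S.dot (S.nG i) γ).valMinAbs.natAbs : ℕ) : ℝ) =
      |((S.dot (S.nG i) γ).valMinAbs : ℝ)| := by
    rw [Nat.cast_natAbs, Int.cast_abs]
  rw [h4] at h3
  linarith

theorem y_sub (u v : S.G) (i : S.ι) :
    S.y c i u - S.y c i v = S.dot (S.nG i) (u - v) := by
  unfold Sys.y Sys.dot
  simp only [Pi.sub_apply, mul_sub, Finset.sum_sub_distrib]
  ring

/-- The increment of the phase differs from the centred increment by an integer. -/
theorem exists_int (u v : S.G) (i : S.ι) :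
    ∃ k : ℤ, S.ph c u i - S.ph c v i = S.ep (u - v) i + k := by
  have : NeZero S.q := ⟨S.hq.out.pos.ne'⟩
  have hq := q_pos S
  have h0 : ((((S.y c i u).val : ℤ) - ((S.y c i v).val : ℤ) -
      (S.dot (S.nG i) (u - v)).valMinAbs : ℤ) : ZMod S.q) = 0 := by
    push_cast
    rw [ZMod.natCast_zmod_val, ZMod.natCast_zmod_val, y_sub, sub_self]
  obtain ⟨k, hk⟩ := (ZMod.intCast_zmod_eq_zero_iff_dvd _ _).1 h0
  refine ⟨k, ?_⟩
  have hk' : (((S.y c i u).val : ℕ) : ℝ) - ((S.y c i v).val : ℝ) -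
      ((S.dot (S.nG i) (u - v)).valMinAbs : ℝ) = (S.q : ℝ) * k := by exact_mod_cast hk
  unfold Sys.ph Sys.ep cen
  field_simp
  linarith

theorem tri (u v : S.G) (i : S.ι) :
    S.ph c u i - S.ph c v i = S.ep (u - v) i ∨
      S.ph c u i - S.ph c v i = S.ep (u - v) i + 1 ∨
      S.ph c u i - S.ph c v i = S.ep (u - v) i - 1 := by
  obtain ⟨k, hk⟩ := exists_int S c u v i
  have h1 := ph_nonneg S c u i
  have h2 := ph_nonneg S c v i
  have h3 := ph_lt_one S c u i
  have h4 := ph_lt_one S c v i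
  have h5 := abs_le.1 (abs_ep_le S (u - v) i)
  have hk1 : (k : ℝ) < 2 := by linarith [h5.1, h5.2]
  have hk2 : (-2 : ℝ) < k := by linarith [h5.1, h5.2]
  have hk1' : k < 2 := by exact_mod_cast hk1
  have hk2' : -2 < k := by exact_mod_cast hk2
  have : k = 0 ∨ k = 1 ∨ k = -1 := by omega
  rcases this with h | h | h
  · left; rw [hk, h]; simp
  · right; left; rw [hk, h]; simp
  · right; right; rw [hk, h]; push_cast; ring

/-- The number of crossings. -/
noncomputable def nc (u v : S.G) : ℝ := ∑ i, ind (S.ph c u i - S.ph c v i ≠ S.ep (u - v) i)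

theorem cross_abs {u v : S.G} {i : S.ι} (h : S.ph c u i - S.ph c v i ≠ S.ep (u - v) i) :
    1 / 2 ≤ |S.ph c u i - S.ph c v i| := by
  have h5 := abs_le.1 (abs_ep_le S (u - v) i)
  rcases tri S c u v i with h1 | h1 | h1
  · exact absurd h1 h
  · exact le_trans (by linarith [h5.1]) (le_abs_self _)
  · exact le_trans (by linarith [h5.2]) (neg_le_abs _)

theorem nc_le_rho (u v : S.G) : nc S c u v ≤ 4 * S.rho c u v := by
  unfold nc Sys.rho
  rw [Finset.mul_sum]
  refine Finset.sum_le_sum fun i _ => ?_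
  by_cases h : S.ph c u i - S.ph c v i ≠ S.ep (u - v) i
  · rw [ind_true h]
    have h1 := cross_abs S c h
    have h2 := sq_abs (S.ph c u i - S.ph c v i)
    nlinarith
  · rw [ind_false h]
    positivity

theorem rho_nonneg (u v : S.G) : 0 ≤ S.rho c u v :=
  Finset.sum_nonneg fun _ _ => sq_nonneg _

variable {S c}

theorem sq_le_spread {Ne : ℝ} (hS : S.Spread Ne) (γ : S.G) :
    Ne * ∑ i, S.ep γ i ^ 2 ≤ (∑ i, |S.ep γ i|) ^ 2 := by
  rw [Finset.mul_sum, sq (∑ i, |S.ep γ i|), Finset.mul_sum]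
  refine Finset.sum_le_sum fun i _ => ?_
  have h := mul_le_mul_of_nonneg_right (hS γ i) (abs_nonneg (S.ep γ i))
  have h2 : S.ep γ i ^ 2 = |S.ep γ i| * |S.ep γ i| := by rw [← sq, sq_abs]
  rw [h2, ← mul_assoc]
  exact h

theorem ne_big {lm η Ne : ℝ} (hl : 1 ≤ lm) (hη : 0 < η) (hη1 : η ≤ 1 / 100)
    (hN : 32 * lm ^ 3 ≤ η ^ 3 * Ne) : 1000 * lm ^ 2 ≤ Ne ∧ 0 < Ne := by
  have h3 : η ^ 3 ≤ (1 / 100) ^ 3 := pow_le_pow_left₀ hη.le hη1 3
  have hl2 : 1 ≤ lm ^ 2 := one_le_pow₀ hl
  have hl3 : lm ^ 2 ≤ lm ^ 3 := pow_le_pow_right₀ hl (by norm_num)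
  have hpos : 0 < Ne := by
    by_contra hn
    push Not at hn
    have : η ^ 3 * Ne ≤ 0 := mul_nonpos_of_nonneg_of_nonpos (pow_pos hη 3).le hn
    linarith
  refine ⟨?_, hpos⟩
  have : η ^ 3 * Ne ≤ (1 / 100) ^ 3 * Ne := mul_le_mul_of_nonneg_right h3 hpos.le
  linarith

/-- Two vertices in the same cell are very close. -/
theorem same_close {lm η Ne : ℝ} (hO : S.Off c lm η) (hS : S.Spread Ne) (hl : 1 ≤ lm)
    (hη : 0 < η) (hη1 : η ≤ 1 / 100) (hN : 32 * lm ^ 3 ≤ η ^ 3 * Ne) {u v : S.G}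
    (h : S.same c u v) :
    (∀ i, |S.ph c u i - S.ph c v i| ≤ 1 / 100) ∧ S.rho c u v ≤ 1 := by
  obtain ⟨hbig, hpos⟩ := ne_big hl hη hη1 hN
  have heq : ∀ i, S.ph c u i - S.ph c v i = S.ep (u - v) i := fun i => by
    by_contra hne
    have h1 := cross_abs S c hne
    have h2 := h i
    linarith
  have hz : ∑ i, ind (S.ph c u i - S.ph c v i ≠ S.ep (u - v) i) = 0 :=
    Finset.sum_eq_zero fun i _ => ind_false (not_not.2 (heq i))
  have h1 : ∑ i, |S.ep (u - v) i| ≤ 2 * lm := by
    have := hO.cross u v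
    rw [hz] at this
    linarith
  have h0 : 0 ≤ ∑ i, |S.ep (u - v) i| := Finset.sum_nonneg fun _ _ => abs_nonneg _
  have hl2 : lm ≤ lm ^ 2 := by nlinarith
  constructor
  · intro i
    rw [heq i]
    have h2 := hS (u - v) i
    by_contra hn
    push Not at hn
    have := mul_lt_mul_of_pos_left hn hpos
    linarith
  · have h2 := sq_le_spread hS (u - v)
    have h3 : (∑ i, |S.ep (u - v) i|) ^ 2 ≤ (2 * lm) ^ 2 := pow_le_pow_left₀ h0 h1 2
    have h4 : S.rho c u v = ∑ i, S.ep (u - v) i ^ 2 := by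
      unfold Sys.rho
      exact Finset.sum_congr rfl fun i _ => by rw [heq i]
    rw [h4]
    by_contra hn
    push Not at hn
    have := mul_lt_mul_of_pos_left hn hpos
    nlinarith

theorem sep_of_not_same {u v : S.G} (h : ¬ S.same c u v) : 1 / 16 ≤ S.rho c u v := by
  unfold Sys.same at h
  push Not at h
  obtain ⟨i, hi⟩ := h
  have h1 : (S.ph c u i - S.ph c v i) ^ 2 ≤ S.rho c u v :=
    Finset.single_le_sum (f := fun i => (S.ph c u i - S.ph c v i) ^ 2)
      (fun _ _ => sq_nonneg _) (Finset.mem_univ i)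
  have h2 := sq_abs (S.ph c u i - S.ph c v i)
  nlinarith

/-- Vertices in different cells see all other vertices under an almost acute angle. -/
theorem acute_of_not_same {lm η Ne : ℝ} (hO : S.Off c lm η) (hS : S.Spread Ne) (hl : 1 ≤ lm)
    (hη : 0 < η) (hη1 : η ≤ 1 / 100) (hN : 32 * lm ^ 3 ≤ η ^ 3 * Ne) {u v : S.G}
    (h : ¬ S.same c u v) (w : S.G) : -(8 * η * S.rho c u v) ≤ S.ip c u v w := by
  obtain ⟨-, hpos⟩ := ne_big hl hη hη1 hN
  have hr := nc_le_rho S c u v
  have hr0 := rho_nonneg S c u v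
  have hcross : (∑ i, |S.ep (u - v) i|) / 2 - lm ≤ nc S c u v := hO.cross u v
  have h0 : 0 ≤ ∑ i, |S.ep (u - v) i| := Finset.sum_nonneg fun _ _ => abs_nonneg _
  by_cases hA : ∑ i, |S.ep (u - v) i| ≤ η * Ne
  · have hinf : ∀ i, |S.ep (u - v) i| ≤ η := fun i => by
      have h2 := le_trans (hS (u - v) i) hA
      rw [mul_comm η Ne] at h2
      exact le_of_mul_le_mul_left h2 hpos
    have hnc : 1 ≤ nc S c u v := by
      unfold Sys.same at h
      push Not at h
      obtain ⟨i, hi⟩ := h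
      have hne : S.ph c u i - S.ph c v i ≠ S.ep (u - v) i := fun he => by
        rw [he] at hi
        linarith [hinf i]
      have h1 : ind (S.ph c u i - S.ph c v i ≠ S.ep (u - v) i) ≤ nc S c u v :=
        Finset.single_le_sum (f := fun i => ind (S.ph c u i - S.ph c v i ≠ S.ep (u - v) i))
          (fun _ _ => ind_nonneg _) (Finset.mem_univ i)
      rwa [ind_true hne] at h1
    have hsplit : ∑ i, S.ep (u - v) i * (S.ph c w i - S.ph c v i) - η * nc S c u v ≤
        S.ip c u v w := by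
      unfold nc Sys.ip
      rw [Finset.mul_sum, ← Finset.sum_sub_distrib]
      refine Finset.sum_le_sum fun i _ => ?_
      have h1 := ph_nonneg S c u i
      have h2 := ph_nonneg S c w i
      have h3 := ph_lt_one S c u i
      have h4 := ph_lt_one S c w i
      have h5 := abs_le.1 (hinf i)
      by_cases hne : S.ph c u i - S.ph c v i ≠ S.ep (u - v) i
      · rw [ind_true hne]
        rcases tri S c u v i with h6 | h6 | h6
        · exact absurd h6 hne
        · rw [h6]; linarith [h5.1]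
        · rw [h6]; linarith [h5.2]
      · rw [ind_false hne, not_not.1 hne]
        linarith
    have hE1 : ∑ i, |S.ep (u - v) i| ≤ 4 * lm * nc S c u v := by nlinarith
    have hE2 := sq_le_spread hS (u - v)
    have hE3 : (∑ i, |S.ep (u - v) i|) ^ 2 ≤ (4 * lm * nc S c u v) ^ 2 :=
      pow_le_pow_left₀ h0 hE1 2
    have hE4 : 2 * lm * ∑ i, S.ep (u - v) i ^ 2 ≤ (η * nc S c u v) ^ 2 := by
      have hη3 : η ^ 3 ≤ η ^ 2 := pow_le_pow_of_le_one hη.le (by linarith) (by norm_num)
      have a1 : Ne * (2 * lm * ∑ i, S.ep (u - v) i ^ 2) ≤ 2 * lm * (4 * lm * nc S c u v) ^ 2 := by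
        have := mul_le_mul_of_nonneg_left (le_trans hE2 hE3) (by linarith : (0 : ℝ) ≤ 2 * lm)
        linarith
      have a2 : 2 * lm * (4 * lm * nc S c u v) ^ 2 = 32 * lm ^ 3 * nc S c u v ^ 2 := by ring
      have a3 : 32 * lm ^ 3 * nc S c u v ^ 2 ≤ η ^ 2 * Ne * nc S c u v ^ 2 :=
        mul_le_mul_of_nonneg_right
          (le_trans hN (mul_le_mul_of_nonneg_right hη3 hpos.le)) (sq_nonneg _)
      have a4 : Ne * (2 * lm * ∑ i, S.ep (u - v) i ^ 2) ≤ Ne * (η * nc S c u v) ^ 2 := by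
        calc _ ≤ η ^ 2 * Ne * nc S c u v ^ 2 := by linarith
          _ = _ := by ring
      exact le_of_mul_le_mul_left a4 hpos
    have hsq : √(2 * lm * ∑ i, S.ep (u - v) i ^ 2) ≤ η * nc S c u v :=
      Real.sqrt_le_iff.2 ⟨mul_nonneg hη.le (by linarith), hE4⟩
    have hh := hO.hoef u v w
    have hfin := mul_le_mul_of_nonneg_left hr hη.le
    linarith
  · push Not at hA
    have hl3 : lm ≤ lm ^ 3 := by
      simpa using pow_le_pow_right₀ hl (by norm_num : 1 ≤ 3)
    have hη2 : η ^ 2 ≤ 1 := pow_le_one₀ hη.le (by linarith)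
    have hη2' : 0 < η ^ 2 := pow_pos hη 2
    have a1 : η * Ne / 2 - lm ≤ 4 * S.rho c u v := by linarith
    have a2 : η ^ 2 * (η * Ne / 2 - lm) ≤ η ^ 2 * (4 * S.rho c u v) :=
      mul_le_mul_of_nonneg_left a1 hη2'.le
    have a3 : η ^ 2 * lm ≤ lm := by nlinarith
    have a4 : lm ≤ η ^ 2 * S.rho c u v := by nlinarith
    have a5 : 4 * lm / η ≤ 4 * η * S.rho c u v := by
      rw [div_le_iff₀ hη]
      nlinarith
    have a6 := hO.corr u v w
    have a7 := mul_nonneg hη.le hr0
    linarith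

end Geo

theorem geo_proof : GeoStmt := by
  intro S c lm η Ne hO hS hl hη hη1 hN
  have hsymm : ∀ {u v : S.G}, S.same c u v → S.same c v u := fun h i => by
    rw [abs_sub_comm]; exact h i
  have htrans : ∀ {u v w : S.G}, S.same c u v → S.same c v w → S.same c u w :=
    fun {u v w} h1 h2 i => by
      have a1 := abs_le.1 ((Geo.same_close hO hS hl hη hη1 hN h1).1 i)
      have a2 := abs_le.1 ((Geo.same_close hO hS hl hη hη1 hN h2).1 i)
      rw [abs_lt]
      constructor <;> linarith [a1.1, a1.2, a2.1, a2.2]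
  let s : Setoid S.G := ⟨S.same c, fun u i => by simp, hsymm, htrans⟩
  have hr : ∀ u, S.same c (Quotient.mk s u).out u := fun u => Quotient.mk_out (s := s) u
  have hcell : ∀ u v, S.same c u v → (Quotient.mk s u).out = (Quotient.mk s v).out :=
    fun u v h => by rw [Quotient.sound (s := s) h]
  have hns : ∀ u v, (Quotient.mk s u).out ≠ (Quotient.mk s v).out →
      ¬ S.same c (Quotient.mk s u).out (Quotient.mk s v).out := fun u v hne h =>
    hne (hcell u v (htrans (htrans (hsymm (hr u)) h) (hr v)))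
  refine ⟨fun u => (Quotient.mk s u).out, fun u => (Geo.same_close hO hS hl hη hη1 hN (hr u)).1,
    fun u => (Geo.same_close hO hS hl hη hη1 hN (hr u)).2, hcell, fun u v => ?_, fun u v w => ?_⟩
  · by_cases h : (Quotient.mk s u).out = (Quotient.mk s v).out
    · exact Or.inl h
    · exact Or.inr (Geo.sep_of_not_same (hns u v h))
  · by_cases h : (Quotient.mk s u).out = (Quotient.mk s v).out
    · simp only [h, Sys.rho, Sys.ip, sub_self, zero_mul, Finset.sum_const_zero]
      simp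
    · exact Geo.acute_of_not_same hO hS hl hη hη1 hN (hns u v h) _

end Vale.Agent.P318.D
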