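import Vale.Agent.P318.D.Defs

/-!
Track D: the statements of all parts.
-/

namespace Vale.Agent.P318.D

open Finset
open scoped BigOperators
open Vale.Agent.P318.R (ang)

/-! ### Tools -/

/-- Fourier analysis, convolutions and bookkeeping of blocks. -/
structure Basic (S : Sys) : Prop where
  hat_cv : ∀ k f ξ, S.hat (S.cv k f) ξ = S.sy k ξ * S.hat f ξ
  hat_ln : ∀ φ v f ξ, S.hat (S.ln φ v f) ξ =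
    (∑ z, (φ z : ℂ) * ZMod.stdAddChar (z * S.dot v ξ)) * S.hat f ξ
  hat_Dl : ∀ l f ξ, S.hat (S.Dl l f) ξ =
    Complex.I * (((S.q : ℝ) * Real.sin (ang (ξ l)) : ℝ) : ℂ) * S.hat f ξ
  hat_shift : ∀ f w ξ, S.hat (fun β => f (β + w)) ξ = S.ch ξ w * S.hat f ξ
  hat_sub : ∀ f g ξ, S.hat (fun β => f β - g β) ξ = S.hat f ξ - S.hat g ξ
  hat_mul : ∀ (r : ℝ) f ξ, S.hat (fun β => r * f β) ξ = (r : ℂ) * S.hat f ξ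
  hat_sum : ∀ {κ : Type} (s : Finset κ) (f : κ → S.G → ℝ) ξ,
    S.hat (fun β => ∑ j ∈ s, f j β) ξ = ∑ j ∈ s, S.hat (f j) ξ
  hat_zero : ∀ f, S.hat f 0 = ((𝔼 β, f β : ℝ) : ℂ)
  parseval : ∀ f : S.G → ℝ, 𝔼 β, f β ^ 2 = ∑ ξ, S.W f ξ
  var_eq : ∀ f : S.G → ℝ, S.var f = ∑ ξ, S.W f ξ * ind (ξ ≠ 0)
  hat_inj : ∀ f g, (∀ ξ, S.hat f ξ = S.hat g ξ) → f = g
  sy_inj : ∀ k k', (∀ ξ, S.sy k ξ = S.sy k' ξ) → k = k'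
  sum_ch : ∀ ξ, ∑ w, S.ch ξ w = if ξ = 0 then (Fintype.card S.G : ℂ) else 0
  shift : ∀ (f : S.G → ℝ) w, 𝔼 β, f (β + w) = 𝔼 β, f β
  cv_comm : ∀ k k' f, S.cv k (S.cv k' f) = S.cv k' (S.cv k f)
  cv_adj : ∀ k f g, (∀ w, k (-w) = k w) → 𝔼 β, S.cv k f β * g β = 𝔼 β, f β * S.cv k g β
  cv_sub : ∀ k f g β, S.cv k (fun β => f β - g β) β = S.cv k f β - S.cv k g β
  cv_add : ∀ k f g β, S.cv k (fun β => f β + g β) β = S.cv k f β + S.cv k g β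
  cv_mul : ∀ k (r : ℝ) f β, S.cv k (fun β => r * f β) β = r * S.cv k f β
  cv_sum : ∀ {κ : Type} (s : Finset κ) k (f : κ → S.G → ℝ) β,
    S.cv k (fun β => ∑ j ∈ s, f j β) β = ∑ j ∈ s, S.cv k (f j) β
  Dl_cv : ∀ l k f, S.Dl l (S.cv k f) = S.cv k (S.Dl l f)
  ex_cv : ∀ k f, S.Mk k → 𝔼 β, S.cv k f β = 𝔼 β, f β
  ex_abs : ∀ k f, (∀ w, 0 ≤ k w) → ∑ w, k w ≤ 1 → 𝔼 β, |S.cv k f β| ≤ 𝔼 β, |f β|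
  cv_le : ∀ k f (r : ℝ), S.Mk k → (∀ β, f β ≤ r) → ∀ β, S.cv k f β ≤ r
  le_cv : ∀ k f (r : ℝ), S.Mk k → (∀ β, r ≤ f β) → ∀ β, r ≤ S.cv k f β
  abs_cv : ∀ k f (r : ℝ), S.Mk k → (∀ β, |f β| ≤ r) → ∀ β, |S.cv k f β| ≤ r
  cv_cs : ∀ k (θ g : S.G → ℝ), S.Mk k → (∀ β, 0 ≤ θ β) → ∀ β,
    S.cv k (fun β => θ β * g β) β ^ 2 ≤ S.cv k θ β * S.cv k (fun β => θ β * g β ^ 2) β
  cv_sq : ∀ k (g : S.G → ℝ), S.Mk k → ∀ β, S.cv k g β ^ 2 ≤ S.cv k (fun β => g β ^ 2) β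
  y_add : ∀ c i β w, S.y c i (β + w) = S.y c i β + S.dot (S.nG i) w
  y_unif : S.WF → ∀ c i (φ : ZMod S.q → ℝ), 𝔼 β, φ (S.y c i β) = 𝔼 z, φ z
  mem_J : S.WF → ∀ P i b, b ∈ S.Bl P → (i ∈ S.J b ↔ S.pb P i = b)
  pb_mem : S.WF → ∀ P i, S.pb P i ∈ S.Bl P ∧ i ∈ S.J (S.pb P i)
  sum_J : S.WF → ∀ P (g : S.ι → ℝ), ∑ b ∈ S.Bl P, ∑ i ∈ S.J b, g i = ∑ i, g i
  sum_Lb : ∀ P (g : S.Λ → ℝ), ∑ b ∈ S.Bl P, ∑ l ∈ S.Lb b, g l = ∑ l ∈ S.LP P, g l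
  sum_n : S.WF → ∀ l (x : S.ι → ℝ),
    ∑ i, (S.n i l : ℝ) * x i = ∑ i ∈ S.J (S.blk l), (S.n i l : ℝ) * x i
  sum_Eb : S.WF → ∀ (F : Fn S) P, ∑ b ∈ S.Bl P, F.Eb b ≤ F.EP P
  sum_act : ∀ P ξ, ∑ b ∈ S.Bl P, ind (S.act b ξ) ≤ S.M

def BasicStmt : Prop := ∀ S : Sys, Basic S

/-- Closure properties of dual bounds. -/
structure DBL (S : Sys) : Prop where
  mono : ∀ J Y ℓ c ℓ' c', S.DB J Y ℓ c → ℓ ≤ ℓ' → c ≤ c' → S.DB J Y ℓ' c'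
  congr : ∀ J Y Y' ℓ c, S.DB J Y ℓ c → (∀ i ∈ J, Y' i = Y i) → S.DB J Y' ℓ c
  subset : ∀ J J' Y ℓ c, S.DB J Y ℓ c → J' ⊆ J → S.DB J' Y ℓ c
  of_abs : ∀ J Y ℓ, (∀ i ∈ J, ∀ β, |Y i β| ≤ ℓ) → S.DB J Y ℓ 0
  sub : ∀ J Y Y' ℓ c ℓ' c', S.DB J Y ℓ c → S.DB J Y' ℓ' c' →
    S.DB J (fun i β => Y i β - Y' i β) (ℓ + ℓ') (c + c')
  cv : ∀ J Y ℓ c k, S.Mk k → S.DB J Y ℓ c → S.DB J (fun i => S.cv k (Y i)) ℓ c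
  dom : ∀ J Y ℓ c k (k' : S.ι → S.G → ℝ) (κ : ℝ), S.Mk k → 0 ≤ ℓ → 0 ≤ c → 0 ≤ κ →
    (∀ i ∈ J, ∀ w, |k' i w| ≤ κ * k w) → S.DB J Y ℓ c →
    S.DB J (fun i => S.cv (k' i) (Y i)) (κ * ℓ) (κ * c)
  mul : ∀ J Y ℓ c (θ : S.ι → S.G → ℝ) (κ : ℝ), 0 ≤ ℓ → 0 ≤ c → 0 ≤ κ →
    (∀ i ∈ J, ∀ β, |θ i β| ≤ κ) → S.DB J Y ℓ c →
    S.DB J (fun i β => θ i β * Y i β) (κ * ℓ) (κ * c)
  glue : S.WF → ∀ J Y ℓ c P (m : ℝ), 0 ≤ c → ((S.Bl P).card : ℝ) ≤ m →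
    (∀ b ∈ S.Bl P, S.DB (J ∩ S.J b) Y ℓ c) → S.DB J Y ℓ (c * √m)
  glue_univ : S.WF → ∀ Y ℓ c P (m : ℝ), 0 ≤ c → ((S.Bl P).card : ℝ) ≤ m →
    (∀ b ∈ S.Bl P, S.DB (S.J b) Y ℓ c) → S.DB univ Y ℓ (c * √m)
  zk : S.WF → (∀ A, S.Mk (S.eA A)) → ∀ J Y ℓ c (R : Finset S.P) (m : ℝ), R.Nonempty → 0 ≤ c →
    (∀ P ∈ R, ((S.Bl P).card : ℝ) ≤ m) → S.DB J Y ℓ c →
    S.DB J (fun i => S.cv (S.zk R i) (Y i)) ℓ (c * √m)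
  sup : ∀ J Y ℓ c, S.DB J Y ℓ c → ∀ i ∈ J, ∀ β, |Y i β| ≤ ℓ + c
  pair : ∀ J Y ℓ c (g : S.ι → S.G → ℝ), S.DB J Y ℓ c →
    |∑ i ∈ J, 𝔼 β, g i β * Y i β| ≤
      ℓ * ∑ i ∈ J, 𝔼 β, |g i β| + c * 𝔼 β, √(∑ i ∈ J, g i β ^ 2)

def DBStmt : Prop := ∀ S : Sys, DBL S

/-- Consequences of the restricted isometry property. -/
structure RipL (S : Sys) (δ : ℝ) : Prop where
  norm : ∀ b, ∀ i ∈ S.J b, (1 - δ) * S.ν (S.own b) ≤ S.sq b (fun l => S.n i l) ∧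
    S.sq b (fun l => S.n i l) ≤ (1 + δ) * S.ν (S.own b)
  up : ∀ b T x, T ⊆ S.J b → T.card ≤ S.D (S.own b) →
    ∑ i ∈ T, S.dotb i b x ^ 2 ≤ (1 + δ) * S.ν (S.own b) * S.sq b x
  few : ∀ b x (θ : ℝ), 0 ≤ θ → (1 + δ) * S.ν (S.own b) * S.sq b x ≤ S.D (S.own b) * θ ^ 2 →
    ((S.J b).filter fun i => θ < |S.dotb i b x|).card ≤ S.D (S.own b)
  dual : ∀ b x (z : S.ι → ℝ), |∑ i ∈ S.J b, z i * S.dotb i b x| ≤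
    √((1 + δ) * S.ν (S.own b) * S.sq b x) *
      ((∑ i ∈ S.J b, |z i|) / √(S.D (S.own b)) + √(∑ i ∈ S.J b, z i ^ 2))
  low : ∀ b (z : S.ι → ℝ), S.ν (S.own b) * ∑ i ∈ S.J b, z i ^ 2 ≤
    (1 + 3 * δ) * S.sq b (S.comb (S.J b) z) +
      9 / δ * S.ν (S.own b) * (∑ i ∈ S.J b, |z i|) ^ 2 / S.D (S.own b)

def RipStmt : Prop := ∀ (S : Sys) (δ : ℝ), 0 < δ → δ ≤ 1 / 4 → S.WF → S.RIP δ → RipL S δ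

/-- The heat kernel. -/
structure Heat (S : Sys) : Prop where
  mkv : ∀ s b, 0 ≤ s → S.Mk (S.hk s b)
  sy : ∀ s b ξ, S.sy (S.hk s b) ξ = (S.rs s b ξ : ℂ)
  supp : ∀ s b w, S.hk s b w ≠ 0 → ∀ l, S.blk l ≠ b → w l = 0
  semi : ∀ s s' b f, S.cv (S.hk s b) (S.cv (S.hk s' b) f) = S.cv (S.hk (s + s') b) f
  grad : ∀ s b (g : S.G → ℝ), 0 < s → (∀ β, 0 ≤ g β) → (∀ β, g β ≤ 1) → ∀ β,
    S.sq b (fun l => S.Dl l (S.cv (S.hk s b) g) β) ≤ 20 / s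

def HeatStmt : Prop := ∀ S : Sys, Heat S

/-- Block averages and the noise. -/
structure Noise (S : Sys) : Prop where
  mk_eA : ∀ A, S.Mk (S.eA A)
  sy_eA : ∀ A ξ, S.sy (S.eA A) ξ = (ind (∀ b ∈ A, ¬ S.act b ξ) : ℝ)
  idem : ∀ A b f, b ∈ A → S.cv (S.eA A) (S.cv (S.eA {b}) f) = S.cv (S.eA A) f
  eA_Dl : ∀ A l f β, S.blk l ∈ A → S.cv (S.eA A) (S.Dl l f) β = 0
  pA_nonneg : ∀ τ A, S.Rate τ → 0 ≤ S.pA τ A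
  sum_pA : ∀ τ, ∑ A, S.pA τ A = 1
  sum_mem : ∀ τ b, ∑ A, ind (b ∈ A) * S.pA τ A = τ b
  mk_nz : ∀ τ, S.Rate τ → S.Mk (S.nz τ)
  sy_nz : ∀ τ ξ, S.sy (S.nz τ) ξ = (S.mu τ ξ : ℝ)
  mu_mem : ∀ τ ξ, S.Rate τ → 0 ≤ S.mu τ ξ ∧ S.mu τ ξ ≤ 1
  split : ∀ τ i f β, S.cv (S.nz τ) f β = S.cv (S.nzT τ i) f β + S.cv (S.nzN τ i) f β
  nzN_nonneg : ∀ τ i w, S.Rate τ → 0 ≤ S.nzN τ i w
  nzN_sum : ∀ τ i, S.Rate τ → ∑ w, S.nzN τ i w ≤ 1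
  nzN_supp : S.WF → ∀ τ i w, S.nzN τ i w ≠ 0 → S.dot (S.nG i) w = 0
  mk_zk : ∀ R i, R.Nonempty → S.Mk (S.zk R i)
  sy_zk : ∀ R i ξ, R.Nonempty → S.sy (S.zk R i) ξ = ((1 - S.om R i ξ : ℝ) : ℂ)
  om_mem : ∀ R i ξ, 0 ≤ S.om R i ξ ∧ S.om R i ξ ≤ 1

def NoiseStmt : Prop := ∀ S : Sys, Noise S

/-- Elementary trigonometric facts on `ZMod q`. -/
def TrigStmt : Prop :=
  ∀ (q : ℕ) [NeZero q],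
    (∀ x : ZMod q, 2 / 5 * cen x ^ 2 ≤ dt x ^ 2) ∧
    (∀ z : ℤ, dt (z : ZMod q) ^ 2 ≤ (z : ℝ) ^ 2) ∧
    (∀ x : ZMod q, dt x ^ 2 ≤ cen x ^ 2) ∧
    (∀ x : ZMod q, dt (-x) ^ 2 = dt x ^ 2) ∧
    (∀ x : ZMod q, ((q : ℝ) * Real.sin (ang x)) ^ 2 ≤ 4 * Real.pi ^ 2 * dt x ^ 2) ∧
    (∀ x : ZMod q, |(q : ℝ) * Real.sin (ang x) - 2 * Real.pi * cen x| ≤
      42 * |cen x| ^ 3 / (q : ℝ) ^ 2) ∧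
    (∀ (x : ZMod q) (δ : ℝ), δ ≤ 1 → 40 * cen x ^ 2 ≤ δ * (q : ℝ) ^ 2 →
      4 * Real.pi ^ 2 * cen x ^ 2 ≤ (1 + δ) * ((q : ℝ) * Real.sin (ang x)) ^ 2) ∧
    (∀ z : ℤ, 2 * |(z : ℝ)| < q → cen (z : ZMod q) = z) ∧
    (∀ x : ZMod q, 1 - Real.cos (ang x) = 2 * Real.pi ^ 2 * dt x ^ 2 / (q : ℝ) ^ 2)

/-- The tent multiplier has a small Wiener norm. -/
def TentStmt : Prop :=
  (∀ Λ v : ℝ, 0 ≤ Λ → |tent Λ v| ≤ Λ ∧ |v - tent Λ v| ≤ |v| ∧ (|v| ≤ Λ → tent Λ v = v)) ∧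
  ∀ (q : ℕ) [NeZero q], Odd q → ∀ a Λ : ℝ, 0 < a → 0 ≤ Λ →
    (∀ x : ZMod q, ∑ z : ZMod q, (tk a Λ z : ℂ) * ZMod.stdAddChar (z * x) =
      Complex.I * (tent Λ (a * cen x) : ℝ)) ∧
    (4 * Λ / a + 4 ≤ q → ∑ z : ZMod q, |tk a Λ z| ≤ 6 * Λ)

/-- The Fejer kernel. -/
def FejStmt : Prop :=
  ∀ (q : ℕ) [NeZero q] (κ : ℕ), 1 ≤ κ → ∀ z : ZMod q,
    0 ≤ fej κ z ∧ fej κ z ≤ κ ∧ fej κ (-z) = fej κ z ∧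
      |fej κ (z + 1) - fej κ z| ≤ 7 * (κ : ℝ) ^ 2 / q

/-- The near-line kernel of column `i` in the partition `P`. -/
structure PkL (S : Sys) (C a t : ℝ) (P : S.P) (i : S.ι) : Prop where
  pos : 0 < S.nrm (2 * a ^ 4 * t / S.ν P) (kap t) i (S.pb P i)
  kap_le : (kap t : ℝ) ≤ C * a ^ 2 * S.nrm (2 * a ^ 4 * t / S.ν P) (kap t) i (S.pb P i)
  nrm_le : S.nrm (2 * a ^ 4 * t / S.ν P) (kap t) i (S.pb P i) ≤ C * (1 + 1 / (a ^ 2 * √t))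
  mkv : S.Mk (S.pkt a t P i)
  dom : ∀ w, |S.pkt a t P i w| ≤ C * a ^ 2 * S.hk (2 * a ^ 4 * t / S.ν P) (S.pb P i) w
  sy : ∀ ξ, S.sy (S.pkt a t P i) ξ = (S.pis a t P i ξ : ℝ)
  mem : ∀ ξ, 0 ≤ S.pis a t P i ξ ∧ S.pis a t P i ξ ≤ 1
  form : ∀ ξ, S.pis a t P i ξ * S.nrm (2 * a ^ 4 * t / S.ν P) (kap t) i (S.pb P i) =
    ∑ j ∈ Ioo (-(kap t : ℤ)) (kap t), (1 - |(j : ℝ)| / kap t) *
      S.rs (2 * a ^ 4 * t / S.ν P) (S.pb P i) (ξ + (j : ZMod S.q) • S.nv i (S.pb P i))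
  sup : ∃ N1 N2 : ℝ, 0 ≤ N1 ∧ 0 ≤ N2 ∧
    (∀ c β, S.cv (S.hk (t / S.ν P) (S.pb P i)) (fun β => fej (kap t) (S.y c i β)) β ≤ N1) ∧
    (∀ c β, S.cv (S.hk (a ^ 4 * t / S.ν P) (S.pb P i))
      (fun β => fej (kap t) (S.y c i β)) β ≤ N2) ∧
    N1 * N2 ≤ C * a ^ 2 * S.nrm (2 * a ^ 4 * t / S.ν P) (kap t) i (S.pb P i) ^ 2

def PkStmt : Prop :=
  ∃ C : ℝ, 1 ≤ C ∧ ∀ (S : Sys) (δ a t : ℝ) (P : S.P) (i : S.ι), 0 < δ → δ ≤ 1 / 4 → S.WF →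
    S.RIP δ → 1 ≤ a → 0 < t → 100 * S.ν P ≤ S.q * √t → PkL S C a t P i

/-- The near-line kernel sees the frequencies that are almost parallel to the column. -/
def PiStmt : Prop :=
  ∃ c : ℝ, 0 < c ∧ c ≤ 1 ∧ ∀ (S : Sys) (δ a t : ℝ) (P : S.P) (i : S.ι) (ξ : S.G), 0 < δ →
    δ ≤ 1 / 4 → S.WF → S.RIP δ → 1 ≤ a → 0 < t → 100 * S.ν P ≤ S.q * √t →
    t * S.sq (S.pb P i) (S.cv0 ξ) ≤ S.ν P →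
    (1 - 1 / (4 * a ^ 4)) * S.sq (S.pb P i) (fun l => S.n i l) * S.sq (S.pb P i) (S.cv0 ξ) ≤
      S.dotb i (S.pb P i) (S.cv0 ξ) ^ 2 →
    c ≤ S.pis a t P i ξ

/-! ### Pairings in physical space -/

/-- Pairing of the coefficients of a bounded vector field with a test vector. -/
def PairStmt : Prop :=
  ∀ (S : Sys) (δ : ℝ), 0 < δ → δ ≤ 1 / 4 → S.WF → S.RIP δ →
    ∀ (b : S.B) (α Y : S.ι → S.G → ℝ) (V e : S.Λ → S.G → ℝ) (β0 ℓ c s E : ℝ),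
      0 ≤ β0 → 0 ≤ ℓ → 0 ≤ c → 0 < s →
      (∀ l ∈ S.Lb b, ∀ β, √(S.ν (S.own b)) * V l β =
        ∑ i ∈ S.J b, (S.n i l : ℝ) * α i β + e l β) →
      (∀ β, S.sq b (fun l => V l β) ≤ β0 ^ 2) → S.DB (S.J b) Y ℓ c →
      (∑ i ∈ S.J b, 𝔼 β, |α i β|) / √(S.D (S.own b)) + ∑ l ∈ S.Lb b, 𝔼 β, |e l β| ≤ E →
      |∑ i ∈ S.J b, 𝔼 β, α i β * Y i β| ≤
        s / 2 * ((1 + 3 * δ) * ∑ l ∈ S.Lb b, 𝔼 β, V l β ^ 2 + 9 / δ * β0 * E) +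
          (∑ i ∈ S.J b, 𝔼 β, Y i β ^ 2) / (2 * s) + ℓ * ∑ i ∈ S.J b, 𝔼 β, |α i β| +
          9 / δ * c * E

/-- The jumps averaged over a block are flat. -/
def SpStmt : Prop :=
  ∀ (S : Sys) (δ : ℝ), 0 < δ → δ ≤ 1 / 4 → S.WF → S.RIP δ → ∀ (F : Fn S) (b : S.B),
    𝔼 β, √(∑ i ∈ S.J b, S.cv (S.eA {b}) (F.a i) β ^ 2) ≤ 9 / δ * F.Eb b

/-- The part of the test vector that is averaged over a block of the column. -/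
def ZStmt : Prop :=
  ∀ (S : Sys) (δ : ℝ), 0 < δ → δ ≤ 1 / 4 → S.WF → S.RIP δ →
    ∀ (F : Fn S) (R : Finset S.P) (Y : S.ι → S.G → ℝ) (m E ℓ c : ℝ), Fam F R m E → 0 ≤ ℓ → 0 ≤ c →
      S.DB univ Y ℓ c →
      |∑ i, 𝔼 β, F.a i β * S.cv (S.zk R i) (Y i) β| ≤ ℓ * F.I + 9 / δ * c * E

/-- The part of the noise that touches the pattern. -/
def TouchStmt : Prop :=
  ∀ (S : Sys) (δ : ℝ), 0 < δ → δ ≤ 1 / 4 → S.WF → S.RIP δ →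
    ∀ (F : Fn S) (τ : S.B → ℝ) (Y : S.ι → S.G → ℝ) (ℓ c : ℝ), S.Rate τ → 0 ≤ ℓ → 0 ≤ c →
      S.DB univ Y ℓ c →
      |∑ i, 𝔼 β, S.cv (S.nzT τ i) (F.a i) β * Y i β| ≤
        ℓ * F.I + 9 / δ * c * ∑ b, τ b * F.Eb b

/-- The standing hypotheses for one shell and one test partition. -/
structure Hyp (S : Sys) (F : Fn S) (δ : ℝ) (τ : S.B → ℝ) (t p : ℝ) (P : S.P) (R : Finset S.P)
    (m m' E' : ℝ) : Prop where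
  δ_pos : 0 < δ
  δ_le : δ ≤ 1 / 4
  wf : S.WF
  rip : S.RIP δ
  ok : F.OK
  rate : S.Rate τ
  t_pos : 0 < t
  one_le_p : 1 ≤ p
  p_le : p ≤ S.D P
  fine : 100 * S.ν P ≤ S.q * √t
  one_le_m : 1 ≤ m
  blocks : ((S.Bl P).card : ℝ) ≤ m
  fam : Fam F R m' E'

/-- The gradient identity and the bound of the gradient, at any time. -/
def VStmt : Prop :=
  ∀ (S : Sys) (F : Fn S) (τ : S.B → ℝ) (t : ℝ) (P : S.P), S.WF → F.OK → S.Rate τ → 0 < t →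
    (∀ b β, S.sq b (fun l => F.V τ t l β) ≤ 20 / t) ∧
    (∀ b ∈ S.Bl P, ∀ l ∈ S.Lb b, ∀ β, √(S.ν (S.own b)) * F.V τ t l β =
      ∑ i ∈ S.J b, (S.n i l : ℝ) * F.al τ t P i β +
        S.cv (S.hk (t / S.ν P) b) (S.cv (S.nz τ) (F.er l)) β) ∧
    (∀ i, 𝔼 β, |F.al τ t P i β| ≤ 𝔼 β, |F.a i β|) ∧
    (∀ b ∈ S.Bl P, (∑ i ∈ S.J b, 𝔼 β, |F.al τ t P i β|) / √(S.D (S.own b)) +
      ∑ l ∈ S.Lb b, 𝔼 β, |S.cv (S.hk (t / S.ν P) b) (S.cv (S.nz τ) (F.er l)) β| ≤ F.Eb b) ∧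
    |F.Bt τ t P - ∑ i, 𝔼 β, F.al τ t P i β * F.U τ t P i β| ≤ c0 t * F.Ee

/-- Bounds for the test vectors. -/
def XStmt : Prop :=
  ∀ (S : Sys) (F : Fn S) (δ : ℝ) (τ : S.B → ℝ) (t p : ℝ) (P : S.P) (R : Finset S.P)
    (m m' E' : ℝ), Hyp S F δ τ t p P R m m' E' →
    (∀ i β, |F.U τ t P i β| ≤ c0 t) ∧
    (∀ i β, |F.UL τ t p P i β| ≤ l0 t p (S.D P)) ∧
    (∀ b ∈ S.Bl P, S.DB (S.J b) (F.UH τ t p P) (l0 t p (S.D P)) (c0 t)) ∧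
    (∀ b ∈ S.Bl P, S.DB (S.J b) (F.X τ t p P R) (2 * l0 t p (S.D P)) (2 * c0 t * √m'))

/-- The general test inequality. -/
def GenStmt : Prop :=
  ∃ C : ℝ, 1 ≤ C ∧ ∀ (S : Sys) (F : Fn S) (δ : ℝ) (τ : S.B → ℝ) (t p : ℝ) (P : S.P)
    (R : Finset S.P) (m m' E' : ℝ), Hyp S F δ τ t p P R m m' E' →
    ∀ (Y : S.ι → S.G → ℝ) (ℓ c : ℝ), 0 ≤ ℓ → 0 ≤ c → (∀ b ∈ S.Bl P, S.DB (S.J b) Y ℓ c) →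
      F.Bt τ t P ≤ (1 + 3 * δ) * nsq Y +
        2 * |∑ i, 𝔼 β, F.al τ t P i β * (F.X τ t p P R i β - Y i β)| +
        2 * ℓ * F.I + 18 / δ * c * F.EP P + C / (δ * √t) * F.Er p P m m' E'

/-- The first test inequality, and the trivial bound. -/
def Core0Stmt : Prop :=
  ∃ C : ℝ, 1 ≤ C ∧ ∀ (S : Sys) (F : Fn S) (δ : ℝ) (τ : S.B → ℝ) (t p : ℝ) (P : S.P)
    (R : Finset S.P) (m m' E' : ℝ), Hyp S F δ τ t p P R m m' E' →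
      t * F.Bt τ t P ≤ (1 + 3 * δ) * (t * nsq (F.X τ t p P R)) + C * √t / δ * F.Er p P m m' E' ∧
      t * F.Bt τ t P ≤ C * √t * (F.I + F.Ee)

/-- The near-line part of the pairing is small. -/
def NearStmt : Prop :=
  ∃ C : ℝ, 1 ≤ C ∧ ∀ (S : Sys) (F : Fn S) (δ : ℝ) (τ : S.B → ℝ) (t p : ℝ) (P : S.P)
    (R : Finset S.P) (m m' E' a : ℝ), Hyp S F δ τ t p P R m m' E' → 1 ≤ a →
      |∑ i, 𝔼 β, F.al τ t P i β * S.cv (S.pkt a t P i) (F.X τ t p P R i) β| ≤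
        C / a * (a ^ 4 * F.Bt τ (a ^ 4 * t) P + nsq (F.X τ t p P R)) +
          C * a ^ 3 / (δ * √t) * (F.Er p P m m' E' + √m * √m' * ∑ b, τ b * F.Eb b +
            √m' * kap t * F.I / S.q)

/-- The second test inequality. -/
def Core1Stmt : Prop :=
  ∃ C : ℝ, 1 ≤ C ∧ ∀ (S : Sys) (F : Fn S) (δ : ℝ) (τ : S.B → ℝ) (t p : ℝ) (P : S.P)
    (R : Finset S.P) (m m' E' a : ℝ), Hyp S F δ τ t p P R m m' E' → 1 ≤ a →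
      t * F.Bt τ t P ≤ (1 + 3 * δ) * (t * nsq (F.X1 a τ t p P R)) +
        C / a * (a ^ 4 * t * F.Bt τ (a ^ 4 * t) P + t * nsq (F.X τ t p P R)) +
          C * a ^ 3 * √t / δ * (F.Er p P m m' E' + √m * √m' * ∑ b, τ b * F.Eb b +
            √m' * kap t * F.I / S.q)

/-! ### The Fourier side -/

/-- The energies in terms of the spectral weights. -/
def SymStmt : Prop :=
  ∀ (S : Sys) (F : Fn S) (τ : S.B → ℝ) (t p : ℝ) (P : S.P), S.WF → 0 < t → 0 ≤ p →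
    t * F.Bt τ t P = ∑ ξ, F.Wm τ ξ * ∑ b ∈ S.Bl P, S.xw t b ξ ∧
    ∀ R : Finset S.P, R.Nonempty →
      t * nsq (F.X τ t p P R) =
        ∑ ξ, F.Wm τ ξ * ∑ b ∈ S.Bl P, ∑ i ∈ S.J b, S.om R i ξ ^ 2 * S.hw t p i b ξ ∧
      ∀ a : ℝ, (∀ i ξ, S.sy (S.pkt a t P i) ξ = (S.pis a t P i ξ : ℝ)) →
        t * nsq (F.X1 a τ t p P R) = ∑ ξ, F.Wm τ ξ * ∑ b ∈ S.Bl P, ∑ i ∈ S.J b,
          ((1 - S.pis a t P i ξ) * S.om R i ξ) ^ 2 * S.hw t p i b ξ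

/-- Pointwise bounds of the symbols. -/
def PtStmt : Prop :=
  ∃ C : ℝ, 1 ≤ C ∧ ∀ (S : Sys) (δ T p Ξ : ℝ) (Sh : ℕ) (t : ℝ) (b : S.B) (ξ : S.G), 0 < δ →
    δ ≤ 1 / 4 → S.WF → S.RIP δ → S.Num δ T p Ξ Sh → 0 < t →
    (∀ i ∈ S.J b, S.hw t p i b ξ ≤ C) ∧
    (S.low Ξ ξ → ∀ (w : S.ι → ℝ) (ψ : ℝ), (∀ i, 0 ≤ w i ∧ w i ≤ 1) → 0 ≤ ψ →
      (∀ A : Finset S.ι, A ⊆ S.J b → A.card ≤ S.D (S.own b) →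
        ∑ i ∈ A, w i ^ 2 * S.dotb i b (S.cv0 ξ) ^ 2 ≤
          ψ * ((1 + δ) * S.ν (S.own b) * S.sq b (S.cv0 ξ))) →
      ∑ i ∈ S.J b, w i ^ 2 * S.hw t p i b ξ ≤ (1 + δ) ^ 3 * ψ * S.xw t b ξ +
        C / δ * (S.J b).card * (Real.exp (-p) + t * S.M ^ 2 * Ξ ^ 6 / (S.q : ℝ) ^ 4))

/-- Sums over the shells. -/
def ShellStmt : Prop :=
  ∃ C : ℝ, 1 ≤ C ∧ ∀ (S : Sys) (b : S.B) (ξ : S.G), S.WF →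
    (∀ t : ℝ, 0 ≤ t → 0 ≤ S.xw t b ξ) ∧
    (∀ (T : ℝ) (k : ℕ), 0 < T → ∑ j ∈ range k, S.xw (T / 4 ^ j) b ξ ≤ C * ind (S.act b ξ)) ∧
    (∀ (δ T p Ξ : ℝ) (Sh : ℕ), δ ≤ 1 / 4 → S.Num δ T p Ξ Sh → S.low Ξ ξ →
      S.ν (S.own b) ≤ T * S.sq b (S.cv0 ξ) →
      ∃ j ≤ Sh, T / 4 ^ j * S.sq b (S.cv0 ξ) ≤ S.ν (S.own b) ∧ 1 / 2 ≤ S.xw (T / 4 ^ j) b ξ)

/-- Consequences of the expansion. -/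
def ExpStmt : Prop :=
  ∀ (S : Sys) (R : Finset S.P) (s η ε : ℝ) (ξ : S.G), S.WF → R.Nonempty → S.EXP R s η → 0 < ε →
    0 ≤ η → η ≤ ε / 2 → 2 * S.cnt R ξ / ε + 1 ≤ s →
    ((S.Om R ε ξ).card : ℝ) ≤ 2 * S.cnt R ξ / ε ∧
    ∑ P ∈ R, ∑ b ∈ S.Bl P, ind (2 ≤ (S.Om R ε ξ ∩ S.J b).card) ≤
      η * R.card * (S.Om R ε ξ).card ∧
    ∀ P, ∑ b ∈ S.Bl P, ind (S.Om R ε ξ ∩ S.J b).Nonempty ≤ (S.Om R ε ξ).card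

/-- The standing hypotheses for the sums over all shells. -/
structure Hyp2 (S : Sys) (F : Fn S) (δ : ℝ) (τ : S.B → ℝ) (T p Ξ : ℝ) (Sh : ℕ) : Prop where
  wf : S.WF
  rip : S.RIP δ
  ok : F.OK
  rate : S.Rate τ
  num : S.Num δ T p Ξ Sh
  minD : ∀ ξ, S.W F.f ξ ≠ 0 → S.MinD T ξ

/-- Activity in the family `R'` is controlled by the activity in the family `R`. -/
def CrossStmt : Prop :=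
  ∀ δ ε : ℝ, 0 < δ → δ ≤ 1 / 1000 → 0 < ε → ε ≤ 1 / 10 → ∃ C : ℝ, 1 ≤ C ∧
    ∀ (S : Sys) (F : Fn S) (τ : S.B → ℝ) (T p Ξ : ℝ) (Sh : ℕ) (R' R : Finset S.P)
      (m E m' E' s hi : ℝ), Hyp2 S F δ τ T p Ξ Sh → Fam F R' m E → Fam F R m' E' →
      S.EXP R s (ε / 4) → 2 * hi / ε + 1 ≤ s →
      ∑ ξ, F.Wm τ ξ * S.cnt R' ξ ≤
        C * (∑ ξ, F.Wm τ ξ * S.cnt R' ξ * ind (hi < S.cnt R ξ) + ∑ ξ, F.Wm τ ξ * S.cnt R ξ) +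
          C * (√T * (√p * E + √m * E' + √m' * E) + F.Ty T p Ξ Sh)

/-- The trivial bound for the activity. -/
def TopStmt : Prop :=
  ∃ C : ℝ, 1 ≤ C ∧ ∀ (S : Sys) (F : Fn S) (δ T p Ξ : ℝ) (Sh : ℕ) (R : Finset S.P) (m E : ℝ),
    0 < δ → δ ≤ 1 / 4 → Hyp2 S F δ (fun _ => 0) T p Ξ Sh → Fam F R m E →
      ∑ ξ, S.W F.f ξ * S.cnt R ξ ≤ C * (√T * (F.I + F.Ee) + F.Ty T p Ξ Sh)

/-- Low activity in one family is negligible. -/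
def MainStmt : Prop :=
  ∃ δ ε C : ℝ, 0 < δ ∧ δ ≤ 1 / 1000 ∧ 0 < ε ∧ ε ≤ 1 / 10 ∧ 1 ≤ C ∧
    ∀ (S : Sys) (F : Fn S) (τ : S.B → ℝ) (T p Ξ : ℝ) (Sh : ℕ) (R : Finset S.P) (m E s hi : ℝ),
      Hyp2 S F δ τ T p Ξ Sh → Fam F R m E → S.EXP R s (ε / 4) → 2 * hi / ε + 1 ≤ s →
      ∑ ξ, F.Wm τ ξ * S.cnt R ξ ≤ 2 * ∑ ξ, F.Wm τ ξ * S.cnt R ξ * ind (hi < S.cnt R ξ) +
        C * (√T * (√p * E + √m * E + m * ∑ b, τ b * F.Eb b) + √m * F.Ty T p Ξ Sh)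

/-- The weighted sum of the activities above the level `k`. -/
noncomputable def Fk {Ω : Type} (L : ℕ) (ν : ℕ → Ω → ℝ) (k : ℕ) (ω : Ω) : ℝ :=
  ∑ j ∈ Icc k L, 2 ^ (j - k) * ν j ω

/-- The argument over the levels. -/
def LevelStmt : Prop :=
  ∀ C1 C2 : ℝ, 1 ≤ C1 → 1 ≤ C2 → ∃ A C : ℝ, 1 ≤ A ∧ 1 ≤ C ∧
    ∀ (L : ℕ) (Ω : Type) [Fintype Ω] (W : Ω → ℝ) (ν μ : ℕ → Ω → ℝ) (err : ℕ → ℕ → ℝ) (top : ℝ),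
      (∀ ω, 0 ≤ W ω) → (∀ j ω, 0 ≤ ν j ω) → (∀ j ω, j ≤ L → ν j ω ≤ C2 * A) →
      (∀ j k, 0 ≤ err j k) →
      (∀ k ω, 1 ≤ k → k ≤ L → Real.exp (-(4 * Fk L ν k ω)) ≤ μ k ω ∧
        μ k ω ≤ Real.exp (-(2 * Fk L ν k ω))) →
      (∀ k, 1 ≤ k → k ≤ L → ∑ ω, W ω * μ k ω * ν k ω ≤
        2 * ∑ ω, W ω * μ k ω * ν k ω * ind (A < ν k ω) + err k k) →
      (∀ k j, 1 ≤ k → k ≤ L → j ≤ L → k ≤ j + 1 → j ≠ k → ∑ ω, W ω * μ k ω * ν j ω ≤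
        C1 * (∑ ω, W ω * μ k ω * ν j ω * ind (A < ν k ω) +
          16 ^ k / 16 ^ j * ∑ ω, W ω * μ k ω * ν k ω) + err j k) →
      ∑ ω, W ω * ν L ω ≤ top →
      ∑ ω, W ω * ind (1 < Fk L ν 0 ω) ≤
        C * (top + ∑ k ∈ Icc 1 L, ∑ j ∈ Icc (k - 1) L, 2 ^ (j + 1 - k) * err j k)

/-- The isoperimetric inequality. -/
def IsoStmt : Prop :=
  ∃ δ η A C : ℝ, 0 < δ ∧ δ ≤ 1 / 4 ∧ 0 < η ∧ η ≤ 1 ∧ 1 ≤ A ∧ 1 ≤ C ∧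
    ∀ (S : Sys) (F : Fn S) (lev : S.P → ℕ) (P0 : S.P) (L d : ℕ) (lg T p Ξ : ℝ) (Sh : ℕ),
      S.WF → S.RIP δ → F.OK → S.Num δ T p Ξ Sh → 1 ≤ L → 1 ≤ lg →
      S.Grad lev P0 L d (21 * A / η) lg →
      (∀ k, 1 ≤ k → k ≤ L → S.EXP (S.lv lev k) (A * 16 ^ k) η) →
      S.Code P0 T (d * 256 ^ L) → (∀ ξ, S.W F.f ξ ≠ 0 → S.Lam ξ) →
      S.var F.f ≤ C * (√T * (L + √p) * (√lg * F.I / 16 ^ L + F.Ee) + F.Ty T p Ξ Sh)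

/-! ### Model and geometry -/

/-- The gradient identity, the high frequencies and the support of the spectrum. -/
def ModelStmt : Prop :=
  ∀ (S : Sys) (c : S.ι → ZMod S.q) (v : S.ι → S.G) (f : S.G → ℝ), S.WF → S.Step v → S.Cell c f →
    (jump S c v f).OK ∧ (jump S c v f).Ee ≤ S.M * S.q * S.N * S.dn c ∧
    (∀ Ξ : ℝ, 0 < Ξ → (jump S c v f).HM Ξ ≤ S.M * S.N * S.q / Ξ ^ 2) ∧
    ∀ ξ, S.W f ξ ≠ 0 → S.Lam ξ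

/-- Existence of typical offsets. -/
def OffStmt : Prop :=
  ∀ (S : Sys) (lm η : ℝ), S.WF → 0 < η → η ≤ 1 → 3 * S.M * Real.log S.q + 3 ≤ lm →
    ∃ c, S.Off c lm η

/-- The cells are small and see each other at almost acute angles. -/
def GeoStmt : Prop :=
  ∀ (S : Sys) (c : S.ι → ZMod S.q) (lm η Ne : ℝ), S.Off c lm η → S.Spread Ne → 1 ≤ lm → 0 < η →
    η ≤ 1 / 100 → 32 * lm ^ 3 ≤ η ^ 3 * Ne → ∃ r, S.Rep c (8 * η) r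

/-- Repair of the triangle inequality. -/
def MetricStmt : Prop :=
  ∀ (X ι : Type) [Fintype X] [Fintype ι] (u : X → ι → ℝ) (η : ℝ) (K : ℕ), 0 ≤ η →
    27 * η * (K + 1) ≤ 1 →
    (∀ x y, ∑ i, (u x i - u y i) ^ 2 = 0 ∨ 1 / 16 ≤ ∑ i, (u x i - u y i) ^ 2) →
    (∀ x y, ∑ i, (u x i - u y i) ^ 2 ≤ 2 ^ K / 16) →
    (∀ x y z, -(η * ∑ i, (u x i - u y i) ^ 2) ≤ ∑ i, (u x i - u y i) * (u z i - u y i)) →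
    ∃ d : X → X → ℝ, NegKer d ∧ (∀ x y z, d x z ≤ d x y + d y z) ∧
      ∀ x y, ∑ i, (u x i - u y i) ^ 2 ≤ d x y ∧ d x y ≤ 2 * ∑ i, (u x i - u y i) ^ 2

/-- From the isoperimetric inequality and the metric to the gap. -/
def GapStmt : Prop :=
  ∃ c0 : ℝ, 0 < c0 ∧ ∀ (S : Sys) (c : S.ι → ZMod S.q) (v : S.ι → S.G) (r : S.G → S.G)
    (d : S.G → S.G → ℝ) (η κ : ℝ), S.WF → S.Step v → S.Rep c η r → 1 ≤ S.N → S.N ^ 3 ≤ S.q →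
    S.dn c ≤ 16 * S.N ^ 2 / (S.q : ℝ) ^ 2 → NegKer d → (∀ x y z, d x z ≤ d x y + d y z) →
    (∀ x y, S.rho c (r x) (r y) ≤ d x y ∧ d x y ≤ 2 * S.rho c (r x) (r y)) → 0 < κ →
    (∀ f, S.Cell c f → S.var f ≤ κ * (jump S c v f).I + 1 / 300) →
    ∀ n : ℕ, 2 * Fintype.card S.G ≤ n → c0 / κ ≤ gap n

/-- Existence of the systems. -/
def SysStmt : Prop :=
  ∀ δ η A : ℝ, 0 < δ → δ ≤ 1 / 4 → 0 < η → η ≤ 1 → 1 ≤ A → ∃ (C : ℝ) (L0 : ℕ), 1 ≤ C ∧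
    ∀ L : ℕ, L0 ≤ L → ∃ (S : Sys) (lev : S.P → ℕ) (P0 : S.P) (d : ℕ),
      S.WF ∧ S.RIP δ ∧ S.Grad lev P0 L d (21 * A / η) (C * L) ∧
      (∀ k, 1 ≤ k → k ≤ L → S.EXP (S.lv lev k) (A * 16 ^ k) η) ∧
      S.Code P0 5000 (d * 256 ^ L) ∧ S.Spread (16 ^ (8 * L)) ∧ S.N = 16 ^ (16 * L) ∧
      S.M ≤ C * L ^ 2 * 256 ^ L ∧ (∀ P, S.ν P ≤ C * L ^ 2 * 256 ^ L) ∧
      (16 : ℝ) ^ (150 * L) ≤ S.q ∧ (S.q : ℝ) ≤ 2 * 16 ^ (150 * L)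

/-- The instances. -/
def InstStmt : Prop :=
  ∃ c C : ℝ, 0 < c ∧ 0 < C ∧ ∃ L0 : ℕ, ∀ L : ℕ, L0 ≤ L → ∀ n : ℕ,
    Real.exp (C * L ^ 3 * 256 ^ L) ≤ n → c * 16 ^ L / (L * √L) ≤ gap n

/-- The result. -/
def FinalStmt : Prop :=
  ∃ c : ℝ, 0 < c ∧ ∃ n0 : ℕ, ∀ n : ℕ, n0 ≤ n →
    c * √(Real.log n) / Real.log (Real.log n) ^ 3 ≤ gap n

end Vale.Agent.P318.D
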