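import Mathlib.Analysis.Real.Pi.Bounds
import Vale.Agent.P318.D.Stmt

/-!
Track D: the heat kernel of a block.
-/

namespace Vale.Agent.P318.D

open Finset
open scoped BigOperators
open Vale.Agent.P318.R (ang)

namespace HeatP

variable (S : Sys)

lemma ch_add (ξ w v : S.G) : S.ch ξ (w + v) = S.ch ξ w * S.ch ξ v := by
  simp only [Sys.ch, Sys.dot, Pi.add_apply, mul_add, sum_add_distrib, AddChar.map_add_eq_mul]

lemma ch_comm (ξ w : S.G) : S.ch ξ w = S.ch w ξ := by
  simp only [Sys.ch, Sys.dot, mul_comm]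

lemma ch_neg (ξ w : S.G) : S.ch ξ (-w) = (starRingEnd ℂ) (S.ch ξ w) := by
  simp only [Sys.ch, Sys.dot, Pi.neg_apply, mul_neg, sum_neg_distrib]
  rw [R.stdAddChar_eq (∑ l, ξ l * w l), AddChar.map_neg_eq_inv, R.stdAddChar_eq, ← Complex.exp_neg,
    ← Complex.exp_conj]
  simp

lemma ch_single (ξ : S.G) (l : S.Λ) :
    (S.ch ξ (Pi.single l 1)).re = Real.cos (ang (ξ l)) := by
  rw [R.cos_ang, Sys.ch, Sys.dot, sum_eq_single l]
  · simp
  · intro b _ hb
    simp [Pi.single_eq_of_ne hb]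
  · simp

lemma re_step (ξ w : S.G) (l : S.Λ) :
    (S.ch ξ (w + Pi.single l 1)).re + (S.ch ξ (w - Pi.single l 1)).re =
      2 * Real.cos (ang (ξ l)) * (S.ch ξ w).re := by
  rw [sub_eq_add_neg, ch_add, ch_add, ch_neg, ← ch_single]
  simp only [Complex.mul_re, Complex.conj_re, Complex.conj_im]
  ring

/-- The constant `q ^ 2 / (2 π ^ 2)`. -/
noncomputable def cq : ℝ := (S.q : ℝ) ^ 2 / (2 * Real.pi ^ 2)

lemma q_pos : (0 : ℝ) < S.q := by exact_mod_cast (Fact.out : S.q.Prime).pos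

lemma cq_pos : 0 < cq S := by
  have := q_pos S
  have := Real.pi_pos
  unfold cq
  positivity

variable {S}

lemma dt_sq (hT : TrigStmt) (x : ZMod S.q) : dt x ^ 2 = cq S * (1 - Real.cos (ang x)) := by
  have h := (hT S.q).2.2.2.2.2.2.2.2 x
  have := q_pos S
  have := Real.pi_pos
  rw [h, cq]
  field_simp

/-- The sum of the cosines in a block. -/
noncomputable def cs (b : S.B) (ξ : S.G) : ℝ := ∑ l ∈ S.Lb b, Real.cos (ang (ξ l))

/-- The kernels of the powers of the adjacency operator. -/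
noncomputable def wk (b : S.B) (n : ℕ) (w : S.G) : ℝ := 𝔼 ξ, cs b ξ ^ n * (S.ch ξ w).re

lemma wk_zero (hB : Basic S) (b : S.B) (w : S.G) : wk b 0 w = if w = 0 then 1 else 0 := by
  simp only [wk, pow_zero, one_mul]
  rw [Fintype.expect_eq_sum_div_card, ← Complex.re_sum]
  simp only [ch_comm S _ w]
  rw [hB.sum_ch]
  have : (Fintype.card S.G : ℝ) ≠ 0 := by exact_mod_cast Fintype.card_ne_zero
  split_ifs
  · rw [Complex.natCast_re, div_self this]
  · simp

lemma wk_succ (b : S.B) (n : ℕ) (w : S.G) : wk b (n + 1) w =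
    ∑ l ∈ S.Lb b, (wk b n (w + Pi.single l 1) + wk b n (w - Pi.single l 1)) / 2 := by
  simp only [wk, Fintype.expect_eq_sum_div_card, ← add_div, ← sum_add_distrib, ← mul_add, re_step,
    div_div, ← sum_div]
  rw [sum_comm, div_eq_div_iff (by positivity) (by positivity), sum_mul, sum_mul]
  refine sum_congr rfl fun ξ _ => ?_
  rw [← mul_sum, ← sum_mul, ← mul_sum, pow_succ, cs]
  ring

lemma wk_nonneg (hB : Basic S) (b : S.B) (n : ℕ) : ∀ w, 0 ≤ wk b n w := by
  induction n with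
  | zero => intro w; rw [wk_zero hB]; split_ifs <;> norm_num
  | succ n ih =>
    intro w
    rw [wk_succ]
    exact sum_nonneg fun l _ => div_nonneg (add_nonneg (ih _) (ih _)) (by norm_num)

lemma wk_supp (hB : Basic S) (b : S.B) {l : S.Λ} (hl : S.blk l ≠ b) (n : ℕ) :
    ∀ w : S.G, w l ≠ 0 → wk b n w = 0 := by
  induction n with
  | zero =>
    intro w hw
    rw [wk_zero hB, if_neg]
    rintro rfl
    exact hw rfl
  | succ n ih =>
    intro w hw
    rw [wk_succ]
    refine sum_eq_zero fun l' hl' => ?_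
    have hne : l ≠ l' := by
      rintro rfl
      exact hl (by simpa [Sys.Lb] using hl')
    rw [ih, ih] <;> simp [Pi.single_eq_of_ne hne, hw]

lemma rs_eq (hT : TrigStmt) (s : ℝ) (b : S.B) (ξ : S.G) : S.rs s b ξ =
    Real.exp (-(s * cq S * (S.Lb b).card)) * Real.exp (s * cq S * cs b ξ) := by
  rw [Sys.rs, ← Real.exp_add]
  congr 1
  simp only [dt_sq hT, ← mul_sum, sum_sub_distrib, sum_const, nsmul_eq_mul, cs]
  ring

lemma hasSum_hk (hT : TrigStmt) (s : ℝ) (b : S.B) (w : S.G) :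
    HasSum (fun n : ℕ => Real.exp (-(s * cq S * (S.Lb b).card)) *
      ((s * cq S) ^ n / n.factorial * wk b n w)) (S.hk s b w) := by
  have h : ∀ ξ ∈ (univ : Finset S.G), HasSum (fun n : ℕ =>
      Real.exp (-(s * cq S * (S.Lb b).card)) * ((s * cq S * cs b ξ) ^ n / n.factorial) *
        (S.ch ξ w).re) (S.rs s b ξ * (S.ch ξ w).re) := by
    intro ξ _
    rw [rs_eq hT]
    refine HasSum.mul_right _ (HasSum.mul_left _ ?_)
    rw [Real.exp_eq_exp_ℝ]
    exact NormedSpace.expSeries_div_hasSum_exp _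
  have h2 := (hasSum_sum h).div_const (Fintype.card S.G : ℝ)
  rw [Sys.hk, Fintype.expect_eq_sum_div_card]
  refine (congrArg (fun f => HasSum f _) (funext fun n => ?_)).mpr h2
  rw [wk, Fintype.expect_eq_sum_div_card, ← mul_div_assoc, ← mul_div_assoc, mul_sum, mul_sum]
  congr 1
  refine sum_congr rfl fun ξ _ => ?_
  rw [mul_pow (s * cq S)]
  ring

lemma hk_nonneg (hB : Basic S) (hT : TrigStmt) {s : ℝ} (hs : 0 ≤ s) (b : S.B) (w : S.G) :
    0 ≤ S.hk s b w := by
  have := cq_pos S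
  refine (hasSum_hk hT s b w).nonneg fun n => ?_
  have := wk_nonneg hB b n w
  positivity

lemma hk_supp (hB : Basic S) (hT : TrigStmt) (s : ℝ) (b : S.B) (w : S.G) (h : S.hk s b w ≠ 0)
    (l : S.Λ) (hl : S.blk l ≠ b) : w l = 0 := by
  by_contra hw
  have h1 := hasSum_hk hT s b w
  simp only [wk_supp hB b hl _ w hw, mul_zero] at h1
  exact h (h1.unique hasSum_zero)

lemma rs_neg (hT : TrigStmt) (s : ℝ) (b : S.B) (ξ : S.G) : S.rs s b (-ξ) = S.rs s b ξ := by
  simp only [Sys.rs, Pi.neg_apply, (hT S.q).2.2.2.1]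

lemma sy_hk (hB : Basic S) (hT : TrigStmt) (s : ℝ) (b : S.B) (ξ : S.G) :
    S.sy (S.hk s b) ξ = (S.rs s b ξ : ℂ) := by
  have hc : (Fintype.card S.G : ℂ) ≠ 0 := by exact_mod_cast Fintype.card_ne_zero
  have e : ∀ η w : S.G, (((S.ch η w).re : ℝ) : ℂ) * S.ch ξ w =
      (S.ch (η + ξ) w + S.ch (ξ - η) w) / 2 := by
    intro η w
    rw [Complex.re_eq_add_conj, ch_comm S (η + ξ), ch_comm S (ξ - η), sub_eq_add_neg, ch_add,
      ch_add, ch_neg, ch_comm S w η, ch_comm S w ξ]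
    ring
  have e2 : ∀ w : S.G, ((S.hk s b w : ℝ) : ℂ) * S.ch ξ w =
      ∑ η, (S.rs s b η : ℂ) / Fintype.card S.G * ((S.ch (η + ξ) w + S.ch (ξ - η) w) / 2) := by
    intro w
    rw [Sys.hk, Fintype.expect_eq_sum_div_card]
    push_cast
    rw [sum_div, sum_mul]
    refine sum_congr rfl fun η _ => ?_
    rw [← e]
    ring
  simp only [Sys.sy, e2]
  rw [sum_comm]
  simp only [← mul_sum, ← sum_div, sum_add_distrib, hB.sum_ch, add_eq_zero_iff_eq_neg, sub_eq_zero,
    add_div, mul_add]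
  simp only [← mul_div_assoc, mul_ite, mul_zero, ← sum_div, sum_ite_eq, sum_ite_eq', mem_univ,
    if_true, rs_neg hT]
  field_simp
  ring

lemma mk_hk (hB : Basic S) (hT : TrigStmt) {s : ℝ} (hs : 0 ≤ s) (b : S.B) : S.Mk (S.hk s b) := by
  refine ⟨hk_nonneg hB hT hs b, ?_, fun w => ?_⟩
  · have h := sy_hk hB hT s b 0
    have h0 : S.rs s b 0 = 1 := by simp [Sys.rs, dt]
    have h1 : ∀ w : S.G, S.ch 0 w = 1 := fun w => by simp [Sys.ch, Sys.dot]
    simp only [Sys.sy, h0, h1, mul_one] at h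
    exact_mod_cast h
  · simp only [Sys.hk, ch_neg, Complex.conj_re]

lemma semi (hB : Basic S) (hT : TrigStmt) (s s' : ℝ) (b : S.B) (f : S.G → ℝ) :
    S.cv (S.hk s b) (S.cv (S.hk s' b) f) = S.cv (S.hk (s + s') b) f := by
  refine hB.hat_inj _ _ fun ξ => ?_
  simp only [hB.hat_cv, sy_hk hB hT, ← mul_assoc, ← Complex.ofReal_mul, Sys.rs, ← Real.exp_add]
  congr 3
  ring

/-- The generator. -/
noncomputable def Lp (b : S.B) (f : S.G → ℝ) (x : S.G) : ℝ :=
  cq S * ∑ l ∈ S.Lb b, ((f (x + Pi.single l 1) + f (x - Pi.single l 1)) / 2 - f x)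

lemma hk_deriv (hT : TrigStmt) (b : S.B) (w : S.G) (r : ℝ) :
    HasDerivAt (fun r => S.hk r b w) (Lp b (S.hk r b) w) r := by
  have h : ∀ ξ ∈ (univ : Finset S.G), HasDerivAt (fun r => S.rs r b ξ * (S.ch ξ w).re)
      (S.rs r b ξ * (-(∑ l ∈ S.Lb b, dt (ξ l) ^ 2)) * (S.ch ξ w).re) r := by
    intro ξ _
    refine HasDerivAt.mul_const ?_ _
    have := ((hasDerivAt_id' r).mul_const (∑ l ∈ S.Lb b, dt (ξ l) ^ 2)).neg.exp
    simpa [Sys.rs] using this
  have h2 := (HasDerivAt.fun_sum h).div_const (Fintype.card S.G : ℝ)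
  simp only [Sys.hk, Fintype.expect_eq_sum_div_card]
  refine h2.congr_deriv (Eq.symm ?_)
  simp only [Lp, Sys.hk, Fintype.expect_eq_sum_div_card, ← add_div, ← sum_add_distrib, ← mul_add,
    re_step, div_right_comm _ _ (2 : ℝ), ← sub_div, ← sum_div, ← mul_div_assoc]
  congr 1
  simp only [sum_div, ← sum_sub_distrib]
  rw [sum_comm, mul_sum]
  refine sum_congr rfl fun ξ _ => ?_
  simp only [dt_sq hT, ← sum_neg_distrib, mul_sum, sum_mul]
  refine sum_congr rfl fun l _ => ?_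
  ring

lemma cv_Lp_left (b : S.B) (k f : S.G → ℝ) (β : S.G) :
    S.cv (Lp b k) f β = S.cv k (Lp b f) β := by
  have e1 : ∀ v : S.G, ∑ w, k (w + v) * f (β + w) = ∑ w, k w * f (β + w - v) := fun v =>
    Fintype.sum_equiv (Equiv.addRight v) _ _ fun w => by simp [add_sub_assoc]
  have e2 : ∀ v : S.G, ∑ w, k (w - v) * f (β + w) = ∑ w, k w * f (β + w + v) := fun v =>
    Fintype.sum_equiv (Equiv.subRight v) _ _ fun w => by simp [add_assoc]
  simp only [Sys.cv, Lp, mul_assoc, ← mul_sum, mul_left_comm _ (cq S), sum_mul]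
  congr 1
  simp only [mul_sum]
  rw [sum_comm, sum_comm (s := univ)]
  refine sum_congr rfl fun l _ => ?_
  simp only [sub_mul, mul_sub, div_mul_eq_mul_div, ← mul_div_assoc, add_mul, mul_add,
    sum_sub_distrib, ← sum_div, sum_add_distrib, e1, e2]
  ring

lemma cv_Lp_right (b : S.B) (k f : S.G → ℝ) (β : S.G) :
    S.cv k (Lp b f) β = Lp b (S.cv k f) β := by
  simp only [Sys.cv, Lp, ← mul_sum, mul_left_comm _ (cq S)]
  congr 1
  simp only [mul_sum]
  rw [sum_comm]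
  refine sum_congr rfl fun l _ => ?_
  simp only [mul_sub, ← mul_div_assoc, mul_add, sum_sub_distrib, ← sum_div, sum_add_distrib,
    add_right_comm β _ (Pi.single l 1), add_sub_right_comm β _ (Pi.single l 1)]

lemma cv_deriv (hT : TrigStmt) (b : S.B) (g : S.G → ℝ) (x : S.G) (r : ℝ) :
    HasDerivAt (fun r => S.cv (S.hk r b) g x) (Lp b (S.cv (S.hk r b) g) x) r := by
  rw [← cv_Lp_right, ← cv_Lp_left]
  exact HasDerivAt.fun_sum fun w _ => (hk_deriv hT b w r).mul_const _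

lemma gamma (b : S.B) (h : S.G → ℝ) (x : S.G) :
    (∑ l ∈ S.Lb b, S.Dl l h x ^ 2) / (2 * Real.pi ^ 2) ≤
      Lp b (fun y => h y ^ 2) x - 2 * h x * Lp b h x := by
  have hq := q_pos S
  have hp := Real.pi_pos
  simp only [Lp, mul_left_comm _ (cq S), ← mul_sub, mul_sum, ← sum_sub_distrib, sum_div]
  refine sum_le_sum fun l _ => ?_
  have e : S.Dl l h x ^ 2 / (2 * Real.pi ^ 2) =
      cq S * ((h (x + Pi.single l 1) - h (x - Pi.single l 1)) ^ 2 / 4) := by
    rw [Sys.Dl, cq]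
    field_simp
    ring
  rw [e]
  refine mul_le_mul_of_nonneg_left ?_ (cq_pos S).le
  nlinarith [sq_nonneg (h (x + Pi.single l 1) + h (x - Pi.single l 1) - 2 * h x)]

lemma grad (hB : Basic S) (hT : TrigStmt) (s : ℝ) (b : S.B) (g : S.G → ℝ) (hs : 0 < s)
    (h0 : ∀ β, 0 ≤ g β) (h1 : ∀ β, g β ≤ 1) (β : S.G) :
    S.sq b (fun l => S.Dl l (S.cv (S.hk s b) g) β) ≤ 20 / s := by
  set H : ℝ → S.G → ℝ := fun t => S.cv (S.hk t b) g with hH
  set φ : ℝ → ℝ := fun r => S.cv (S.hk r b) (fun y => H (s - r) y ^ 2) β with hφ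
  set A : ℝ := (∑ l ∈ S.Lb b, S.Dl l (H s) β ^ 2) / (2 * Real.pi ^ 2) with hA
  have hd : ∀ r, HasDerivAt φ (S.cv (S.hk r b) (fun y =>
      Lp b (fun y => H (s - r) y ^ 2) y - 2 * H (s - r) y * Lp b (H (s - r)) y) β) r := by
    intro r
    have h2 : ∀ w ∈ (univ : Finset S.G), HasDerivAt
        (fun r => S.hk r b w * H (s - r) (β + w) ^ 2)
        (Lp b (S.hk r b) w * H (s - r) (β + w) ^ 2 +
          S.hk r b w * -(2 * H (s - r) (β + w) * Lp b (H (s - r)) (β + w))) r := by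
      intro w _
      refine (hk_deriv hT b w r).fun_mul ?_
      have h3 := ((cv_deriv hT b g (β + w) (s - r)).comp_const_sub s r).fun_pow 2
      refine h3.congr_deriv ?_
      simp only [hH]
      push_cast
      ring
    refine (HasDerivAt.fun_sum h2).congr_deriv (Eq.symm ?_)
    rw [hB.cv_sub, ← cv_Lp_left, sum_add_distrib]
    simp only [Sys.cv, mul_neg, sum_neg_distrib, sub_eq_add_neg]
  have hlow : ∀ r ∈ interior (Set.Icc 0 s), A ≤ deriv φ r := by
    intro r hr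
    rw [interior_Icc] at hr
    have hk := mk_hk hB hT hr.1.le b
    rw [(hd r).deriv]
    calc A = ∑ l ∈ S.Lb b, S.cv (S.hk r b) (S.Dl l (H (s - r))) β ^ 2 / (2 * Real.pi ^ 2) := by
          rw [hA, sum_div]
          refine sum_congr rfl fun l _ => ?_
          rw [← hB.Dl_cv, hH]
          simp only []
          rw [semi hB hT, add_sub_cancel]
      _ ≤ ∑ l ∈ S.Lb b, S.cv (S.hk r b) (fun y => S.Dl l (H (s - r)) y ^ 2) β /
            (2 * Real.pi ^ 2) :=
          sum_le_sum fun l _ => div_le_div_of_nonneg_right (hB.cv_sq _ _ hk β) (by positivity)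
      _ = ∑ w, S.hk r b w *
            ((∑ l ∈ S.Lb b, S.Dl l (H (s - r)) (β + w) ^ 2) / (2 * Real.pi ^ 2)) := by
          simp only [Sys.cv, sum_div, mul_sum, mul_div_assoc]
          rw [sum_comm]
      _ ≤ _ := sum_le_sum fun w _ => mul_le_mul_of_nonneg_left (gamma b _ _) (hk.1 w)
  have hmv := (convex_Icc 0 s).mul_sub_le_image_sub_of_le_deriv
    (fun r _ => (hd r).continuousAt.continuousWithinAt)
    (fun r _ => (hd r).differentiableAt.differentiableWithinAt) hlow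
    0 ⟨le_rfl, hs.le⟩ s ⟨hs.le, le_rfl⟩ hs.le
  have hm0 := mk_hk hB hT le_rfl b
  have hup : φ s ≤ 1 := by
    refine hB.cv_le _ _ 1 (mk_hk hB hT hs.le b) (fun y => ?_) β
    rw [sub_self]
    have a1 := hB.cv_le _ g 1 hm0 h1 y
    have a0 := hB.le_cv _ g 0 hm0 h0 y
    simp only [hH]
    nlinarith
  have hdn : 0 ≤ φ 0 := hB.le_cv _ _ 0 hm0 (fun y => sq_nonneg _) β
  have hp : Real.pi ^ 2 ≤ 10 := by nlinarith [Real.pi_lt_d2, Real.pi_pos]
  have hA0 : 0 ≤ A := div_nonneg (sum_nonneg fun _ _ => sq_nonneg _) (by positivity)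
  have e : S.sq b (fun l => S.Dl l (H s) β) = 2 * Real.pi ^ 2 * A := by
    have := Real.pi_pos
    rw [hA, Sys.sq]
    field_simp
  rw [le_div_iff₀ hs]
  change S.sq b (fun l => S.Dl l (H s) β) * s ≤ 20
  rw [e]
  have : A * s ≤ 1 := by linarith
  have : 0 ≤ A * s := by positivity
  nlinarith

end HeatP

theorem heat_proof (hB : BasicStmt) (hT : TrigStmt) : HeatStmt := fun S =>
  { mkv := fun _ b hs => HeatP.mk_hk (hB S) hT hs b
    sy := HeatP.sy_hk (hB S) hT
    supp := HeatP.hk_supp (hB S) hT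
    semi := HeatP.semi (hB S) hT
    grad := HeatP.grad (hB S) hT }

end Vale.Agent.P318.D
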