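import Vale.Agent.P318.D.Stmt

/-!
Track D: the instances.
-/

namespace Vale.Agent.P318.D

open Finset Filter Real
open scoped BigOperators

namespace InstP

theorem cm {a X : ℝ} {n m : ℕ} (hX : 1 ≤ X) (ha : a ≤ X) (h : n + 1 ≤ m) : a * X ^ n ≤ X ^ m :=
  calc a * X ^ n ≤ X * X ^ n := mul_le_mul_of_nonneg_right ha (by positivity)
    _ = X ^ (n + 1) := (pow_succ' X n).symm
    _ ≤ X ^ m := pow_le_pow_right₀ hX h

theorem ev (B : ℝ) : ∀ᶠ L : ℕ in atTop, B * (L : ℝ) ^ 4 ≤ 4 ^ L := by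
  have h := (tendsto_pow_const_div_const_pow_of_one_lt 4 (r := 4) (by norm_num)).const_mul B
  rw [mul_zero] at h
  filter_upwards [h.eventually_le_const one_pos] with L hL
  rwa [← mul_div_assoc, div_le_one (by positivity)] at hL

theorem log_sixteen : log 16 ≤ 2.8 := by
  rw [show (16 : ℝ) = 2 ^ 4 by norm_num, log_pow]
  have := log_two_lt_d9
  push_cast
  linarith

theorem log_q {q : ℝ} {L : ℕ} (hL : 1 ≤ L) (h0 : 0 < q) (h : q ≤ 2 * 16 ^ (150 * L)) :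
    log q ≤ 421 * L := by
  have h1 := log_le_log h0 h
  rw [log_mul two_ne_zero (by positivity), log_pow] at h1
  have h2 := log_two_lt_d9
  have h3 := log_sixteen
  have h4 : (1 : ℝ) ≤ L := Nat.one_le_cast.2 hL
  push_cast at h1
  nlinarith

theorem exp_le (L : ℕ) : exp (-(60 * L : ℝ)) ≤ 1 / ((16 : ℝ) ^ L) ^ 21 := by
  rw [exp_neg, one_div, inv_le_inv₀ (exp_pos _) (by positivity), ← pow_mul,
    ← exp_log (show (0 : ℝ) < 16 ^ (L * 21) by positivity), exp_le_exp, log_pow]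
  have h3 := log_sixteen
  have h4 : (0 : ℝ) ≤ L := Nat.cast_nonneg L
  push_cast
  nlinarith

/-- The isoperimetric inequality with numbers. -/
theorem iso_num {X l C1 C2 M N q I Ee dn HM e : ℝ} (hl : 1 ≤ l) (h1 : 1 ≤ C1) (h2 : 1 ≤ C2)
    (hX : 10 ^ 8 * C1 * l ≤ X) (hM0 : 0 ≤ M) (hM : M ≤ X ^ 3) (hN : N = X ^ 16)
    (hq : X ^ 150 ≤ q) (hq' : q ≤ 2 * X ^ 150) (hI : 0 ≤ I)
    (hE : Ee ≤ M * q * N * dn) (hd : dn ≤ 16 * N ^ 2 / q ^ 2)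
    (hH : HM ≤ M * N * q / (X ^ 95) ^ 2) (he : e ≤ 1 / X ^ 21) :
    C1 * (√5000 * (l + √(60 * l)) * (√(C2 * l) * I / X + Ee) + (388 * l + 1) * (N + M) *
      (HM + e + 5000 * M ^ 2 * (X ^ 95) ^ 6 / q ^ 4 + 5000 * I / q)) ≤
      640 * C1 * C2 * (l * √l) / X * I + 1 / 300 := by
  have a0 : (10 : ℝ) ^ 8 ≤ X := le_trans (by nlinarith [mul_le_mul h1 hl zero_le_one (by linarith)]) hX
  have a1 : 1 ≤ X := by linarith
  have a2 : 0 < X := by linarith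
  have a3 : 0 < q := lt_of_lt_of_le (by positivity) hq
  have b1 : √5000 * (l + √(60 * l)) ≤ 639 * l := by
    have c1 : √5000 ≤ 71 := sqrt_le_iff.2 ⟨by norm_num, by norm_num⟩
    have c2 : √(60 * l) ≤ 8 * l := sqrt_le_iff.2 ⟨by linarith, by nlinarith⟩
    calc _ ≤ 71 * (l + 8 * l) := by gcongr
      _ = _ := by ring
  have b2 : √(C2 * l) ≤ C2 * √l := by
    rw [sqrt_mul (by linarith)]
    exact mul_le_mul_of_nonneg_right (sqrt_le_iff.2 ⟨by linarith, by nlinarith⟩) (sqrt_nonneg _)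
  have b3 : Ee ≤ 1 / X := by
    calc Ee ≤ M * q * N * (16 * N ^ 2 / q ^ 2) :=
          hE.trans (mul_le_mul_of_nonneg_left hd (by rw [hN]; positivity))
      _ = 16 * M * N ^ 3 / q := by field_simp
      _ ≤ 16 * X ^ 3 * N ^ 3 / X ^ 150 := by rw [hN]; gcongr
      _ ≤ 1 / X := by
        rw [div_le_div_iff₀ (by positivity) a2, hN, one_mul,
          show 16 * X ^ 3 * (X ^ 16) ^ 3 * X = 16 * X ^ 52 by ring]
        exact cm a1 (by linarith) (by norm_num)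
  have b4 : HM ≤ 2 / X ^ 21 := by
    calc HM ≤ X ^ 3 * N * (2 * X ^ 150) / (X ^ 95) ^ 2 := hH.trans (by rw [hN]; gcongr)
      _ = 2 / X ^ 21 := by rw [hN]; field_simp
  have b5 : 5000 * M ^ 2 * (X ^ 95) ^ 6 / q ^ 4 ≤ 1 / X ^ 21 := by
    calc _ ≤ 5000 * (X ^ 3) ^ 2 * (X ^ 95) ^ 6 / (X ^ 150) ^ 4 := by gcongr
      _ ≤ 1 / X ^ 21 := by
        rw [div_le_div_iff₀ (by positivity) (by positivity), one_mul,
          show 5000 * (X ^ 3) ^ 2 * (X ^ 95) ^ 6 * X ^ 21 = 5000 * X ^ 597 by ring, ← pow_mul]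
        exact cm a1 (by linarith) (by norm_num)
  have b6 : N + M ≤ 2 * X ^ 16 := by
    have := pow_le_pow_right₀ a1 (show 3 ≤ 16 by norm_num)
    linarith
  have b7 : (388 * l + 1) * (N + M) * (HM + e + 5000 * M ^ 2 * (X ^ 95) ^ 6 / q ^ 4 + 5000 * I / q) ≤
      389 * l * (2 * X ^ 16) * (4 / X ^ 21 + 5000 * I / X ^ 150) := by
    have c1 : 5000 * I / q ≤ 5000 * I / X ^ 150 := by gcongr
    have c2 : (4 : ℝ) / X ^ 21 = 2 / X ^ 21 + 1 / X ^ 21 + 1 / X ^ 21 := by ring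
    calc _ ≤ (388 * l + 1) * (N + M) * (4 / X ^ 21 + 5000 * I / X ^ 150) :=
          mul_le_mul_of_nonneg_left (by linarith) (by rw [hN]; positivity)
      _ ≤ _ := mul_le_mul_of_nonneg_right
          (mul_le_mul (by linarith) b6 (by rw [hN]; positivity) (by positivity)) (by positivity)
  have b8 : 389 * l * (2 * X ^ 16) * (4 / X ^ 21 + 5000 * I / X ^ 150) ≤
      3112 * l * (1 / X) + l * I * (1 / X) := by
    have c1 : X ^ 16 / X ^ 21 ≤ 1 / X := by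
      rw [div_le_div_iff₀ (by positivity) a2, one_mul, ← pow_succ]
      exact pow_le_pow_right₀ a1 (by norm_num)
    have c2 : 3890000 * X ^ 16 / X ^ 150 ≤ 1 / X := by
      rw [div_le_div_iff₀ (by positivity) a2, one_mul, mul_assoc, ← pow_succ]
      exact cm a1 (by linarith) (by norm_num)
    calc _ = 3112 * l * (X ^ 16 / X ^ 21) + l * I * (3890000 * X ^ 16 / X ^ 150) := by ring
      _ ≤ _ := by gcongr
  have b9 : √5000 * (l + √(60 * l)) * (√(C2 * l) * I / X + Ee) ≤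
      639 * l * (C2 * √l * I / X + 1 / X) := by
    calc _ ≤ √5000 * (l + √(60 * l)) * (C2 * √l * I / X + 1 / X) := by gcongr
      _ ≤ _ := by gcongr
  have c1 : 1 ≤ √l := one_le_sqrt.2 hl
  have c2 : l * I * (1 / X) ≤ C2 * (l * √l) / X * I := by
    rw [show l * I * (1 / X) = 1 * (l * 1) / X * I by ring]
    gcongr
  have c3 : C1 * (3751 * l * (1 / X)) ≤ 1 / 300 := by
    rw [mul_one_div, ← mul_div_assoc, div_le_div_iff₀ a2 (by norm_num)]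
    nlinarith [mul_le_mul h1 hl zero_le_one (by linarith)]
  calc _ ≤ C1 * (639 * l * (C2 * √l * I / X + 1 / X) +
        (3112 * l * (1 / X) + C2 * (l * √l) / X * I)) :=
        mul_le_mul_of_nonneg_left (by linarith) (by linarith)
    _ = 640 * C1 * C2 * (l * √l) / X * I + C1 * (3751 * l * (1 / X)) := by ring
    _ ≤ _ := by linarith

/-- The condition of the geometric part. -/
theorem geo_num {x l C2 M lq : ℝ} (hl : 1 ≤ l) (h2 : 1 ≤ C2) (hx : 10 ^ 8 * C2 * l ^ 4 ≤ x)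
    (hM0 : 0 ≤ M) (hM : M ≤ C2 * l ^ 2 * (x ^ 2) ^ 2) (h0 : 0 ≤ lq) (hq : lq ≤ 421 * l) :
    32 * (3 * M * lq + 3) ^ 3 ≤ (1 / (216 * (64 * l + 4 + 1))) ^ 3 * (x ^ 2) ^ 8 := by
  have a0 : 1 ≤ C2 * l ^ 4 := one_le_mul_of_one_le_of_one_le h2 (one_le_pow₀ hl)
  have a1 : 1 ≤ x := by nlinarith
  have a2 : 1 ≤ C2 * l ^ 3 * x ^ 4 :=
    one_le_mul_of_one_le_of_one_le (one_le_mul_of_one_le_of_one_le h2 (one_le_pow₀ hl))
      (one_le_pow₀ a1)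
  have b1 : 3 * M * lq + 3 ≤ 1266 * (C2 * l ^ 3 * x ^ 4) := by
    have : 3 * M * lq ≤ 3 * (C2 * l ^ 2 * (x ^ 2) ^ 2) * (421 * l) := by gcongr
    nlinarith
  have b2 : 4 * (3 * M * lq + 3) * (216 * (64 * l + 4 + 1)) ≤ x ^ 5 := by
    calc _ ≤ 4 * (1266 * (C2 * l ^ 3 * x ^ 4)) * (216 * (69 * l)) := by
          gcongr
          linarith
      _ = 75473856 * (C2 * l ^ 4) * x ^ 4 := by ring
      _ ≤ _ := cm a1 (by nlinarith) le_rfl
  have b3 := pow_le_pow_left₀ (by positivity) b2 3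
  have b4 : (x ^ 5) ^ 3 ≤ (x ^ 2) ^ 8 := by
    rw [← pow_mul, ← pow_mul]
    exact pow_le_pow_right₀ a1 (by norm_num)
  rw [one_div, inv_pow, inv_mul_eq_div, le_div_iff₀ (by positivity)]
  rw [mul_pow, mul_pow] at b3
  have b5 : 0 ≤ (3 * M * lq + 3) ^ 3 * (216 * (64 * l + 4 + 1)) ^ 3 := by positivity
  nlinarith

theorem rho_le (S : Sys) (c : S.ι → ZMod S.q) (u v : S.G) : S.rho c u v ≤ S.N := by
  have hq : (0 : ℝ) < S.q := Nat.cast_pos.2 S.hq.out.pos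
  have h : ∀ β i, 0 ≤ S.ph c β i ∧ S.ph c β i ≤ 1 := fun β i =>
    ⟨div_nonneg (Nat.cast_nonneg _) hq.le,
      (div_le_one hq).2 (Nat.cast_le.2 (ZMod.val_lt _).le)⟩
  refine (sum_le_card_nsmul _ _ 1 fun i _ => ?_).trans (by simp [Sys.N])
  nlinarith [h u i, h v i]

theorem num_of (S : Sys) {δ X p : ℝ} {Sh : ℕ} (hδ : 0 < δ) (hp : 1 ≤ p)
    (k1 : (4 : ℝ) ^ Sh = X ^ 194) (k2 : (2 : ℝ) ^ Sh = X ^ 97) (k3 : 5000 ≤ X) (k4 : S.M ≤ X ^ 3)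
    (k5 : ∀ P, S.ν P ≤ X ^ 3) (k6 : X ^ 150 ≤ S.q) (k7 : 40 ≤ δ * X) (k8 : ∀ P, p ≤ S.D P) :
    S.Num δ 5000 p (X ^ 95) Sh := by
  have a1 : 1 ≤ X := by linarith
  refine ⟨by norm_num, hp, k8, one_le_pow₀ a1, ?_, ?_, ?_, fun P => ?_⟩
  · calc _ ≤ 2 * X ^ 3 * X ^ 95 := by gcongr
      _ < 3 * X ^ 98 := by
        rw [mul_assoc, ← pow_add]
        exact mul_lt_mul_of_pos_right (by norm_num) (by positivity)
      _ ≤ _ := (cm a1 (by linarith) (by norm_num)).trans k6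
  · calc _ ≤ δ * X * (X ^ 95) ^ 2 := by gcongr
      _ = δ * X ^ 191 := by ring
      _ ≤ δ * (X ^ 150) ^ 2 := by
        rw [← pow_mul]
        exact mul_le_mul_of_nonneg_left (pow_le_pow_right₀ a1 (by norm_num)) hδ.le
      _ ≤ _ := by gcongr
  · rw [k1]
    calc _ ≤ 5000 * X ^ 3 * (X ^ 95) ^ 2 := by gcongr
      _ = 5000 * X ^ 193 := by ring
      _ ≤ _ := cm a1 k3 le_rfl
  · rw [k2]
    calc _ ≤ 100 * X ^ 3 * X ^ 97 := by have := k5 P; gcongr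
      _ = 100 * X ^ 100 := by ring
      _ ≤ _ := (cm a1 (by linarith) (by norm_num)).trans k6

theorem consts {x X l C1 C2 δ : ℝ} (hl : 1 ≤ l) (h1 : 1 ≤ C1) (h2 : 1 ≤ C2) (hδ : 0 < δ)
    (hδ' : δ ≤ 1 / 4) (f0 : 10 ^ 8 * C1 * C2 / δ * l ^ 4 ≤ x) (f1 : 1 ≤ x) (f2 : x ≤ X) :
    10 ^ 8 * C2 * l ^ 4 ≤ x ∧ 10 ^ 8 * C1 * l ≤ X ∧ 5000 ≤ X ∧ 40 ≤ δ * X ∧
      C2 * l ^ 2 * X ^ 2 ≤ X ^ 3 ∧ ∀ D Y : ℝ, 0 ≤ D → Y ≤ X → X ^ 2 ≤ C2 * l * Y * D → 60 * l ≤ D := by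
  rw [div_mul_eq_mul_div, div_le_iff₀ hδ] at f0
  have p1 : l ≤ l ^ 2 := le_self_pow₀ hl two_ne_zero
  have p2 : l ^ 2 ≤ l ^ 4 := pow_le_pow_right₀ hl (by norm_num)
  have g0 : 10 ^ 8 * C1 * C2 * l ^ 4 ≤ x := f0.trans (by nlinarith)
  have g1 : 10 ^ 8 * C2 * l ^ 4 ≤ x :=
    le_trans (by rw [← mul_one (10 ^ 8 : ℝ)]; gcongr; linarith) g0
  have g3 : 10 ^ 8 * (C2 * l ^ 2) ≤ X := by
    refine le_trans ?_ (g1.trans f2)
    rw [← mul_assoc]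
    gcongr
  have g4 : 1 ≤ C2 * l ^ 2 := one_le_mul_of_one_le_of_one_le h2 (one_le_pow₀ hl)
  have a1 : 1 ≤ X := by linarith
  refine ⟨g1, le_trans ?_ (g0.trans f2), by linarith, ?_, cm a1 (by linarith) le_rfl,
    fun D Y hD hY h => ?_⟩
  · calc _ = 10 ^ 8 * C1 * 1 * l := by ring
      _ ≤ _ := by
        gcongr
        linarith
  · have : 1 ≤ C1 * C2 * l ^ 4 := one_le_mul_of_one_le_of_one_le
      (one_le_mul_of_one_le_of_one_le h1 h2) (one_le_pow₀ hl)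
    nlinarith [mul_le_mul_of_nonneg_left f2 hδ.le]
  · have k1 : X ^ 2 ≤ C2 * l * X * D := h.trans (by gcongr)
    have k2 : X * X ≤ X * (C2 * l * D) := by linarith
    have k3 := le_of_mul_le_mul_left k2 (by linarith)
    have k4 : C2 * l * (60 * l) ≤ C2 * l * D := by nlinarith
    exact le_of_mul_le_mul_left k4 (by positivity)

theorem card_le (S : Sys) {l C2 X : ℝ} {n : ℕ} (hl : 1 ≤ l) (h2 : 1 ≤ C2) (a1 : 1 ≤ X)
    (hM : S.M ≤ C2 * l ^ 2 * X ^ 2) (lq : log S.q ≤ 421 * l)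
    (hn : exp (422 * C2 * l ^ 3 * X ^ 2) ≤ n) : 2 * Fintype.card S.G ≤ n := by
  have hq0 : (0 : ℝ) < S.q := Nat.cast_pos.2 S.hq.out.pos
  have lq0 : 0 ≤ log S.q := log_natCast_nonneg _
  refine Nat.cast_le.1 (le_trans ?_ hn)
  have k1 : ((2 * Fintype.card S.G : ℕ) : ℝ) = exp (log 2 + S.M * log S.q) := by
    rw [exp_add, exp_log two_pos, Sys.M, exp_nat_mul, exp_log hq0]
    simp [ZMod.card]
  rw [k1, exp_le_exp]
  have k2 : S.M * log S.q ≤ C2 * l ^ 2 * X ^ 2 * (421 * l) := by gcongr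
  have k3 : 1 ≤ C2 * l ^ 3 * X ^ 2 := one_le_mul_of_one_le_of_one_le
    (one_le_mul_of_one_le_of_one_le h2 (one_le_pow₀ hl)) (one_le_pow₀ a1)
  nlinarith [log_two_lt_d9]

theorem pows (L : ℕ) : (16 : ℝ) ^ L = (4 ^ L) ^ 2 ∧ (256 : ℝ) ^ L = (16 ^ L) ^ 2 ∧
    (4 : ℝ) ^ (388 * L) = (16 ^ L) ^ 194 ∧ (2 : ℝ) ^ (388 * L) = (16 ^ L) ^ 97 ∧
    (2 : ℝ) ^ (64 * L + 4) / 16 = (16 ^ L) ^ 16 ∧ ∀ k, (16 : ℝ) ^ (k * L) = (16 ^ L) ^ k := by
  refine ⟨?_, ?_, ?_, ?_, ?_, fun k => by rw [mul_comm, pow_mul]⟩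
  · rw [← pow_mul, mul_comm, pow_mul]; norm_num
  · rw [← pow_mul, mul_comm, pow_mul]; norm_num
  · rw [← pow_mul, show (16 : ℝ) = 4 ^ 2 by norm_num, ← pow_mul]; ring_nf
  · rw [← pow_mul, show (16 : ℝ) = 2 ^ 4 by norm_num, ← pow_mul]; ring_nf
  · rw [pow_add, show (2 : ℝ) ^ 4 = 16 by norm_num, mul_div_cancel_right₀ _ (by norm_num),
      ← pow_mul, show (16 : ℝ) = 2 ^ 4 by norm_num, ← pow_mul]; ring_nf

theorem eta {l : ℝ} (hl : 1 ≤ l) : 0 < 1 / (216 * (64 * l + 4 + 1)) ∧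
    1 / (216 * (64 * l + 4 + 1)) ≤ 1 / 100 ∧ 1 / (216 * (64 * l + 4 + 1)) ≤ 1 ∧
    27 * (8 * (1 / (216 * (64 * l + 4 + 1)))) * (64 * l + 4 + 1) ≤ 1 := by
  have h : 1 / (216 * (64 * l + 4 + 1)) ≤ 1 / 100 :=
    one_div_le_one_div_of_le (by norm_num) (by linarith)
  exact ⟨by positivity, h, by linarith, le_of_eq (by field_simp; norm_num)⟩

end InstP

open InstP in
theorem inst_proof (hI : IsoStmt) (hS : SysStmt) (hO : OffStmt) (hG : GeoStmt) (hMe : MetricStmt)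
    (hMo : ModelStmt) (hGa : GapStmt) : InstStmt := by
  obtain ⟨δ, η, A, C1, hδ, hδ', hη, hη', hA, h1, hI⟩ := hI
  obtain ⟨C2, L0, h2, hS⟩ := hS δ η A hδ hδ' hη hη' hA
  obtain ⟨c0, hc0, hGa⟩ := hGa
  obtain ⟨L1, hL1⟩ := eventually_atTop.1 ((ev (10 ^ 8 * C1 * C2 / δ)).and
    ((eventually_ge_atTop L0).and (eventually_ge_atTop 1)))
  refine ⟨c0 / (640 * C1 * C2), 422 * C2, by positivity, by positivity, L1, fun L hL n hn => ?_⟩
  obtain ⟨hx, hL0, hL⟩ := hL1 L hL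
  obtain ⟨S, lev, P0, d, wf, rip, grad, hexp, code, spr, hN, hM, hν, hq, hq'⟩ := hS L hL0
  have hl : (1 : ℝ) ≤ L := Nat.one_le_cast.2 hL
  have lq := log_q hL (Nat.cast_pos.2 S.hq.out.pos) hq'
  have lq0 : 0 ≤ log S.q := log_natCast_nonneg _
  have hM0 : 0 ≤ S.M := Nat.cast_nonneg _
  obtain ⟨e1, e2, e3, e4, e5, e6⟩ := pows L
  obtain ⟨g1, g2, g3, g4, g5, g6⟩ := consts (X := 16 ^ L) hl h1 h2 hδ hδ' hx
    (one_le_pow₀ (by norm_num)) (pow_le_pow_left₀ (by norm_num) (by norm_num) L)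
  have a1 : (1 : ℝ) ≤ 16 ^ L := one_le_pow₀ (by norm_num)
  rw [e6] at spr hN hq hq'
  rw [e2] at hM hν hn
  have num := num_of S (p := 60 * L) hδ (by linarith only [hl]) e3 e4 g3 (hM.trans g5)
    (fun P => (hν P).trans g5) hq g4 fun P => g6 _ _ (Nat.cast_nonneg _)
      (pow_le_pow_right₀ (by norm_num) (grad.lev_le P)) (e2 ▸ grad.sparse P)
  obtain ⟨n1, n2, n3, n4⟩ := eta hl
  obtain ⟨c, off⟩ := hO S _ _ wf n1 n3 le_rfl
  obtain ⟨r, rep⟩ := hG S c _ _ _ off spr (by linarith only [mul_nonneg hM0 lq0]) n1 n2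
    (e1 ▸ geo_num (x := 4 ^ L) hl h2 g1 hM0 (e1 ▸ hM) lq0 lq)
  obtain ⟨dd, d1, d2, d3⟩ := hMe S.G S.ι (fun u => S.ph c (r u)) _ (64 * L + 4)
    (mul_nonneg (by norm_num : (0 : ℝ) ≤ 8) n1.le) (by push_cast; exact n4)
    (fun u v => (rep.sep u v).imp (fun e => by simp [e]) id)
    (fun u v => (rho_le S c (r u) (r v)).trans (hN.trans e5.symm).le) rep.acute
  choose lz hlz using wf.nz
  have hv : S.Step fun i => Pi.single (lz i) (S.n i (lz i) : ZMod S.q) :=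
    fun i => ⟨lz i, hlz i, rfl⟩
  have key := hGa S c _ r dd _ (640 * C1 * C2 * (L * √L) / 16 ^ L) wf hv rep
    (hN ▸ one_le_pow₀ a1)
    (le_trans (by rw [hN, ← pow_mul (16 ^ L)]; exact pow_le_pow_right₀ a1 (by norm_num)) hq)
    off.dn_le d1 d2 d3 (by positivity) (fun f hf => by
      obtain ⟨k1, k2, k3, k4⟩ := hMo S c _ f wf hv hf
      refine (hI S _ lev P0 L d _ _ _ _ _ wf rip k1 num hL
        (one_le_mul_of_one_le_of_one_le h2 hl) grad hexp code k4).trans ?_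
      rw [Fn.Ty, Nat.cast_mul, Nat.cast_ofNat]
      exact iso_num hl h1 h2 g2 hM0 (hM.trans g5) hN hq hq'
        (sum_nonneg fun i _ => expect_nonneg fun β _ => abs_nonneg _) k2 off.dn_le
        (k3 _ (by positivity)) (exp_le L)) n (card_le S hl h2 a1 hM lq hn)
  refine le_of_eq_of_le ?_ key
  field_simp

end Vale.Agent.P318.D
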