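import Vale.Agent.P318.D.Stmt

/-!
Track D: the isoperimetric inequality from the estimates on the levels.
-/

namespace Vale.Agent.P318.D

open Finset
open scoped BigOperators

namespace IsoP

lemma ind_nonneg (p : Prop) : 0 ≤ ind p := by
  unfold ind; split_ifs <;> norm_num

lemma ind_le_one (p : Prop) : ind p ≤ 1 := by
  unfold ind; split_ifs <;> norm_num

lemma ind_pos {p : Prop} (h : p) : ind p = 1 := by
  unfold ind; rw [if_pos h]

lemma ind_neg {p : Prop} (h : ¬ p) : ind p = 0 := by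
  unfold ind; rw [if_neg h]

lemma ind_congr {p q : Prop} (h : p ↔ q) : ind p = ind q := by
  rw [propext h]

lemma geo (a L : ℕ) : ∑ j ∈ Icc a L, (2 : ℝ) ^ (j - a) / 4 ^ j ≤ 2 / 4 ^ a := by
  have h1 : Icc a L = Ico a (L + 1) := by
    ext j; simp only [mem_Icc, mem_Ico]; omega
  rw [h1, Finset.sum_Ico_eq_sum_range]
  have h2 : ∀ i ∈ range (L + 1 - a), (2 : ℝ) ^ (a + i - a) / 4 ^ (a + i) =
      (1 / 2) ^ i / 4 ^ a := by
    intro i _
    have h4 : (4 : ℝ) ^ i = 2 ^ i * 2 ^ i := by rw [← mul_pow]; norm_num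
    rw [Nat.add_sub_cancel_left, pow_add, h4, one_div, inv_pow]
    field_simp
  rw [Finset.sum_congr rfl h2, ← Finset.sum_div]
  exact div_le_div_of_nonneg_right (sum_geometric_two_le _) (by positivity)

lemma exp_le_one_sub {x : ℝ} (h0 : 0 ≤ x) (h1 : x ≤ 1 / 2) : Real.exp (-(2 * x)) ≤ 1 - x := by
  have h := Real.add_one_le_exp (2 * x)
  rw [Real.exp_neg, inv_le_comm₀ (Real.exp_pos _) (by linarith)]
  refine le_trans ?_ h
  rw [inv_le_iff_one_le_mul₀ (by linarith)]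
  nlinarith

lemma prod_bounds {B : Type} [Fintype B] (x : B → ℝ) (h0 : ∀ b, 0 ≤ x b) (h1 : ∀ b, x b ≤ 1 / 2) :
    Real.exp (-(4 * ∑ b, x b)) ≤ (∏ b, (1 - x b)) ^ 2 ∧
      (∏ b, (1 - x b)) ^ 2 ≤ Real.exp (-(2 * ∑ b, x b)) := by
  have e1 : Real.exp (-(4 * ∑ b, x b)) = (∏ b, Real.exp (-(2 * x b))) ^ 2 := by
    rw [← Real.exp_sum, ← Real.exp_nat_mul, Finset.sum_neg_distrib, ← Finset.mul_sum]
    congr 1; push_cast; ring
  have e2 : Real.exp (-(2 * ∑ b, x b)) = (∏ b, Real.exp (-(x b))) ^ 2 := by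
    rw [← Real.exp_sum, ← Real.exp_nat_mul, Finset.sum_neg_distrib]
    congr 1; push_cast; ring
  rw [e1, e2]
  constructor
  · refine pow_le_pow_left₀ (Finset.prod_nonneg fun b _ => (Real.exp_pos _).le) ?_ 2
    exact Finset.prod_le_prod (fun b _ => (Real.exp_pos _).le)
      fun b _ => exp_le_one_sub (h0 b) (h1 b)
  · refine pow_le_pow_left₀ (Finset.prod_nonneg fun b _ => by linarith [h1 b]) ?_ 2
    refine Finset.prod_le_prod (fun b _ => by linarith [h1 b]) fun b _ => ?_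
    linarith [Real.add_one_le_exp (-(x b))]

variable {S : Sys}

lemma sum_bl (g : S.B → ℝ) : ∑ b, g b = ∑ P, ∑ b ∈ S.Bl P, g b :=
  (Finset.sum_fiberwise univ S.own g).symm

lemma mem_Bl {b : S.B} {P : S.P} : b ∈ S.Bl P ↔ S.own b = P := by
  simp [Sys.Bl]

lemma mem_lv {lev : S.P → ℕ} {k : ℕ} {P : S.P} : P ∈ S.lv lev k ↔ lev P = k := by
  simp [Sys.lv]

/-- Sums over all blocks of level at least `k`, level by level. -/
lemma sum_lev {lev : S.P → ℕ} {L : ℕ} (hL : ∀ P, lev P ≤ L) (k : ℕ) (w : ℕ → ℝ) (g : S.B → ℝ) :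
    ∑ b, (if k ≤ lev (S.own b) then w (lev (S.own b)) else 0) * g b =
      ∑ j ∈ Icc k L, w j * ∑ P ∈ S.lv lev j, ∑ b ∈ S.Bl P, g b := by
  rw [sum_bl]
  have h1 : ∀ P ∈ (univ : Finset S.P),
      ∑ b ∈ S.Bl P, (if k ≤ lev (S.own b) then w (lev (S.own b)) else 0) * g b =
        if k ≤ lev P then w (lev P) * ∑ b ∈ S.Bl P, g b else 0 := by
    intro P _
    split_ifs with h
    · rw [Finset.mul_sum]
      refine Finset.sum_congr rfl fun b hb => ?_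
      rw [mem_Bl.1 hb, if_pos h]
    · refine Finset.sum_eq_zero fun b hb => ?_
      rw [mem_Bl.1 hb, if_neg h, zero_mul]
  rw [Finset.sum_congr rfl h1, ← Finset.sum_filter]
  rw [← Finset.sum_fiberwise_of_maps_to (s := univ.filter fun P => k ≤ lev P) (t := Icc k L)
    (g := lev) (fun P hP => mem_Icc.2 ⟨(mem_filter.1 hP).2, hL P⟩)]
  refine Finset.sum_congr rfl fun j hj => ?_
  have h2 : (univ.filter fun P => k ≤ lev P).filter (fun P => lev P = j) = S.lv lev j := by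
    ext P
    simp only [mem_filter, mem_univ, true_and, mem_lv]
    constructor
    · exact fun h => h.2
    · intro h; exact ⟨h ▸ (mem_Icc.1 hj).1, h⟩
  rw [h2, Finset.mul_sum]
  refine Finset.sum_congr rfl fun P hP => ?_
  rw [mem_lv.1 hP]

lemma cnt_nonneg (R : Finset S.P) (ξ : S.G) : 0 ≤ S.cnt R ξ :=
  div_nonneg (Finset.sum_nonneg fun _ _ => Finset.sum_nonneg fun _ _ => ind_nonneg _)
    (Nat.cast_nonneg _)

lemma cnt_le {R : Finset S.P} {m : ℝ} (h0 : 0 ≤ m) (h : ∀ P ∈ R, ((S.Bl P).card : ℝ) ≤ m)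
    (ξ : S.G) : S.cnt R ξ ≤ m := by
  unfold Sys.cnt
  refine div_le_of_le_mul₀ (Nat.cast_nonneg _) h0 ?_
  calc ∑ P ∈ R, ∑ b ∈ S.Bl P, ind (S.act b ξ) ≤ ∑ P ∈ R, m := by
        refine Finset.sum_le_sum fun P hP => le_trans ?_ (h P hP)
        calc ∑ b ∈ S.Bl P, ind (S.act b ξ) ≤ ∑ b ∈ S.Bl P, (1 : ℝ) :=
              Finset.sum_le_sum fun b _ => ind_le_one _
          _ = _ := by simp
    _ = m * R.card := by simp [mul_comm]

lemma W_nonneg (f : S.G → ℝ) (ξ : S.G) : 0 ≤ S.W f ξ := sq_nonneg _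

lemma I_nonneg (F : Fn S) : 0 ≤ F.I :=
  Finset.sum_nonneg fun _ _ => Finset.expect_nonneg fun _ _ => abs_nonneg _

lemma Ee_nonneg (F : Fn S) : 0 ≤ F.Ee :=
  Finset.sum_nonneg fun _ _ => Finset.expect_nonneg fun _ _ => abs_nonneg _

lemma Ty_nonneg (F : Fn S) {T : ℝ} (hT : 0 ≤ T) (p Ξ : ℝ) (Sh : ℕ) : 0 ≤ F.Ty T p Ξ Sh := by
  have h1 : 0 ≤ F.HM Ξ := Finset.sum_nonneg fun _ _ => mul_nonneg (W_nonneg _ _) (ind_nonneg _)
  have h2 := I_nonneg F
  have h3 : 0 ≤ S.N := Nat.cast_nonneg _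
  have h4 : 0 ≤ S.M := Nat.cast_nonneg _
  have h5 : 0 ≤ Ξ ^ 6 := by positivity
  unfold Fn.Ty
  positivity

/-- The normalised activities. -/
noncomputable def nu (lev : S.P → ℕ) (j : ℕ) (ξ : S.G) : ℝ :=
  (if j = 0 then 2 else 1) * S.cnt (S.lv lev j) ξ / 16 ^ j

/-- The noise rates for the level `k`. -/
noncomputable def tau (lev : S.P → ℕ) (d k : ℕ) (b : S.B) : ℝ :=
  if k ≤ lev (S.own b) then 2 ^ (lev (S.own b) - k) / (16 ^ lev (S.own b) * d) else 0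

lemma nu_pos {lev : S.P → ℕ} {j : ℕ} (hj : 1 ≤ j) (ξ : S.G) :
    nu lev j ξ = S.cnt (S.lv lev j) ξ / 16 ^ j := by
  unfold nu; rw [if_neg (by omega), one_mul]

lemma nu_nonneg (lev : S.P → ℕ) (j : ℕ) (ξ : S.G) : 0 ≤ nu lev j ξ := by
  have := cnt_nonneg (S.lv lev j) ξ
  unfold nu
  split_ifs <;> positivity

lemma tau_mem {lev : S.P → ℕ} {d k : ℕ} (hd : 1 ≤ d) (hk : 1 ≤ k) (b : S.B) :
    0 ≤ tau lev d k b ∧ tau lev d k b ≤ 1 / 2 := by
  unfold tau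
  split_ifs with h
  · refine ⟨by positivity, ?_⟩
    have hd' : (1 : ℝ) ≤ d := by exact_mod_cast hd
    set j := lev (S.own b)
    have h1 : (2 : ℝ) ^ (j - k) * 2 ≤ 16 ^ j := by
      calc (2 : ℝ) ^ (j - k) * 2 = 2 ^ (j - k + 1) := by rw [pow_succ]
        _ ≤ 2 ^ j := pow_le_pow_right₀ (by norm_num) (by omega)
        _ ≤ 16 ^ j := pow_le_pow_left₀ (by norm_num) (by norm_num) _
    rw [div_le_iff₀ (by positivity)]
    have h2 : (0 : ℝ) < 16 ^ j := by positivity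
    nlinarith
  · norm_num

lemma sum_tau {lev : S.P → ℕ} {L : ℕ} (hL : ∀ P, lev P ≤ L) (d k : ℕ) (g : S.B → ℝ) :
    ∑ b, tau lev d k b * g b =
      ∑ j ∈ Icc k L, 2 ^ (j - k) / (16 ^ j * d) * ∑ P ∈ S.lv lev j, ∑ b ∈ S.Bl P, g b :=
  sum_lev hL k (fun j => 2 ^ (j - k) / (16 ^ j * d)) g

section Graded

variable {lev : S.P → ℕ} {P0 : S.P} {L d : ℕ} {Cm lg : ℝ}

lemma tau_act (hG : S.Grad lev P0 L d Cm lg) {k : ℕ} (hk : 1 ≤ k) (ξ : S.G) :
    ∑ b, tau lev d k b * ind (S.act b ξ) = Fk L (nu lev) k ξ := by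
  rw [sum_tau hG.lev_le]
  refine Finset.sum_congr rfl fun j hj => ?_
  have hj' := mem_Icc.1 hj
  rw [nu_pos (hk.trans hj'.1), Sys.cnt, hG.card_lv j (hk.trans hj'.1) hj'.2]
  have hd : (d : ℝ) ≠ 0 := by have := hG.one_le_d; positivity
  field_simp

lemma mu_bounds (hG : S.Grad lev P0 L d Cm lg) {k : ℕ} (hk : 1 ≤ k) (ξ : S.G) :
    Real.exp (-(4 * Fk L (nu lev) k ξ)) ≤ S.mu (tau lev d k) ξ ^ 2 ∧
      S.mu (tau lev d k) ξ ^ 2 ≤ Real.exp (-(2 * Fk L (nu lev) k ξ)) := by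
  rw [← tau_act hG hk]
  refine prod_bounds (fun b => tau lev d k b * ind (S.act b ξ)) (fun b => ?_) fun b => ?_
  · exact mul_nonneg (tau_mem hG.one_le_d hk b).1 (ind_nonneg _)
  · have h := tau_mem (lev := lev) hG.one_le_d hk b
    nlinarith [ind_le_one (S.act b ξ), ind_nonneg (S.act b ξ)]

lemma lv_zero (hG : S.Grad lev P0 L d Cm lg) : S.lv lev 0 = {P0} := by
  ext P; rw [mem_lv, mem_singleton, hG.lev_zero]

lemma lv_ne (hG : S.Grad lev P0 L d Cm lg) {j : ℕ} (hj : j ≤ L) : (S.lv lev j).Nonempty := by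
  rcases Nat.eq_zero_or_pos j with rfl | h
  · rw [lv_zero hG]; exact singleton_nonempty _
  · rw [← Finset.card_pos, hG.card_lv j h hj]; exact hG.one_le_d

lemma nu_le (hG : S.Grad lev P0 L d Cm lg) (hC : 2 ≤ Cm) (j : ℕ) (ξ : S.G) : nu lev j ξ ≤ Cm := by
  rcases Nat.eq_zero_or_pos j with rfl | h
  · have h1 : S.cnt (S.lv lev 0) ξ ≤ 1 := by
      refine cnt_le zero_le_one (fun P hP => ?_) ξ
      rw [lv_zero hG, mem_singleton] at hP
      rw [hP]; exact_mod_cast hG.dense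
    unfold nu
    rw [if_pos rfl, pow_zero, div_one]
    linarith
  · rw [nu_pos h, div_le_iff₀ (by positivity)]
    refine cnt_le (by positivity) (fun P hP => ?_) ξ
    have := hG.blocks P
    rwa [mem_lv.1 hP] at this

lemma EP_le (hW : S.WF) (hG : S.Grad lev P0 L d Cm lg) (hlg : 1 ≤ lg) (F : Fn S) (P : S.P) :
    F.EP P ≤ (√lg * F.I / 16 ^ L + F.Ee) * 4 ^ lev P := by
  have hD : (1 : ℝ) ≤ S.D P := by exact_mod_cast hW.one_le_D P
  have hI := I_nonneg F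
  have hE := Ee_nonneg F
  have h4 : (1 : ℝ) ≤ 4 ^ lev P := one_le_pow₀ (by norm_num)
  have hs : 0 < √(S.D P : ℝ) := Real.sqrt_pos.2 (by linarith)
  have h1 : (16 : ℝ) ^ L ≤ √lg * 4 ^ lev P * √(S.D P : ℝ) := by
    refine abs_le_of_sq_le_sq' ?_ (by positivity) |>.2
    have a1 : ((16 : ℝ) ^ L) ^ 2 = 256 ^ L := by rw [← pow_mul, mul_comm, pow_mul]; norm_num
    have a2 : ((4 : ℝ) ^ lev P) ^ 2 = 16 ^ lev P := by
      rw [← pow_mul, mul_comm, pow_mul]; norm_num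
    rw [a1, mul_pow, mul_pow, a2, Real.sq_sqrt (by linarith), Real.sq_sqrt (by linarith)]
    exact hG.sparse P
  have h2 : F.I / √(S.D P : ℝ) ≤ √lg * F.I / 16 ^ L * 4 ^ lev P := by
    rw [div_le_iff₀ hs]
    have : √lg * F.I / 16 ^ L * 4 ^ lev P * √(S.D P : ℝ) =
        F.I * (√lg * 4 ^ lev P * √(S.D P : ℝ)) / 16 ^ L := by ring
    rw [this, le_div_iff₀ (by positivity)]
    exact mul_le_mul_of_nonneg_left h1 hI
  unfold Fn.EP
  nlinarith

lemma fam (hW : S.WF) (hG : S.Grad lev P0 L d Cm lg) (hC : 2 ≤ Cm) (hlg : 1 ≤ lg) (F : Fn S)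
    {j : ℕ} (hj : j ≤ L) :
    Fam F (S.lv lev j) (Cm * 16 ^ j) ((√lg * F.I / 16 ^ L + F.Ee) * 4 ^ j) where
  ne := lv_ne hG hj
  one_le := by
    have : (1 : ℝ) ≤ 16 ^ j := one_le_pow₀ (by norm_num)
    nlinarith
  blocks := fun P hP => by
    have := hG.blocks P
    rwa [mem_lv.1 hP] at this
  err := fun P hP => by
    have := EP_le hW hG hlg F P
    rwa [mem_lv.1 hP] at this

lemma tau_Eb (hB : Basic S) (hW : S.WF) (hG : S.Grad lev P0 L d Cm lg) (hlg : 1 ≤ lg) (F : Fn S)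
    {k : ℕ} (hk : 1 ≤ k) :
    ∑ b, tau lev d k b * F.Eb b ≤ (√lg * F.I / 16 ^ L + F.Ee) * (2 / 4 ^ k) := by
  set e := √lg * F.I / 16 ^ L + F.Ee with he
  have he0 : 0 ≤ e := by have := I_nonneg F; have := Ee_nonneg F; positivity
  have hd : (0 : ℝ) < d := by exact_mod_cast hG.one_le_d
  rw [sum_tau hG.lev_le]
  refine le_trans ?_ (mul_le_mul_of_nonneg_left (geo k L) he0)
  rw [Finset.mul_sum]
  refine Finset.sum_le_sum fun j hj => ?_
  have hj' := mem_Icc.1 hj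
  have h1 : ∑ P ∈ S.lv lev j, ∑ b ∈ S.Bl P, F.Eb b ≤ d * (e * 4 ^ j) := by
    calc ∑ P ∈ S.lv lev j, ∑ b ∈ S.Bl P, F.Eb b ≤ ∑ P ∈ S.lv lev j, e * 4 ^ j := by
          refine Finset.sum_le_sum fun P hP => (hB.sum_Eb hW F P).trans ?_
          have := EP_le hW hG hlg F P
          rwa [mem_lv.1 hP] at this
      _ = d * (e * 4 ^ j) := by
          rw [Finset.sum_const, hG.card_lv j (hk.trans hj'.1) hj'.2, nsmul_eq_mul]
  refine (mul_le_mul_of_nonneg_left h1 (by positivity)).trans (le_of_eq ?_)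
  have h16 : (16 : ℝ) ^ j = 4 ^ j * 4 ^ j := by rw [← mul_pow]; norm_num
  rw [h16]
  field_simp

/-- A frequency of the code with small total activity vanishes. -/
lemma eq_zero (hG : S.Grad lev P0 L d Cm lg) {T : ℝ} (hc : S.Code P0 T (d * 256 ^ L)) {ξ : S.G}
    (hξ : S.Lam ξ) (hF : Fk L (nu lev) 0 ξ ≤ 1) : ξ = 0 := by
  have hterm : ∀ j ∈ Icc 0 L, 0 ≤ (2 : ℝ) ^ (j - 0) * nu lev j ξ :=
    fun j _ => mul_nonneg (by positivity) (nu_nonneg _ _ _)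
  have hna : ∀ b ∈ S.Bl P0, ¬ S.act b ξ := by
    intro b hb ha
    have h1 := Finset.single_le_sum hterm (mem_Icc.2 ⟨le_rfl, Nat.zero_le L⟩)
    have h2 : (1 : ℝ) ≤ S.cnt (S.lv lev 0) ξ := by
      rw [Sys.cnt, lv_zero hG, sum_singleton, card_singleton, Nat.cast_one, div_one,
        ← ind_pos ha]
      exact Finset.single_le_sum (f := fun b => ind (S.act b ξ)) (fun _ _ => ind_nonneg _) hb
    have h3 : nu lev 0 ξ = 2 * S.cnt (S.lv lev 0) ξ := by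
      unfold nu; rw [if_pos rfl, pow_zero, div_one]
    unfold Fk at hF
    rw [h3] at h1
    norm_num at h1
    simp only [tsub_zero] at hF
    linarith
  refine (hc ξ hξ).2 hna ?_
  have hd : (0 : ℝ) < d := by exact_mod_cast hG.one_le_d
  have h1 : ((univ.filter fun l => ξ l ≠ 0).card : ℝ) ≤
      ∑ b, (if 1 ≤ lev (S.own b) then (256 : ℝ) ^ L / 16 ^ lev (S.own b) else 0) *
        ind (S.act b ξ) := by
    rw [Finset.card_eq_sum_card_fiberwise (f := S.blk) (t := univ) (fun _ _ => mem_univ _),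
      Nat.cast_sum]
    refine Finset.sum_le_sum fun b _ => ?_
    by_cases ha : S.act b ξ
    · have hP : S.own b ≠ P0 := fun h => hna b (mem_Bl.2 h) ha
      have hl : 1 ≤ lev (S.own b) := Nat.one_le_iff_ne_zero.2 fun h => hP ((hG.lev_zero _).1 h)
      rw [if_pos hl, ind_pos ha, mul_one, le_div_iff₀ (by positivity)]
      refine le_trans (mul_le_mul_of_nonneg_right ?_ (by positivity)) (hG.dims b hP)
      refine Nat.cast_le.2 (Finset.card_le_card fun l hl => ?_)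
      simp only [Sys.Lb, mem_filter, mem_univ, true_and] at hl ⊢
      exact hl.2
    · have : ((univ.filter fun l => ξ l ≠ 0).filter fun l => S.blk l = b) = ∅ := by
        refine Finset.filter_eq_empty_iff.2 fun l hl hb => ha ⟨l, hb, ?_⟩
        exact (mem_filter.1 hl).2
      rw [this, ind_neg ha, mul_zero]
      simp
  rw [sum_lev hG.lev_le 1 (fun j => (256 : ℝ) ^ L / 16 ^ j)] at h1
  refine h1.trans ?_
  have h2 : ∑ j ∈ Icc 1 L, (256 : ℝ) ^ L / 16 ^ j *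
      ∑ P ∈ S.lv lev j, ∑ b ∈ S.Bl P, ind (S.act b ξ) =
      d * 256 ^ L * ∑ j ∈ Icc 1 L, nu lev j ξ := by
    rw [Finset.mul_sum]
    refine Finset.sum_congr rfl fun j hj => ?_
    have hj' := mem_Icc.1 hj
    rw [nu_pos hj'.1, Sys.cnt, hG.card_lv j hj'.1 hj'.2]
    field_simp
  rw [h2]
  refine mul_le_of_le_one_right (by positivity) (le_trans ?_ hF)
  calc ∑ j ∈ Icc 1 L, nu lev j ξ ≤ ∑ j ∈ Icc 1 L, 2 ^ (j - 0) * nu lev j ξ := by
        refine Finset.sum_le_sum fun j _ => ?_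
        exact le_mul_of_one_le_left (nu_nonneg _ _ _) (one_le_pow₀ (by norm_num))
    _ ≤ ∑ j ∈ Icc 0 L, 2 ^ (j - 0) * nu lev j ξ :=
        Finset.sum_le_sum_of_subset_of_nonneg (Icc_subset_Icc_left (Nat.zero_le 1))
          fun j hj _ => hterm j hj

end Graded

lemma sqrt_m {c : ℝ} (hc : 0 ≤ c) (j : ℕ) : √(c ^ 2 * 16 ^ j) = c * 4 ^ j := by
  have h16 : (16 : ℝ) ^ j = (4 ^ j) ^ 2 := by rw [← pow_mul, mul_comm, pow_mul]; norm_num
  rw [h16, ← mul_pow, Real.sqrt_sq (by positivity)]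

lemma total {K U V : ℝ} (hK : 0 ≤ K) (hU : 0 ≤ U) (hV : 0 ≤ V) (L : ℕ) :
    ∑ k ∈ Icc 1 L, ∑ j ∈ Icc (k - 1) L, 2 ^ (j + 1 - k) * (K * (U + V * 4 ^ k) / 4 ^ j) ≤
      K * (4 * U + 8 * V * L) := by
  have h1 : ∀ k ∈ Icc 1 L, ∑ j ∈ Icc (k - 1) L,
      2 ^ (j + 1 - k) * (K * (U + V * 4 ^ k) / 4 ^ j) ≤
      8 * K * U * (2 ^ (k - 1) / 4 ^ k) + 8 * K * V := by
    intro k hk
    have hk1 := (mem_Icc.1 hk).1
    have e1 : ∀ j ∈ Icc (k - 1) L, (2 : ℝ) ^ (j + 1 - k) * (K * (U + V * 4 ^ k) / 4 ^ j) =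
        K * (U + V * 4 ^ k) * (2 ^ (j - (k - 1)) / 4 ^ j) := by
      intro j _
      rw [show j + 1 - k = j - (k - 1) by omega]; ring
    rw [Finset.sum_congr rfl e1, ← Finset.mul_sum]
    refine (mul_le_mul_of_nonneg_left (geo (k - 1) L) (by positivity)).trans ?_
    have e2 : (4 : ℝ) ^ k = 4 ^ (k - 1) * 4 := by
      rw [← pow_succ, show k - 1 + 1 = k by omega]
    have e3 : (1 : ℝ) ≤ 2 ^ (k - 1) := one_le_pow₀ (by norm_num)
    have e4 : K * (U + V * 4 ^ k) * (2 / 4 ^ (k - 1)) = 8 * K * U * (1 / 4 ^ k) + 8 * K * V := by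
      rw [e2]; field_simp; ring
    rw [e4]
    gcongr
  refine (Finset.sum_le_sum h1).trans ?_
  rw [Finset.sum_add_distrib, ← Finset.mul_sum, Finset.sum_const, Nat.card_Icc, nsmul_eq_mul]
  have h2 := mul_le_mul_of_nonneg_left (geo 1 L) (show 0 ≤ 8 * K * U by positivity)
  simp only [Nat.add_sub_cancel]
  nlinarith

lemma arithM {X Q e Ty y c CM CC s : ℝ} (hX : 0 ≤ X) (hQ : 0 ≤ Q) (he : 0 ≤ e) (hTy : 0 ≤ Ty)
    (h4 : 1 ≤ y) (hc1 : 1 ≤ c) (hCM : 1 ≤ CM) (hCC : 1 ≤ CC) (h6 : s ≤ 2 * c ^ 2 * e * y) :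
    CM * (X * (Q * (e * y) + c * y * (e * y) + s) + c * y * Ty) ≤
      (3 * c ^ 2 * CM + 4 * c * CC) * (X * Q * e + Ty + X * e * y) * y := by
  have hy : 0 ≤ y := by linarith
  have hc0 : 0 ≤ c := by linarith
  have h7 : X * (Q * (e * y) + c * y * (e * y) + s) + c * y * Ty ≤
      3 * c ^ 2 * ((X * Q * e + Ty + X * e * y) * y) := by
    have a0 : 1 ≤ c ^ 2 := by nlinarith
    have a1 : c ≤ c ^ 2 := by nlinarith
    have b1 : X * Q * e * y ≤ 3 * c ^ 2 * (X * Q * e * y) :=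
      le_mul_of_one_le_left (by positivity) (by linarith)
    have b2 : c * (y * Ty) ≤ 3 * c ^ 2 * (y * Ty) :=
      mul_le_mul_of_nonneg_right (by linarith) (by positivity)
    have b3 : c * (X * e * y * y) ≤ c ^ 2 * (X * e * y * y) :=
      mul_le_mul_of_nonneg_right a1 (by positivity)
    have b4 : 2 * c ^ 2 * (X * e * y) ≤ 2 * c ^ 2 * (X * e * y * y) :=
      mul_le_mul_of_nonneg_left (le_mul_of_one_le_right (by positivity) h4) (by positivity)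
    have b5 := mul_le_mul_of_nonneg_left h6 hX
    linarith
  refine (mul_le_mul_of_nonneg_left h7 (by linarith)).trans ?_
  have h9 : 0 ≤ 4 * c * CC * ((X * Q * e + Ty + X * e * y) * y) := by
    have : 0 ≤ CC := by linarith
    positivity
  linarith

lemma arithC {X Q e Ty y z c CM CC r s0 s1 s2 : ℝ} (hX : 0 ≤ X) (hQ : 0 ≤ Q) (he : 0 ≤ e)
    (hTy : 0 ≤ Ty) (h4 : 1 ≤ y) (hz : 0 ≤ z) (hc1 : 1 ≤ c) (hCM : 1 ≤ CM) (hCC : 1 ≤ CC)
    (hr1 : 1 ≤ r) (hr2 : r ≤ 2) (p0 : 0 ≤ s0) (p1 : 0 ≤ s1)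
    (h : s0 ≤ CC * (s1 + s2) + CC * (X * (Q * (e * y) + c * y * (e * z) + c * z * (e * y)) + Ty)) :
    r * s0 ≤ 2 * CC * (r * s1 + s2) +
      (3 * c ^ 2 * CM + 4 * c * CC) * (X * Q * e + Ty + X * e * z) * y := by
  have hy : 0 ≤ y := by linarith
  have hc0 : 0 ≤ c := by linarith
  have h7 : X * (Q * (e * y) + c * y * (e * z) + c * z * (e * y)) + Ty ≤
      2 * c * ((X * Q * e + Ty + X * e * z) * y) := by
    have b1 : X * Q * e * y ≤ 2 * c * (X * Q * e * y) :=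
      le_mul_of_one_le_left (by positivity) (by linarith)
    have b2 : Ty ≤ 2 * c * y * Ty := le_mul_of_one_le_left hTy (by nlinarith)
    linarith
  have h9 : s0 ≤ CC * (s1 + s2) + CC * (2 * c * ((X * Q * e + Ty + X * e * z) * y)) :=
    h.trans (add_le_add le_rfl (mul_le_mul_of_nonneg_left h7 (by linarith)))
  have h10 : r * s0 ≤ 2 * s0 := mul_le_mul_of_nonneg_right hr2 p0
  have h11 : CC * s1 ≤ CC * (r * s1) :=
    mul_le_mul_of_nonneg_left (le_mul_of_one_le_left p1 hr1) (by linarith)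
  have h12 : 0 ≤ 3 * c ^ 2 * CM * ((X * Q * e + Ty + X * e * z) * y) := by
    have : 0 ≤ CM := by linarith
    positivity
  linarith

lemma arithF {X Q e Ty L K CT s : ℝ} (hX : 0 ≤ X) (hQ : 0 ≤ Q) (he : 0 ≤ e)
    (hTy : 0 ≤ Ty) (hL : 1 ≤ L) (hK : 0 ≤ K) (hCT : 1 ≤ CT)
    (h : s ≤ K * (4 * (X * Q * e + Ty) + 8 * (X * e) * L)) :
    CT * (X * e + Ty) + s ≤ (CT + 8 * K) * (X * (L + Q) * e + Ty) := by
  have h3 : X * e ≤ X * e * L := le_mul_of_one_le_right (by positivity) hL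
  have h4 : 0 ≤ X * Q * e := by positivity
  have h5 : CT * (X * e + Ty) ≤ CT * (X * (L + Q) * e + Ty) :=
    mul_le_mul_of_nonneg_left (by linarith) (by linarith)
  have h6 : K * (4 * (X * Q * e + Ty) + 8 * (X * e) * L) ≤ K * (8 * (X * (L + Q) * e + Ty)) :=
    mul_le_mul_of_nonneg_left (by linarith) hK
  linarith

end IsoP

open IsoP

theorem iso_proof (hB : BasicStmt) (hM : MainStmt) (hC : CrossStmt) (hT : TopStmt)
    (hL : LevelStmt) : IsoStmt := by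
  obtain ⟨δ, ε, CM, hδ0, hδ1, hε0, hε1, hCM, hM⟩ := hM
  obtain ⟨CC, hCC, hC⟩ := hC δ ε hδ0 hδ1 hε0 hε1
  obtain ⟨CT, hCT, hT⟩ := hT
  have hC2 : 2 ≤ 252 / ε ^ 2 := by
    rw [le_div_iff₀ (by positivity)]; nlinarith
  obtain ⟨A0, CL, hA0, hCL, hL⟩ := hL (2 * CC) (252 / ε ^ 2) (by linarith) (by linarith)
  set Cm := 252 / ε ^ 2 * A0 with hCm
  have hCm2 : 2 ≤ Cm := by nlinarith
  set c := √Cm with hc
  have hc2 : Cm = c ^ 2 := (Real.sq_sqrt (by linarith)).symm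
  have hc1 : 1 ≤ c := Real.one_le_sqrt.2 (by linarith)
  set K := 3 * c ^ 2 * CM + 4 * c * CC with hK
  have hA1 : 1 ≤ A0 / ε := by rw [le_div_iff₀ hε0]; linarith
  have hK0 : 0 ≤ K := by positivity
  refine ⟨δ, ε / 4, 3 * A0 / ε, CL * (CT + 8 * K), hδ0, by linarith, by positivity, by linarith,
    by rw [mul_div_assoc]; linarith, by nlinarith, ?_⟩
  intro S F lev P0 L d lg T p Ξ Sh hW hR hF hN hL1 hlg hG hX hc0 hLam
  have hCm' : 21 * (3 * A0 / ε) / (ε / 4) = Cm := by rw [hCm]; field_simp; norm_num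
  rw [hCm'] at hG
  set e := √lg * F.I / 16 ^ L + F.Ee with he
  have hI := I_nonneg F
  have hE := Ee_nonneg F
  have he0 : 0 ≤ e := by positivity
  have hT0 : 0 ≤ T := by linarith [hN.one_le_T]
  have hTy := Ty_nonneg F hT0 p Ξ Sh
  set Ty := F.Ty T p Ξ Sh with hTy'
  set X := √T with hX'
  set Q := √p with hQ'
  have hX0 : 0 ≤ X := Real.sqrt_nonneg _
  have hQ0 : 0 ≤ Q := Real.sqrt_nonneg _
  have hH : ∀ τ, S.Rate τ → Hyp2 S F δ τ T p Ξ Sh := fun τ hτ =>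
    ⟨hW, hR, hF, hτ, hN, fun ξ hξ => (hc0 ξ (hLam ξ hξ)).1⟩
  have hrate : ∀ k, 1 ≤ k → S.Rate (tau lev d k) := fun k hk b =>
    ⟨(tau_mem hG.one_le_d hk b).1, (tau_mem hG.one_le_d hk b).2.trans (by norm_num)⟩
  have hs : ∀ k : ℕ, 2 * (A0 * 16 ^ k) / ε + 1 ≤ 3 * A0 / ε * 16 ^ k := by
    intro k
    have h1 : (1 : ℝ) ≤ 16 ^ k := one_le_pow₀ (by norm_num)
    have h2 : 2 * (A0 * 16 ^ k) / ε = 2 * (A0 / ε * 16 ^ k) := by ring
    have h3 : 3 * A0 / ε * 16 ^ k = 3 * (A0 / ε * 16 ^ k) := by ring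
    rw [h2, h3]
    nlinarith
  have hind : ∀ k, 1 ≤ k → ∀ ξ, ind (A0 * 16 ^ k < S.cnt (S.lv lev k) ξ) =
      ind (A0 < nu lev k ξ) := by
    intro k hk ξ
    refine ind_congr ?_
    rw [nu_pos hk, lt_div_iff₀ (by positivity)]
  have hsq : ∀ j : ℕ, √(Cm * 16 ^ j) = c * 4 ^ j := fun j => by
    rw [hc2]; exact sqrt_m (by linarith) j
  have key := hL L S.G (S.W F.f) (nu lev) (fun k ξ => S.mu (tau lev d k) ξ ^ 2)
    (fun j k => K * ((X * Q * e + Ty) + X * e * 4 ^ k) / 4 ^ j) (CT * (X * e + Ty))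
    (W_nonneg _) (nu_nonneg _) (fun j ξ _ => nu_le hG hCm2 j ξ) (fun j k => by positivity)
    (fun k ξ hk _ => mu_bounds hG hk ξ) ?_ ?_ ?_
  · have h1 : S.var F.f ≤ ∑ ξ, S.W F.f ξ * ind (1 < Fk L (nu lev) 0 ξ) := by
      rw [(hB S).var_eq]
      refine Finset.sum_le_sum fun ξ _ => ?_
      by_cases hw : S.W F.f ξ = 0
      · rw [hw, zero_mul, zero_mul]
      by_cases h0 : ξ = 0
      · rw [ind_neg (not_not.2 h0), mul_zero]
        exact mul_nonneg (W_nonneg _ _) (ind_nonneg _)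
      · rw [ind_pos h0, ind_pos (not_le.1 fun h => h0 (eq_zero hG hc0 (hLam ξ hw) h))]
    refine h1.trans (key.trans ?_)
    rw [mul_assoc CL]
    refine mul_le_mul_of_nonneg_left ?_ (zero_le_one.trans hCL)
    exact arithF hX0 hQ0 he0 hTy (by exact_mod_cast hL1) hK0 hCT
      (total hK0 (show 0 ≤ X * Q * e + Ty by positivity) (show 0 ≤ X * e by positivity) L)
  · intro k hk hkL
    have h := hM S F (tau lev d k) T p Ξ Sh (S.lv lev k) _ _ _ (A0 * 16 ^ k) (hH _ (hrate k hk))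
      (fam hW hG hCm2 hlg F hkL) (hX k hk hkL) (hs k)
    have h16 : (0 : ℝ) < 16 ^ k := by positivity
    have e1 : ∑ ξ, S.W F.f ξ * S.mu (tau lev d k) ξ ^ 2 * nu lev k ξ =
        (∑ ξ, F.Wm (tau lev d k) ξ * S.cnt (S.lv lev k) ξ) / 16 ^ k := by
      rw [Finset.sum_div]
      refine Finset.sum_congr rfl fun ξ _ => ?_
      rw [nu_pos hk, Fn.Wm]; ring
    have e2 : ∑ ξ, S.W F.f ξ * S.mu (tau lev d k) ξ ^ 2 * nu lev k ξ * ind (A0 < nu lev k ξ) =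
        (∑ ξ, F.Wm (tau lev d k) ξ * S.cnt (S.lv lev k) ξ *
          ind (A0 * 16 ^ k < S.cnt (S.lv lev k) ξ)) / 16 ^ k := by
      rw [Finset.sum_div]
      refine Finset.sum_congr rfl fun ξ _ => ?_
      rw [hind k hk, nu_pos hk, Fn.Wm]; ring
    rw [e1, e2, ← mul_div_assoc]
    have h4 : (1 : ℝ) ≤ 4 ^ k := one_le_pow₀ (by norm_num)
    have h16' : (16 : ℝ) ^ k = 4 ^ k * 4 ^ k := by rw [← mul_pow]; norm_num
    have e3 : K * (X * Q * e + Ty + X * e * 4 ^ k) / 4 ^ k =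
        K * (X * Q * e + Ty + X * e * 4 ^ k) * 4 ^ k / 16 ^ k := by
      rw [h16']; field_simp
    rw [e3, ← add_div]
    refine div_le_div_of_nonneg_right (h.trans ?_) h16.le
    refine add_le_add le_rfl ?_
    have h5 : ∑ b, tau lev d k b * F.Eb b ≤ e * (2 / 4 ^ k) := tau_Eb (hB S) hW hG hlg F hk
    rw [hsq]
    have h6 : Cm * 16 ^ k * ∑ b, tau lev d k b * F.Eb b ≤ 2 * c ^ 2 * e * 4 ^ k := by
      refine (mul_le_mul_of_nonneg_left h5 (by positivity)).trans (le_of_eq ?_)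
      rw [hc2, h16']; field_simp
    exact arithM hX0 hQ0 he0 hTy h4 hc1 hCM hCC h6
  · intro k j hk hkL hjL _ _
    have h := hC S F (tau lev d k) T p Ξ Sh (S.lv lev j) (S.lv lev k) _ _ _ _ _ (A0 * 16 ^ k)
      (hH _ (hrate k hk)) (fam hW hG hCm2 hlg F hjL) (fam hW hG hCm2 hlg F hkL) (hX k hk hkL)
      (hs k)
    set r : ℝ := if j = 0 then 2 else 1 with hr
    have hr1 : 1 ≤ r := by rw [hr]; split_ifs <;> norm_num
    have hr2 : r ≤ 2 := by rw [hr]; split_ifs <;> norm_num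
    have h16 : (0 : ℝ) < 16 ^ j := by positivity
    have e1 : ∑ ξ, S.W F.f ξ * S.mu (tau lev d k) ξ ^ 2 * nu lev j ξ =
        r * (∑ ξ, F.Wm (tau lev d k) ξ * S.cnt (S.lv lev j) ξ) / 16 ^ j := by
      rw [Finset.mul_sum, Finset.sum_div]
      refine Finset.sum_congr rfl fun ξ _ => ?_
      rw [nu, Fn.Wm]; ring
    have e2 : ∑ ξ, S.W F.f ξ * S.mu (tau lev d k) ξ ^ 2 * nu lev j ξ * ind (A0 < nu lev k ξ) =
        r * (∑ ξ, F.Wm (tau lev d k) ξ * S.cnt (S.lv lev j) ξ *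
          ind (A0 * 16 ^ k < S.cnt (S.lv lev k) ξ)) / 16 ^ j := by
      rw [Finset.mul_sum, Finset.sum_div]
      refine Finset.sum_congr rfl fun ξ _ => ?_
      rw [hind k hk, nu, Fn.Wm]; ring
    have e3 : 16 ^ k / 16 ^ j * ∑ ξ, S.W F.f ξ * S.mu (tau lev d k) ξ ^ 2 * nu lev k ξ =
        (∑ ξ, F.Wm (tau lev d k) ξ * S.cnt (S.lv lev k) ξ) / 16 ^ j := by
      rw [Finset.mul_sum, Finset.sum_div]
      refine Finset.sum_congr rfl fun ξ _ => ?_
      rw [nu_pos hk, Fn.Wm]; field_simp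
    rw [e1, e2, e3]
    have h16' : (16 : ℝ) ^ j = 4 ^ j * 4 ^ j := by rw [← mul_pow]; norm_num
    have e4 : K * (X * Q * e + Ty + X * e * 4 ^ k) / 4 ^ j =
        K * (X * Q * e + Ty + X * e * 4 ^ k) * 4 ^ j / 16 ^ j := by
      rw [h16']; field_simp
    rw [e4, ← add_div, ← mul_div_assoc, ← add_div]
    refine div_le_div_of_nonneg_right ?_ h16.le
    have hWm : ∀ ξ, 0 ≤ F.Wm (tau lev d k) ξ := fun ξ => mul_nonneg (W_nonneg _ _) (sq_nonneg _)
    have p1 : 0 ≤ ∑ ξ, F.Wm (tau lev d k) ξ * S.cnt (S.lv lev j) ξ *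
        ind (A0 * 16 ^ k < S.cnt (S.lv lev k) ξ) := Finset.sum_nonneg fun ξ _ =>
      mul_nonneg (mul_nonneg (hWm ξ) (cnt_nonneg _ _)) (ind_nonneg _)
    have p0 : 0 ≤ ∑ ξ, F.Wm (tau lev d k) ξ * S.cnt (S.lv lev j) ξ :=
      Finset.sum_nonneg fun ξ _ => mul_nonneg (hWm ξ) (cnt_nonneg _ _)
    rw [hsq, hsq] at h
    exact arithC hX0 hQ0 he0 hTy (one_le_pow₀ (by norm_num)) (by positivity) hc1 hCM hCC hr1 hr2
      p0 p1 h
  · have h := hT S F δ T p Ξ Sh (S.lv lev L) _ _ hδ0 (by linarith)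
      (hH _ fun _ => ⟨le_rfl, zero_le_one⟩) (fam hW hG hCm2 hlg F le_rfl)
    have h16 : (1 : ℝ) ≤ 16 ^ L := one_le_pow₀ (by norm_num)
    have e1 : ∑ ξ, S.W F.f ξ * nu lev L ξ =
        (∑ ξ, S.W F.f ξ * S.cnt (S.lv lev L) ξ) / 16 ^ L := by
      rw [Finset.sum_div]
      refine Finset.sum_congr rfl fun ξ _ => ?_
      rw [nu_pos hL1]; ring
    rw [e1, div_le_iff₀ (by positivity)]
    refine h.trans ?_
    rw [mul_assoc]
    refine mul_le_mul_of_nonneg_left ?_ (by linarith)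
    have h1 : 1 ≤ √lg := Real.one_le_sqrt.2 hlg
    have h2 : F.I + F.Ee ≤ e * 16 ^ L := by
      have : e * 16 ^ L = √lg * F.I + F.Ee * 16 ^ L := by rw [he]; field_simp
      rw [this]
      nlinarith
    have h3 := mul_le_mul_of_nonneg_left h2 hX0
    have h4 : Ty ≤ Ty * 16 ^ L := le_mul_of_one_le_right hTy h16
    nlinarith

end Vale.Agent.P318.D
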