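import Vale.Agent.P318.D.SysStmt

/-!
Track D: entries, moment bounds and parity checks of the random columns.
-/

set_option linter.unusedSectionVars false

namespace Vale.Agent.P318.D

open Finset
open scoped BigOperators
open Vale.Agent.P318.R

namespace Law1P

theorem expect_eval {A : Type*} [Fintype A] [DecidableEq A] {Ω : A → Type*} [∀ a, Fintype (Ω a)]
    [∀ a, Nonempty (Ω a)] (a : A) (f : Ω a → ℝ) : 𝔼 x : (∀ a, Ω a), f (x a) = 𝔼 u, f u := by
  simpa using expect_prod_pi_mem {a} (Function.update (fun b (_ : Ω b) => (1 : ℝ)) a f)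

theorem abs_le_exp {a b c : ℝ} (h1 : a ≤ 3 * b) (h2 : b ≤ 3 * a) (h3 : -1 ≤ c) (h4 : c ≤ 1) :
    |a + b * c| ≤ (a + b) * Real.exp (-((1 - c) / 4)) := by
  have h5 := mul_le_mul_of_nonneg_left (Real.add_one_le_exp (-((1 - c) / 4)))
    (by linarith : 0 ≤ a + b)
  refine abs_le.2 ⟨?_, ?_⟩ <;> nlinarith

variable {q : ℕ} [Fact q.Prime]

theorem norm_factor {s : ℝ} (hs : |s| ≤ 1) (x : ZMod q) :
    ‖𝔼 e : Bool × Bool, ((Real.exp (s * ((sg e : ℝ) ^ 2 - 1 / 2)) : ℝ) : ℂ) *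
      ZMod.stdAddChar (x * (sg e : ZMod q))‖ ≤
      Real.exp (s ^ 2 / 8 - (1 - Real.cos (ang x)) / 4) := by
  have e : 𝔼 e : Bool × Bool, ((Real.exp (s * ((sg e : ℝ) ^ 2 - 1 / 2)) : ℝ) : ℂ) *
      ZMod.stdAddChar (x * (sg e : ZMod q)) =
      (((Real.exp (-(s / 2)) + Real.exp (s / 2) * Real.cos (ang x)) / 2 : ℝ) : ℂ) := by
    rw [expect_sg fun n : ℤ => ((Real.exp (s * ((n : ℝ) ^ 2 - 1 / 2)) : ℝ) : ℂ) *
      ZMod.stdAddChar (x * (n : ZMod q))]
    simp only [Int.cast_zero, mul_zero, AddChar.map_zero_eq_one, mul_one, Int.cast_one,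
      Int.cast_neg, mul_neg, AddChar.map_neg_eq_inv, stdAddChar_eq, neg_sq]
    rw [← Complex.exp_neg, show s * (0 ^ 2 - 1 / 2) = -(s / 2) by ring,
      show s * (1 ^ 2 - 1 / 2) = s / 2 by ring]
    push_cast
    rw [Complex.cos, neg_mul]
    ring
  have h1 : ∀ t : ℝ, t ≤ 1 → Real.exp (t / 2) ≤ 3 * Real.exp (-(t / 2)) := fun t ht => by
    rw [show t / 2 = t + -(t / 2) by ring, Real.exp_add, show -(t + -(t / 2)) = -(t / 2) by ring]
    exact mul_le_mul_of_nonneg_right ((Real.exp_le_exp.2 ht).trans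
      (by linarith [Real.exp_one_lt_d9])) (Real.exp_pos _).le
  have h2 := abs_le_exp (by simpa [neg_div] using h1 (-s) (by linarith [(abs_le.1 hs).1]))
    (h1 s (abs_le.1 hs).2) (Real.neg_one_le_cos (ang x)) (Real.cos_le_one _)
  have h3 := Real.cosh_le_exp_half_sq (s / 2)
  rw [Real.cosh_eq, show (s / 2) ^ 2 / 2 = s ^ 2 / 8 by ring] at h3
  rw [e, Complex.norm_real, Real.norm_eq_abs, abs_div, abs_two, sub_eq_add_neg, Real.exp_add]
  nlinarith [Real.exp_pos (-((1 - Real.cos (ang x)) / 4))]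

variable {κ : Type} [Fintype κ] [DecidableEq κ] {M : ℕ} {H : κ → Fin M → ZMod q}

theorem small (hM : 400 ≤ M) (h : (q : ℝ) ^ Fintype.card κ ≤ Real.exp (M / 50)) {c : ℝ}
    (hc : (M : ℝ) / 8 ≤ c) : (q : ℝ) ^ Fintype.card κ * Real.exp (-c) ≤ 1 / 4 := by
  have h1 : (400 : ℝ) ≤ M := by exact_mod_cast hM
  refine (mul_le_mul_of_nonneg_right h (Real.exp_pos _).le).trans ?_
  rw [← Real.exp_add, show (M / 50 : ℝ) + -c = -(c - M / 50) by ring, Real.exp_neg, one_div]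
  exact inv_anti₀ (by norm_num) (by linarith [Real.add_one_le_exp (c - M / 50)])

theorem small4 (hM : 400 ≤ M) (h : (q : ℝ) ^ Fintype.card κ ≤ Real.exp (M / 50)) :
    (q : ℝ) ^ Fintype.card κ * Real.exp (-(Fintype.card (Fin M) / 4)) ≤ 1 / 4 :=
  small hM h (by rw [Fintype.card_fin]; linarith [(Nat.cast_nonneg M : (0 : ℝ) ≤ M)])

/-- Concentration of the squared length on the fibre. -/
theorem fib_nc (hH : DualFar H) (hM : 400 ≤ M) (h : (q : ℝ) ^ Fintype.card κ ≤ Real.exp (M / 50))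
    (u : κ → ZMod q) {s : ℝ} (hs : |s| ≤ 1) :
    𝔼 e : FibA H u, Real.exp (s * (∑ j, (rowA e j : ℝ) ^ 2 - M / 2)) ≤
      2 * Real.exp (s ^ 2 * M / 8) := by
  have h1 := fibA_fourier H u fun _ n => ((Real.exp (s * ((n : ℝ) ^ 2 - 1 / 2)) : ℝ) : ℂ)
  have e : (𝔼 e : FibA H u, ∏ j, ((Real.exp (s * ((rowA e j : ℝ) ^ 2 - 1 / 2)) : ℝ) : ℂ)) =
      ((𝔼 e : FibA H u, Real.exp (s * (∑ j, (rowA e j : ℝ) ^ 2 - M / 2)) : ℝ) : ℂ) := by
    simp only [Fintype.expect_eq_sum_div_card, Complex.ofReal_div, Complex.ofReal_sum,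
      Complex.ofReal_natCast, ← Complex.ofReal_prod, ← Real.exp_sum, ← mul_sum, sum_sub_distrib,
      sum_const, card_univ, Fintype.card_fin, nsmul_eq_mul, mul_one_div]
  have h0 : 0 ≤ 𝔼 e : FibA H u, Real.exp (s * (∑ j, (rowA e j : ℝ) ^ 2 - M / 2)) :=
    expect_nonneg fun _ _ => (Real.exp_pos _).le
  have h2 := (abs_le.1 (abs_mass_sub_one hH u)).1
  have h3 := small4 hM h
  have h4 := congrArg norm h1
  rw [e, ← Complex.ofReal_mul, Complex.norm_real, Real.norm_eq_abs] at h4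
  have h5 : ∀ y : κ → ZMod q, ‖ZMod.stdAddChar (-∑ a, y a * u a) * ∏ j, 𝔼 e : Bool × Bool,
      ((Real.exp (s * ((sg e : ℝ) ^ 2 - 1 / 2)) : ℝ) : ℂ) *
        ZMod.stdAddChar (dualv H y j * (sg e : ZMod q))‖ ≤
      ((if y = 0 then 1 else 0) + Real.exp (-(M / 8))) * Real.exp (s ^ 2 * M / 8) := fun y => by
    rw [norm_mul, norm_stdAddChar, one_mul, norm_prod]
    refine (prod_le_prod (fun _ _ => norm_nonneg _) fun j _ => norm_factor hs _).trans ?_
    rw [← Real.exp_sum, sum_sub_distrib, sub_eq_neg_add, Real.exp_add, ← sum_div, ← sum_div,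
      sum_const, card_univ, Fintype.card_fin, nsmul_eq_mul, mul_comm (M : ℝ)]
    refine mul_le_mul_of_nonneg_right ?_ (Real.exp_pos _).le
    split_ifs with hy
    · refine le_trans (Real.exp_le_one_iff.2 ?_) (le_add_of_nonneg_right (Real.exp_pos _).le)
      exact neg_nonpos.2 (div_nonneg (sum_nonneg fun j _ => sub_nonneg.2 (Real.cos_le_one _))
        (by norm_num))
    · have := hH y hy
      rw [zero_add, sum_sub_distrib, sum_const, card_univ, nsmul_one]
      rw [Fintype.card_fin] at this ⊢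
      exact Real.exp_le_exp.2 (by linarith)
  have h6 := (le_abs_self _).trans (h4.le.trans ((norm_sum_le _ _).trans
    (sum_le_sum fun y _ => h5 y)))
  rw [← sum_mul, sum_add_distrib] at h6
  simp only [sum_ite_eq', mem_univ, if_true, sum_const, card_univ, Fintype.card_fun, ZMod.card,
    nsmul_eq_mul, Nat.cast_pow] at h6
  have h7 := small hM h le_rfl
  have h8 := Real.exp_pos (s ^ 2 * M / 8)
  nlinarith

end Law1P

namespace Law1P

variable {q : ℕ} [Fact q.Prime] {ι A : Type} [Fintype ι] [DecidableEq ι] [Fintype A]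
  [DecidableEq A] {a0 : A} {m Md : A → ℕ} {κ : A → Type} [∀ a, Fintype (κ a)]
  [∀ a, DecidableEq (κ a)] {H : (a : A) → κ a → Fin (Md a) → ZMod q}
  {G : κ a0 → Co m Md → ZMod q} {π : (a : A) → ι → Fin (m a)}

/-- Every part of the column is a mixture of uniform points of fibres. -/
theorem marg (hne : ∀ a u, Nonempty (FibA (H a) u)) (i : ι) (a : A) (g : (Fin (Md a) → ℤ) → ℝ)
    {B : ℝ} (h : ∀ u, 𝔼 e : FibA (H a) u, g (rowA e) ≤ B) :
    𝔼 ω : Smp a0 H, g (prt a0 H G π i ω a) ≤ B := by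
  rw [← univ_product_univ, expect_product]
  by_cases ha : a = a0
  · subst ha
    refine expect_le univ_nonempty fun x _ => ?_
    simp only [prt, Function.update_self]
    exact (expect_eval (Ω := fun u => FibA (H a) u) _ fun e => g (rowA e)).trans_le (h _)
  · simp only [prt, Function.update_of_ne ha, Fintype.expect_const]
    exact (expect_eval (Ω := fun a => FibA (H a) 0) a fun e => g (rowA e)).trans_le (h _)

/-- A vector on one block. -/
def emb (b : Σ a : A, Fin (m a)) (w : Fin (Md b.1) → ZMod q) (l : Co m Md) : ZMod q :=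
  (Pi.single b w : ∀ b : Σ a : A, Fin (m a), Fin (Md b.1) → ZMod q) l.1 l.2

theorem sum_emb (b : Σ a : A, Fin (m a)) (w : Fin (Md b.1) → ZMod q) (f : Co m Md → ZMod q) :
    ∑ l, f l * emb b w l = ∑ j, w j * f ⟨b, j⟩ := by
  rw [Fintype.sum_sigma, sum_eq_single b (fun b' _ hb => by simp [emb, Pi.single_eq_of_ne hb])
    (by simp)]
  simp [emb, mul_comm]

theorem cdot_emb {a : A} (v : Fin (m a)) (i : ι) (x : (a : A) → Fin (Md a) → ℤ) (k : κ a) :
    cdot π i x (emb ⟨a, v⟩ (H a k)) = if π a i = v then syn (H a) (x a) k else 0 := by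
  rw [cdot, sum_emb]
  by_cases h : π a i = v <;> simp [col, h, syn]

theorem cdot_prt (hG : ∀ k (l : Co m Md), l.1.1 = a0 → G k l = 0) (i : ι) (ω : Smp a0 H)
    (k : κ a0) : cdot π i (prt a0 H G π i ω) (G k) = cdot π i (fun a => rowA (ω.1 a)) (G k) := by
  refine sum_congr rfl fun l _ => ?_
  by_cases hl : l.1.1 = a0
  · rw [hG k l hl, mul_zero, mul_zero]
  · simp only [col, prt, Function.update_of_ne hl]

theorem sq_eq (x : ι → (a : A) → Fin (Md a) → ℤ) (D : A → ℕ) (b : Σ a : A, Fin (m a))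
    (f : Co m Md → ℝ) : (mkSys q π x D).sq b f = ∑ j, f ⟨b, j⟩ ^ 2 := by
  change ∑ l ∈ univ.filter fun l : Co m Md => l.1 = b, f l ^ 2 = _
  rw [sum_filter, Fintype.sum_sigma, sum_eq_single b (fun b' _ hb => by simp [hb]) (by simp)]
  simp

theorem code {h : ℕ} (h1 : m a0 = 1) (hC : Chk a0 H G h) (x : ι → Smp a0 H) (D : A → ℕ) :
    (mkSys q π (fun i => prt a0 H G π i (x i)) D).Code a0 5000 h := by
  intro (ξ : Co m Md → ZMod q) hξ
  have hL : ∀ γ : Co m Md → ZMod q, (∀ i, cdot π i (prt a0 H G π i (x i)) γ = 0) →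
      ∑ l, ξ l * γ l = 0 := hξ
  have h2 : ∀ a, a ≠ a0 → ∀ (v : Fin (m a)) k, ∑ j, H a k j * ξ ⟨⟨a, v⟩, j⟩ = 0 := by
    intro a ha v k
    rw [← sum_emb ⟨a, v⟩ (H a k) ξ]
    refine hL _ fun i => ?_
    simp [cdot_emb, prt, Function.update_of_ne ha, syn_rowA]
  have h3 : ∀ (v : Fin (m a0)) k, ∑ j, H a0 k j * ξ ⟨⟨a0, v⟩, j⟩ + ∑ l, G k l * ξ l = 0 := by
    intro v k
    have : Subsingleton (Fin (m a0)) := by rw [h1]; infer_instance
    have e : ∀ f : Co m Md → ZMod q, ∑ l, f l * (emb ⟨a0, v⟩ (H a0 k) + G k) l =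
        ∑ l, f l * emb ⟨a0, v⟩ (H a0 k) l + ∑ l, f l * G k l := fun f => by
      simp only [Pi.add_apply, mul_add, sum_add_distrib]
    have h4 := hL (emb ⟨a0, v⟩ (H a0 k) + G k) fun i => by
      have h5 := cdot_prt (π := π) hC.G0 i (x i) k
      rw [cdot, e, ← cdot, ← cdot, h5, cdot_emb, if_pos (Subsingleton.elim _ _)]
      simp [prt, syn_rowA]
    rw [e, sum_emb] at h4
    simpa only [mul_comm (ξ _)] using h4
  refine ⟨fun ⟨a, v⟩ ⟨⟨b, j⟩, hb, hj⟩ => ?_, fun h4 h5 => ?_⟩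
  · obtain rfl : b = ⟨a, v⟩ := hb
    have h4 : (fun j => (ξ ⟨⟨a, v⟩, j⟩).valMinAbs) ≠ 0 := fun e =>
      hj (ZMod.valMinAbs_eq_zero _ |>.1 (congrFun e j))
    have h5 : (Md a : ℝ) / 10000 < ∑ j, ((ξ ⟨⟨a, v⟩, j⟩).valMinAbs : ℝ) ^ 2 := by
      by_cases ha : a = a0
      · subst ha
        exact hC.short0 _ h4 fun k hk => by simpa [syn, hk] using h3 v k
      · exact hC.short a ha _ h4 (funext fun k => by simpa [syn] using h2 a ha v k)
    refine le_trans ?_ (mul_le_mul_of_nonneg_left (sq_eq _ D ⟨a, v⟩ _).ge (by norm_num))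
    change (Md a : ℝ) / 2 ≤ 5000 * ∑ j, ((ξ ⟨⟨a, v⟩, j⟩).valMinAbs : ℝ) ^ 2
    linarith
  · have h6 : ∀ l : Co m Md, l.1.1 = a0 → ξ l = 0 := fun l hl => not_not.1 fun e =>
      h4 l.1 ((mem_filter_univ (p := fun b : Σ a : A, Fin (m a) => b.1 = a0) _).2 hl) ⟨l, rfl, e⟩
    refine hC.glue ξ h6 (Nat.cast_le.1 h5) fun k => ?_
    simpa [h6] using h3 ⟨0, by omega⟩ k

end Law1P

open Law1P

theorem law1_proof : Law1Stmt := by
  intro q _ ι A _ _ _ _ a0 m Md h κ _ _ H G π h1 hM hC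
  have hne : ∀ a u, Nonempty (FibA (H a) u) := fun a u =>
    fibA_nonempty (hC.far a) u ((small4 (hM a) (hC.size a)).trans (by norm_num))
  refine ⟨inferInstance, fun i ω a j => ?_, fun i a v => ?_, fun i a s hs => ?_, code h1 hC⟩
  · by_cases ha : a = a0
    · subst ha
      simp only [prt, Function.update_self]
      exact rowA_cases _ j
    · simp only [prt, Function.update_of_ne ha]
      exact rowA_cases _ j
  · refine marg hne i a (fun x => Real.exp (∑ j, v j * x j)) fun u => ?_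
    have := fibA_mgf (hC.far a) u (small4 (hM a) (hC.size a)) (by norm_num) v
    rwa [show (1 : ℝ) + 4 * (1 / 4) = 2 by norm_num] at this
  · exact marg hne i a (fun x => Real.exp (s * (∑ j, (x j : ℝ) ^ 2 - Md a / 2))) fun u =>
      fib_nc (hC.far a) (hM a) (hC.size a) u hs

end Vale.Agent.P318.D
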