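import Vale.Agent.P318.D.Stmt
import Vale.Agent.P318.RAff
import Vale.Agent.P318.RHash

/-!
Track D: the pieces of the proof of `SysStmt`.
-/

namespace Vale.Agent.P318.D

open Finset
open scoped BigOperators
open Vale.Agent.P318.R (ang pr syn DualFar FibA rowA SG)

section

variable {ι A : Type}

/-- The coordinates: a block `⟨a, v⟩` of the partition `a` has `Md a` coordinates. -/
abbrev Co (m Md : A → ℕ) : Type := Σ b : (Σ a : A, Fin (m a)), Fin (Md b.1)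

/-- The column with parts `x a`, placed in the blocks of `i`. -/
def col {m Md : A → ℕ} (π : (a : A) → ι → Fin (m a)) (i : ι) (x : (a : A) → Fin (Md a) → ℤ)
    (l : Co m Md) : ℤ :=
  if π l.1.1 i = l.1.2 then x l.1.1 l.2 else 0

variable [Fintype ι] [DecidableEq ι] [Fintype A] [DecidableEq A]

/-- The system given by partitions and parts. -/
noncomputable def mkSys (q : ℕ) [Fact q.Prime] {m Md : A → ℕ} (π : (a : A) → ι → Fin (m a))
    (x : ι → (a : A) → Fin (Md a) → ℤ) (D : A → ℕ) : Sys where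
  q := q
  hq := inferInstance
  Λ := Co m Md
  ι := ι
  B := Σ a : A, Fin (m a)
  P := A
  fΛ := inferInstance
  dΛ := inferInstance
  fι := inferInstance
  dι := inferInstance
  fB := inferInstance
  dB := inferInstance
  fP := inferInstance
  dP := inferInstance
  blk := fun l => l.1
  own := fun b => b.1
  pb := fun a i => ⟨a, π a i⟩
  n := fun i => col π i (x i)
  ν := fun a => (Md a : ℝ) / 2
  D := D

/-- The pairing of a column with a point of the group. -/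
def cdot {q : ℕ} {m Md : A → ℕ} (π : (a : A) → ι → Fin (m a)) (i : ι)
    (x : (a : A) → Fin (Md a) → ℤ) (γ : Co m Md → ZMod q) : ZMod q :=
  ∑ l, (col π i x l : ZMod q) * γ l

/-- Parity checks `H a` for the blocks of the partition `a`; the checks of the dense partition
`a0` are coupled by `G` to the other coordinates. -/
structure Chk {q : ℕ} {m Md : A → ℕ} (a0 : A) {κ : A → Type} [∀ a, Fintype (κ a)]
    (H : (a : A) → κ a → Fin (Md a) → ZMod q) (G : κ a0 → Co m Md → ZMod q) (h : ℕ) : Prop where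
  far : ∀ a, DualFar (H a)
  size : ∀ a, (q : ℝ) ^ Fintype.card (κ a) ≤ Real.exp (Md a / 50)
  G0 : ∀ k (l : Co m Md), l.1.1 = a0 → G k l = 0
  short : ∀ a, a ≠ a0 → ∀ z : Fin (Md a) → ℤ, z ≠ 0 → syn (H a) z = 0 →
    (Md a : ℝ) / 10000 < ∑ j, (z j : ℝ) ^ 2
  short0 : ∀ z : Fin (Md a0) → ℤ, z ≠ 0 → (∀ k, G k = 0 → syn (H a0) z k = 0) →
    (Md a0 : ℝ) / 10000 < ∑ j, (z j : ℝ) ^ 2
  glue : ∀ ξ : Co m Md → ZMod q, (∀ l : Co m Md, l.1.1 = a0 → ξ l = 0) →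
    (univ.filter fun l => ξ l ≠ 0).card ≤ h → (∀ k, ∑ l, G k l * ξ l = 0) → ξ = 0

/-- The sample space of one column. -/
abbrev Smp {q : ℕ} {Md : A → ℕ} (a0 : A) {κ : A → Type}
    (H : (a : A) → κ a → Fin (Md a) → ZMod q) : Type :=
  ((a : A) → FibA (H a) 0) × ((u : κ a0 → ZMod q) → FibA (H a0) u)

/-- The parts of the random column: the part in the dense block has the syndrome that is
prescribed by the other parts. -/
def prt {q : ℕ} {m Md : A → ℕ} (a0 : A) {κ : A → Type} (H : (a : A) → κ a → Fin (Md a) → ZMod q)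
    (G : κ a0 → Co m Md → ZMod q) (π : (a : A) → ι → Fin (m a)) (i : ι) (ω : Smp a0 H) :
    (a : A) → Fin (Md a) → ℤ :=
  Function.update (fun a => rowA (ω.1 a)) a0
    (rowA (ω.2 fun k => -cdot π i (fun a => rowA (ω.1 a)) (G k)))

/-- Entries, moment bounds and parity checks of the random columns. -/
structure Law1 (q : ℕ) [Fact q.Prime] {m Md : A → ℕ} (a0 : A) (π : (a : A) → ι → Fin (m a))
    {Ω : Type} [Fintype Ω] (ρ : ι → Ω → (a : A) → Fin (Md a) → ℤ) (h : ℕ) : Prop where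
  ne : Nonempty Ω
  ent : ∀ i ω a j, ρ i ω a j = 0 ∨ ρ i ω a j = 1 ∨ ρ i ω a j = -1
  sg : ∀ i a, SG (fun ω j => (ρ i ω a j : ℝ)) 2
  nc : ∀ i a (s : ℝ), |s| ≤ 1 →
    𝔼 ω, Real.exp (s * (∑ j, (ρ i ω a j : ℝ) ^ 2 - Md a / 2)) ≤ 2 * Real.exp (s ^ 2 * Md a / 8)
  code : ∀ (x : ι → Ω) (D : A → ℕ), (mkSys q π (fun i => ρ i (x i)) D).Code a0 5000 h

/-- The characteristic function of the random columns. -/
def Law2 (q : ℕ) {m Md : A → ℕ} (π : (a : A) → ι → Fin (m a)) {Ω : Type} [Fintype Ω]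
    (ρ : ι → Ω → (a : A) → Fin (Md a) → ℤ) : Prop :=
  ∀ γ : Co m Md → ZMod q, ∃ γ' : Co m Md → ZMod q,
    (∀ i ω, cdot π i (ρ i ω) γ = cdot π i (ρ i ω) γ') ∧
    ∀ (l : Co m Md) (i : ι), π l.1.1 i = l.1.2 →
      3 * (cen (γ' l) / q) ^ 2 ≤ 𝔼 ω, (1 - Real.cos (ang (cdot π i (ρ i ω) γ')))

end

/-- Existence of the parity checks. -/
def ChkStmt : Prop :=
  ∀ (q : ℕ) [Fact q.Prime] (A : Type) [Fintype A] [DecidableEq A] (a0 : A) (m Md : A → ℕ) (h : ℕ),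
    (∀ a, 400 ≤ Md a) → (∀ a, Md a ≤ q) → (∀ a, 200 * Real.log q ≤ Md a) →
    100 * h * Real.log q ≤ Md a0 → Fintype.card (Co m Md) ≤ q →
    ∃ (κ : A → Type) (_ : ∀ a, Fintype (κ a)) (_ : ∀ a, DecidableEq (κ a))
      (H : (a : A) → κ a → Fin (Md a) → ZMod q) (G : κ a0 → Co m Md → ZMod q), Chk a0 H G h

/-- The first part of the law. -/
def Law1Stmt : Prop :=
  ∀ (q : ℕ) [Fact q.Prime] (ι A : Type) [Fintype ι] [DecidableEq ι] [Fintype A] [DecidableEq A]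
    (a0 : A) (m Md : A → ℕ) (h : ℕ) (κ : A → Type) [∀ a, Fintype (κ a)] [∀ a, DecidableEq (κ a)]
    (H : (a : A) → κ a → Fin (Md a) → ZMod q) (G : κ a0 → Co m Md → ZMod q)
    (π : (a : A) → ι → Fin (m a)), m a0 = 1 → (∀ a, 400 ≤ Md a) → Chk a0 H G h →
    Law1 q a0 π (prt a0 H G π) h

/-- The second part of the law. -/
def Law2Stmt : Prop :=
  ∀ (q : ℕ) [Fact q.Prime] (ι A : Type) [Fintype ι] [DecidableEq ι] [Fintype A] [DecidableEq A]
    (a0 : A) (m Md : A → ℕ) (h : ℕ) (κ : A → Type) [∀ a, Fintype (κ a)] [∀ a, DecidableEq (κ a)]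
    (H : (a : A) → κ a → Fin (Md a) → ZMod q) (G : κ a0 → Co m Md → ZMod q)
    (π : (a : A) → ι → Fin (m a)), m a0 = 1 → (∀ a, 400 ≤ Md a) →
    (∀ a, 200 * Real.log q ≤ Md a) → Chk a0 H G h → Law2 q π (prt a0 H G π)

/-- Restricted isometry of independent rows. -/
def RipExStmt : Prop :=
  ∃ C : ℝ, 1 ≤ C ∧ ∀ (α Ω κ : Type) [Fintype α] [DecidableEq α] [Fintype Ω] [Nonempty Ω]
    [Fintype κ] [DecidableEq κ] (ρ : α → Ω → κ → ℝ) (J : Finset α) (s : ℕ) (δ : ℝ),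
    0 < δ → δ ≤ 1 / 4 → (∀ i ∈ J, SG (ρ i) 2) →
    (∀ i ∈ J, ∀ t : ℝ, |t| ≤ 1 →
      𝔼 ω, Real.exp (t * (∑ j, ρ i ω j ^ 2 - Fintype.card κ / 2)) ≤
        2 * Real.exp (t ^ 2 * Fintype.card κ / 8)) →
    C * (s + 1) * Real.log (Fintype.card α + 2) ≤ δ ^ 2 * Fintype.card κ →
    pr (fun w : α → Ω => ¬ ∀ T ⊆ J, T.card ≤ s → ∀ x : α → ℝ,
      (1 - δ) * (Fintype.card κ / 2) * ∑ i ∈ T, x i ^ 2 ≤ ∑ j, (∑ i ∈ T, x i * ρ i (w i) j) ^ 2 ∧
      ∑ j, (∑ i ∈ T, x i * ρ i (w i) j) ^ 2 ≤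
        (1 + δ) * (Fintype.card κ / 2) * ∑ i ∈ T, x i ^ 2) ≤
      (4 * Fintype.card α + 4) * Real.exp (-(δ ^ 2 * Fintype.card κ / C))

/-- The increments are spread over many columns. -/
def SpreadExStmt : Prop :=
  ∀ (q : ℕ) [Fact q.Prime] (ι A : Type) [Fintype ι] [DecidableEq ι] [Fintype A] [DecidableEq A]
    (m Md : A → ℕ) (π : (a : A) → ι → Fin (m a)) (Ω : Type) [Fintype Ω] [Nonempty Ω]
    (ρ : ι → Ω → (a : A) → Fin (Md a) → ℤ) (D : A → ℕ) (n0 Ne : ℝ),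
    (∀ i ω a j, ρ i ω a j = 0 ∨ ρ i ω a j = 1 ∨ ρ i ω a j = -1) → Law2 q π ρ →
    (∀ (a : A) (v : Fin (m a)), n0 ≤ (univ.filter fun i => π a i = v).card) →
    14 * Ne * (Fintype.card (Co m Md) : ℝ) ^ 2 ≤ n0 →
    60 * (Fintype.card (Co m Md) : ℝ) ^ 2 * (Fintype.card (Co m Md) * Real.log q + 2) ≤ n0 →
    pr (fun x : ι → Ω => ¬ (mkSys q π (fun i => ρ i (x i)) D).Spread Ne) ≤ 1 / 4

/-- Balanced and expanding partitions. -/
def HashDStmt : Prop :=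
  ∀ (ι A : Type) [Fintype ι] [DecidableEq ι] [Fintype A] [DecidableEq A] (m lev : A → ℕ) (L : ℕ)
    (s : ℕ → ℝ) (η : ℝ), 0 < η → η ≤ 1 → (∀ a, 1 ≤ m a) → 16 * (L + 1) ≤ Fintype.card ι →
    (∀ a, 64 * Fintype.card A * (m a) ^ 2 ≤ Fintype.card ι) →
    (∀ a, 1 ≤ lev a → 8 * s (lev a) ≤ η * m a) →
    (∀ k, 1 ≤ k → k ≤ L →
      8 * Real.log (Fintype.card ι) ≤ η * (univ.filter fun a => lev a = k).card) →
    ∃ π : (a : A) → ι → Fin (m a),
      (∀ (a : A) (v : Fin (m a)),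
        (Fintype.card ι : ℝ) / (2 * m a) ≤ (univ.filter fun i => π a i = v).card) ∧
      ∀ k, 1 ≤ k → k ≤ L → ∀ T : Finset ι, (T.card : ℝ) ≤ s k →
        (1 - η) * (univ.filter fun a => lev a = k).card * T.card ≤
          ∑ a ∈ univ.filter fun a => lev a = k, ((T.image (π a)).card : ℝ)

/-- A system from partitions, with all properties that need random columns. -/
def ColStmt : Prop :=
  ∃ C : ℝ, 1 ≤ C ∧ ∀ (q : ℕ) [Fact q.Prime] (ι A : Type) [Fintype ι] [DecidableEq ι] [Fintype A]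
    [DecidableEq A] (a0 : A) (m Md D : A → ℕ) (h : ℕ) (π : (a : A) → ι → Fin (m a))
    (δ n0 Ne : ℝ), 0 < δ → δ ≤ 1 / 4 → 100 ≤ q → m a0 = 1 → (∀ a, 400 ≤ Md a) →
    (∀ a, Md a ≤ q) → (∀ a, 200 * Real.log q ≤ Md a) → 100 * h * Real.log q ≤ Md a0 →
    Fintype.card (Co m Md) ≤ q → Fintype.card ι ≤ q → (∀ a, 1 ≤ D a) →
    (∀ a, C * (D a + 1) * Real.log (Fintype.card ι + 2) ≤ δ ^ 2 * Md a) →
    (∀ a, C * Real.log q ≤ δ ^ 2 * Md a) →
    (∀ (a : A) (v : Fin (m a)), n0 ≤ (univ.filter fun i => π a i = v).card) →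
    14 * Ne * (Fintype.card (Co m Md) : ℝ) ^ 2 ≤ n0 →
    60 * (Fintype.card (Co m Md) : ℝ) ^ 2 * (Fintype.card (Co m Md) * Real.log q + 2) ≤ n0 →
    ∃ x : ι → (a : A) → Fin (Md a) → ℤ, (mkSys q π x D).WF ∧ (mkSys q π x D).RIP δ ∧
      (mkSys q π x D).Code a0 5000 h ∧ (mkSys q π x D).Spread Ne

end Vale.Agent.P318.D
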