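import Mathlib.Analysis.SpecialFunctions.Trigonometric.Bounds
import Vale.Agent.P318.D.SysStmt

/-!
Track D: the characteristic function of the random columns.
-/

namespace Vale.Agent.P318.D

open Finset
open scoped BigOperators
open Vale.Agent.P318.R

namespace Law2P

section One

variable {p : ℕ} [Fact p.Prime] {ι κ : Type} [Fintype ι] [Fintype κ]

/-- The characteristic function of the product law. -/
noncomputable def Ph (g : ι → ZMod p) : ℝ := ∏ j, (1 + Real.cos (ang (g j))) / 2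

/-- The vector `g` is closer to zero than to the other dual code words. -/
def Red (H : κ → ι → ZMod p) (g : ι → ZMod p) : Prop :=
  ∀ y, y ≠ 0 → Ph (g + dualv H y) ≤ Real.exp (-(Fintype.card ι / 16))

theorem cos_ang_add (u v : ZMod p) : Real.cos (ang (u + v)) = Real.cos (ang u + ang v) := by
  rw [cos_ang, AddChar.map_add_eq_mul, stdAddChar_eq, stdAddChar_eq, ← Complex.exp_add,
    ← Complex.exp_ofReal_mul_I_re]
  congr 2
  push_cast
  ring

theorem char_sum {α : Type} (s : Finset α) (f : α → ZMod p) :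
    (ZMod.stdAddChar (∑ j ∈ s, f j) : ℂ) = ∏ j ∈ s, ZMod.stdAddChar (f j) := by
  classical
  induction s using Finset.induction_on with
  | empty => simp
  | insert a s ha ih => rw [sum_insert ha, prod_insert ha, AddChar.map_add_eq_mul, ih]

theorem expect_char (x : ZMod p) :
    𝔼 s : Bool × Bool, (ZMod.stdAddChar (x * (sg s : ZMod p)) : ℂ) =
      (((1 + Real.cos (ang x)) / 2 : ℝ) : ℂ) := by
  have h := expect_exp_char 0 x
  simp only [zero_mul, Complex.exp_zero, one_mul, zero_add] at h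
  rw [h]
  push_cast
  rw [Complex.cos, neg_mul]
  ring

omit [Fact p.Prime] in
theorem half_mem (x : ZMod p) :
    0 ≤ (1 + Real.cos (ang x)) / 2 ∧ (1 + Real.cos (ang x)) / 2 ≤ 1 :=
  ⟨by linarith [Real.neg_one_le_cos (ang x)], by linarith [Real.cos_le_one (ang x)]⟩

omit [Fact p.Prime] in
theorem Ph_nonneg (g : ι → ZMod p) : 0 ≤ Ph g := prod_nonneg fun _ _ => (half_mem _).1

omit [Fact p.Prime] in
theorem Ph_le (g : ι → ZMod p) (j : ι) : Ph g ≤ (1 + Real.cos (ang (g j))) / 2 := by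
  classical
  rw [Ph, ← mul_prod_erase _ _ (mem_univ j)]
  exact mul_le_of_le_one_right (half_mem _).1
    (prod_le_one (fun _ _ => (half_mem _).1) fun _ _ => (half_mem _).2)

omit [Fact p.Prime] in
theorem Ph_le_one (g : ι → ZMod p) : Ph g ≤ 1 :=
  prod_le_one (fun _ _ => (half_mem _).1) fun _ _ => (half_mem _).2

theorem exists_red {H : κ → ι → ZMod p} (hH : DualFar H) (g : ι → ZMod p) :
    ∃ y, Red H (g + dualv H y) := by
  classical
  obtain ⟨y0, -, h0⟩ := exists_min_image univ (sig H fun j => ang (g j)) ⟨0, mem_univ _⟩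
  refine ⟨y0, fun y hy => ?_⟩
  have h1 := sig_add_sig' hH (fun j => ang (g j)) (y := y0 + y) (y' := y0) (by simpa using hy)
  have h2 := h0 (y0 + y) (mem_univ _)
  refine le_trans ?_ (Real.exp_le_exp.2 (show -sig H (fun j => ang (g j)) (y0 + y) ≤ _ by linarith))
  unfold sig Ph
  rw [← sum_neg_distrib, Real.exp_sum]
  refine prod_le_prod (fun _ _ => (half_mem _).1) fun j _ => ?_
  have e : (g + dualv H y0 + dualv H y) j = g j + dualv H (y0 + y) j := by
    simp [dualv, add_mul, sum_add_distrib, add_assoc]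
  rw [e, cos_ang_add]
  linarith [Real.add_one_le_exp (-((1 - Real.cos (ang (g j) + ang (dualv H (y0 + y) j))) / 2))]

variable [DecidableEq ι] [DecidableEq κ]

theorem cf {H : κ → ι → ZMod p} (hH : DualFar H) {g : ι → ZMod p} (hg : Red H g) {ε : ℝ}
    (hε : (p : ℝ) ^ Fintype.card κ * Real.exp (-(Fintype.card ι / 16)) ≤ ε) (u : κ → ZMod p) :
    ‖(𝔼 e : FibA H u, ZMod.stdAddChar (∑ j, (rowA e j : ZMod p) * g j) : ℂ) - Ph g‖ ≤ 2 * ε := by
  have h := fibA_fourier H u fun j n => ZMod.stdAddChar ((n : ZMod p) * g j)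
  have e1 : ∀ y : κ → ZMod p, ∏ j, 𝔼 s : Bool × Bool, (ZMod.stdAddChar ((sg s : ZMod p) * g j) *
      ZMod.stdAddChar (dualv H y j * (sg s : ZMod p)) : ℂ) = (Ph (g + dualv H y) : ℝ) := by
    intro y
    rw [Ph, Complex.ofReal_prod]
    refine prod_congr rfl fun j _ => ?_
    rw [← expect_char]
    refine expect_congr rfl fun s _ => ?_
    rw [← AddChar.map_add_eq_mul, Pi.add_apply]
    congr 1
    ring
  simp only [e1, ← char_sum] at h
  rw [← add_sum_erase _ _ (mem_univ 0), ← sub_eq_iff_eq_add'] at h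
  simp only [Pi.zero_apply, zero_mul, sum_const_zero, neg_zero, AddChar.map_zero_eq_one, dualv_zero,
    add_zero, one_mul] at h
  generalize hX : (𝔼 e : FibA H u, ZMod.stdAddChar (∑ j, (rowA e j : ZMod p) * g j) : ℂ) = X at h
  have h1 : ‖X‖ ≤ 1 := by
    rw [← hX]
    refine (RCLike.norm_expect_le (K := ℝ)).trans ?_
    simp only [norm_stdAddChar]
    rcases isEmpty_or_nonempty (FibA H u) with h0 | h0 <;> simp
  have h2 : ‖(mass H u : ℂ) * X - Ph g‖ ≤ ε := by
    rw [h]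
    refine (norm_sum_le _ _).trans ((sum_le_card_nsmul _ _
      (Real.exp (-(Fintype.card ι / 16))) fun y hy => ?_).trans (le_trans ?_ hε))
    · rw [norm_mul, norm_stdAddChar, one_mul, Complex.norm_real, Real.norm_of_nonneg (Ph_nonneg _)]
      exact hg y (mem_erase.1 hy).1
    · rw [nsmul_eq_mul]
      refine mul_le_mul_of_nonneg_right ?_ (Real.exp_pos _).le
      have : ((univ : Finset (κ → ZMod p)).erase 0).card ≤ p ^ Fintype.card κ := by
        refine card_erase_le.trans (le_of_eq ?_)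
        simp [ZMod.card]
      exact_mod_cast this
  have h3 : |mass H u - 1| ≤ ε := (abs_mass_sub_one hH u).trans (le_trans
    (mul_le_mul_of_nonneg_left (Real.exp_le_exp.2 (by
      have : (0 : ℝ) ≤ Fintype.card ι := by positivity
      linarith)) (by positivity)) hε)
  have h4 : ‖((mass H u - 1 : ℝ) : ℂ) * X‖ ≤ ε := by
    rw [norm_mul, Complex.norm_real, Real.norm_eq_abs]
    exact (mul_le_of_le_one_right (abs_nonneg _) h1).trans h3
  calc _ = ‖((mass H u : ℂ) * X - Ph g) - ((mass H u - 1 : ℝ) : ℂ) * X‖ := by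
        congr 1
        push_cast
        ring
    _ ≤ _ := (norm_sub_le _ _).trans (by linarith)

omit [Fintype ι] [Fintype κ] [DecidableEq ι] [DecidableEq κ] in
theorem half_le (z : ZMod p) : (1 + Real.cos (ang z)) / 2 ≤ 1 - 4 * (cen z / p) ^ 2 := by
  have hp : (0 : ℝ) < p := Nat.cast_pos.2 (Fact.out : p.Prime).pos
  have h1 : Real.cos (ang z) = Real.cos (2 * Real.pi * (cen z / p)) := by
    rw [cos_ang, ← Complex.exp_ofReal_mul_I_re]
    conv_lhs => rw [← ZMod.coe_valMinAbs z, ZMod.stdAddChar_coe]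
    congr 2
    unfold cen
    push_cast
    ring
  have h2 : |cen z| ≤ p / 2 := by
    have h : ((z.valMinAbs.natAbs : ℕ) : ℝ) ≤ ((p / 2 : ℕ) : ℝ) :=
      Nat.cast_le.2 (ZMod.natAbs_valMinAbs_le z)
    rw [Nat.cast_natAbs, Int.cast_abs] at h
    exact h.trans Nat.cast_div_le
  have h3 := Real.cos_le_one_sub_mul_cos_sq (x := 2 * Real.pi * (cen z / p)) (by
    rw [abs_mul, abs_of_pos (by positivity), abs_div, abs_of_pos hp]
    have := mul_le_mul_of_nonneg_left ((div_le_iff₀ hp).2 (show |cen z| ≤ 1 / 2 * p by linarith))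
      (show 0 ≤ 2 * Real.pi by positivity)
    linarith)
  rw [show 2 / Real.pi ^ 2 * (2 * Real.pi * (cen z / p)) ^ 2 = 8 * (cen z / p) ^ 2 by
    field_simp; ring] at h3
  linarith

end One

variable {q : ℕ} {ι A : Type} [Fintype A] [DecidableEq A] {m Md : A → ℕ}

omit [DecidableEq A] in
theorem cdot_eq (π : (a : A) → ι → Fin (m a)) (i : ι) (x : (a : A) → Fin (Md a) → ℤ)
    (γ : Co m Md → ZMod q) :
    cdot π i x γ = ∑ a, ∑ j, (x a j : ZMod q) * γ ⟨⟨a, π a i⟩, j⟩ := by
  unfold cdot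
  rw [Fintype.sum_sigma, Fintype.sum_sigma]
  refine sum_congr rfl fun a _ => ?_
  rw [sum_eq_single (π a i) (fun v _ hv => sum_eq_zero fun j _ => by simp [col, hv.symm])
    (by simp)]
  simp [col]

theorem eps_le [Fact q.Prime] {r M : ℕ} (h1 : (q : ℝ) ^ r ≤ Real.exp (M / 50))
    (h2 : 200 * Real.log q ≤ M) : (q : ℝ) ^ r * Real.exp (-(M / 16)) ≤ (1 / q) ^ 2 / 4 := by
  have hq : (2 : ℝ) ≤ q := by exact_mod_cast (Fact.out : q.Prime).two_le
  have h3 : 0 ≤ Real.log q := Real.log_nonneg (by linarith)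
  calc (q : ℝ) ^ r * Real.exp (-(M / 16)) ≤ Real.exp (M / 50) * Real.exp (-(M / 16)) :=
        mul_le_mul_of_nonneg_right h1 (Real.exp_pos _).le
    _ ≤ Real.exp (-((4 : ℕ) * Real.log q)) := by
        rw [← Real.exp_add]
        exact Real.exp_le_exp.2 (by push_cast; linarith)
    _ = (1 / q) ^ 2 / q ^ 2 := by
        rw [Real.exp_neg, ← Real.log_pow, Real.exp_log (by positivity)]
        field_simp
    _ ≤ _ := div_le_div_of_nonneg_left (by positivity) (by norm_num) (by nlinarith)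

variable {a0 : A} {κ : A → Type} [∀ a, Fintype (κ a)] {H : (a : A) → κ a → Fin (Md a) → ZMod q}
  {G : κ a0 → Co m Md → ZMod q} {π : (a : A) → ι → Fin (m a)}

theorem cdot_shift (hG : ∀ k (l : Co m Md), l.1.1 = a0 → G k l = 0) (γ : Co m Md → ZMod q)
    (Y : (b : Σ a, Fin (m a)) → κ b.1 → ZMod q) (i : ι) (ω : Smp a0 H) :
    cdot π i (prt a0 H G π i ω) (fun l => γ l + ∑ k, Y ⟨a0, π a0 i⟩ k * G k l +
      dualv (H l.1.1) (Y l.1) l.2) = cdot π i (prt a0 H G π i ω) γ := by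
  have h1 : ∀ k, cdot π i (prt a0 H G π i ω) (G k) =
      cdot π i (fun a => rowA (ω.1 a)) (G k) := fun k => by
    rw [cdot_eq, cdot_eq]
    refine sum_congr rfl fun a _ => sum_congr rfl fun j _ => ?_
    by_cases ha : a = a0
    · rw [hG k _ ha, mul_zero, mul_zero]
    · rw [prt, Function.update_of_ne ha]
  have h2 : cdot π i (prt a0 H G π i ω) (fun l => dualv (H l.1.1) (Y l.1) l.2) =
      -∑ k, Y ⟨a0, π a0 i⟩ k * cdot π i (prt a0 H G π i ω) (G k) := by
    rw [cdot_eq]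
    simp only [mul_comm ((prt a0 H G π i ω _ _ : ℤ) : ZMod q), h1]
    rw [sum_eq_single a0 (fun a _ ha => (dot_syn (H a) _ (prt a0 H G π i ω a)).symm.trans (by
      simp [prt, Function.update_of_ne ha, syn_rowA])) (by simp)]
    exact (dot_syn (H a0) _ (prt a0 H G π i ω a0)).symm.trans (by simp [prt, syn_rowA])
  rw [← add_zero (cdot π i (prt a0 H G π i ω) γ), ← add_neg_cancel
    (∑ k, Y ⟨a0, π a0 i⟩ k * cdot π i (prt a0 H G π i ω) (G k)), ← h2]
  simp only [cdot, mul_add, sum_add_distrib, mul_sum, add_assoc, add_right_inj, add_left_inj]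
  rw [sum_comm]
  exact sum_congr rfl fun k _ => sum_congr rfl fun l _ => mul_left_comm _ _ _

theorem norm_le [Fact q.Prime] [∀ a, DecidableEq (κ a)] (hH : ∀ a, DualFar (H a)) {ε : ℝ}
    (hε : ∀ a, (q : ℝ) ^ Fintype.card (κ a) * Real.exp (-(Fintype.card (Fin (Md a)) / 16)) ≤ ε)
    (hne : ∀ a u, Nonempty (FibA (H a) u)) {γ : Co m Md → ZMod q} (i : ι)
    (hγ : ∀ a, Red (H a) fun j => γ ⟨⟨a, π a i⟩, j⟩) (a : A) (j : Fin (Md a)) :
    ‖(𝔼 ω, ZMod.stdAddChar (cdot π i (prt a0 H G π i ω) γ) : ℂ)‖ ≤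
      (1 + Real.cos (ang (γ ⟨⟨a, π a i⟩, j⟩))) / 2 + 4 * ε := by
  have hε0 : 0 ≤ ε := le_trans (by positivity) (hε a0)
  let c : (a : A) → (Fin (Md a) → ℤ) → ℂ := fun a x =>
    ZMod.stdAddChar (∑ j, (x j : ZMod q) * γ ⟨⟨a, π a i⟩, j⟩)
  let Φ : A → ℝ := fun a => Ph fun j => γ ⟨⟨a, π a i⟩, j⟩
  have c1 : ∀ a x, ‖c a x‖ = 1 := fun a x => norm_stdAddChar _
  have c2 : ∀ a u, ‖(𝔼 e : FibA (H a) u, c a (rowA e)) - Φ a‖ ≤ 2 * ε := fun a u =>
    cf (hH a) (hγ a) (hε a) u
  have c3 : ∀ a, ‖𝔼 e : FibA (H a) 0, c a (rowA e)‖ ≤ 1 := fun a =>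
    (RCLike.norm_expect_le (K := ℝ)).trans (by simp [c1])
  have e1 : (𝔼 ω, ZMod.stdAddChar (cdot π i (prt a0 H G π i ω) γ) : ℂ) =
      𝔼 w : (a : A) → FibA (H a) 0, (∏ a ∈ univ.erase a0, c a (rowA (w a))) *
        𝔼 e : FibA (H a0) fun k => -cdot π i (fun a => rowA (w a)) (G k), c a0 (rowA e) := by
    rw [← univ_product_univ, expect_product]
    refine expect_congr rfl fun w _ => ?_
    have := expect_prod_pi_mem {fun k => -cdot π i (fun a => rowA (w a)) (G k)}
      fun (u : κ a0 → ZMod q) (e : FibA (H a0) u) => c a0 (rowA e)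
    simp only [prod_singleton] at this
    rw [← this, mul_expect]
    refine expect_congr rfl fun w' _ => ?_
    rw [cdot_eq, char_sum, ← prod_erase_mul _ _ (mem_univ a0)]
    congr 1
    · exact prod_congr rfl fun a ha => by rw [prt, Function.update_of_ne (mem_erase.1 ha).1]
    · rw [prt, Function.update_self]
  have e2 : ‖(𝔼 ω, ZMod.stdAddChar (cdot π i (prt a0 H G π i ω) γ) : ℂ) -
      (∏ a ∈ univ.erase a0, 𝔼 e : FibA (H a) 0, c a (rowA e)) * Φ a0‖ ≤ 2 * ε := by
    rw [e1, ← expect_prod_pi_mem, expect_mul, ← expect_sub_distrib]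
    refine (RCLike.norm_expect_le (K := ℝ)).trans (expect_le univ_nonempty fun w _ => ?_)
    rw [← mul_sub, norm_mul, norm_prod]
    simp only [c1, prod_const_one, one_mul]
    exact c2 a0 _
  have e3 : ‖(∏ a ∈ univ.erase a0, 𝔼 e : FibA (H a) 0, c a (rowA e)) * Φ a0‖ ≤ Φ a + 2 * ε := by
    rw [norm_mul, norm_prod, Complex.norm_real, Real.norm_of_nonneg (Ph_nonneg _)]
    by_cases ha : a = a0
    · rw [ha]
      exact (mul_le_of_le_one_left (Ph_nonneg _)
        (prod_le_one (fun _ _ => norm_nonneg _) fun a _ => c3 a)).trans (by linarith)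
    · refine (mul_le_of_le_one_right (by positivity) (Ph_le_one _)).trans ?_
      rw [← mul_prod_erase _ _ (mem_erase.2 ⟨ha, mem_univ a⟩)]
      refine (mul_le_of_le_one_right (norm_nonneg _)
        (prod_le_one (fun _ _ => norm_nonneg _) fun a _ => c3 a)).trans ?_
      have := norm_le_insert' (𝔼 e : FibA (H a) 0, c a (rowA e)) (Φ a)
      rw [Complex.norm_real, Real.norm_of_nonneg (Ph_nonneg _)] at this
      exact this.trans (add_le_add le_rfl (c2 a 0))
  have e4 : Φ a ≤ _ := Ph_le _ j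
  linarith [norm_le_insert' (𝔼 ω, ZMod.stdAddChar (cdot π i (prt a0 H G π i ω) γ) : ℂ)
    ((∏ a ∈ univ.erase a0, 𝔼 e : FibA (H a) 0, c a (rowA e)) * Φ a0)]

end Law2P

open Law2P in
theorem law2_proof : Law2Stmt := by
  intro q _ ι A _ _ _ _ a0 m Md h κ _ _ H G π hm _ hlog hC γ
  have hq : (2 : ℝ) ≤ q := by exact_mod_cast (Fact.out : q.Prime).two_le
  choose Mn hMn using fun a => exists_red (hC.far a)
  have hv : ∀ v v' : Fin (m a0), v = v' := fun v v' => Fin.ext (by omega)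
  let y0 := Mn a0 fun j => γ ⟨⟨a0, ⟨0, by omega⟩⟩, j⟩
  let γ1 : Co m Md → ZMod q := fun l => γ l + ∑ k, y0 k * G k l
  let Y : (b : Σ a, Fin (m a)) → κ b.1 → ZMod q := fun b => Mn b.1 fun j => γ1 ⟨b, j⟩
  have hY : ∀ v, Y ⟨a0, v⟩ = y0 := fun v => by
    rw [hv v ⟨0, by omega⟩]
    simp [Y, γ1, y0, hC.G0]
  have hε : ∀ a, (q : ℝ) ^ Fintype.card (κ a) * Real.exp (-(Fintype.card (Fin (Md a)) / 16)) ≤
      (1 / q) ^ 2 / 4 := fun a => by simpa using eps_le (hC.size a) (hlog a)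
  have hne : ∀ a u, Nonempty (FibA (H a) u) := fun a u => fibA_nonempty (hC.far a) u
    (le_trans (mul_le_mul_of_nonneg_left (Real.exp_le_exp.2 (by
      have : (0 : ℝ) ≤ Fintype.card (Fin (Md a)) := by positivity
      linarith)) (by positivity)) ((hε a).trans (by
        have : 1 / (q : ℝ) ≤ 1 := by rw [div_le_one] <;> linarith
        have := pow_le_one₀ (n := 2) (by positivity) this
        linarith)))
  refine ⟨fun l => γ1 l + dualv (H l.1.1) (Y l.1) l.2, fun i ω => ?_, ?_⟩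
  · rw [← cdot_shift hC.G0 γ Y i ω, hY]
  · rintro ⟨⟨a, v⟩, j⟩ i hi
    obtain rfl : π a i = v := hi
    generalize hγ : (fun l : Co m Md => γ1 l + dualv (H l.1.1) (Y l.1) l.2) = γ'
    have h1 := norm_le (G := G) (π := π) hC.far hε hne (γ := γ') i
      (fun a => hγ ▸ hMn a fun j => γ1 ⟨⟨a, π a i⟩, j⟩) a j
    by_cases h0 : γ' ⟨⟨a, π a i⟩, j⟩ = 0
    · rw [h0]
      simpa [cen] using expect_nonneg fun ω _ => sub_nonneg.2 (Real.cos_le_one _)
    · have h2 := half_le (γ' ⟨⟨a, π a i⟩, j⟩)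
      have h3 : (1 / q : ℝ) ^ 2 ≤ (cen (γ' ⟨⟨a, π a i⟩, j⟩) / q) ^ 2 := by
        rw [div_pow, div_pow, one_pow]
        refine div_le_div_of_nonneg_right ?_ (by positivity)
        have := Int.one_le_abs (mt (ZMod.valMinAbs_eq_zero _).1 h0)
        rw [one_le_sq_iff_one_le_abs, cen]
        exact_mod_cast this
      simp only [cos_ang]
      rw [expect_sub_distrib, ← Complex.re_expect, Fintype.expect_const]
      linarith [Complex.re_le_norm (𝔼 ω, ZMod.stdAddChar (cdot π i (prt a0 H G π i ω) γ') : ℂ)]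

end Vale.Agent.P318.D
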