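import Vale.Agent.P318.D.Stmt

/-!
Track D: the argument over the levels.
-/

set_option linter.dupNamespace false

namespace Vale.Agent.P318.D

open Finset
open scoped BigOperators

namespace Level

theorem ind_pos {p : Prop} (h : p) : ind p = 1 := by
  unfold ind
  rw [if_pos h]

theorem ind_neg {p : Prop} (h : ¬ p) : ind p = 0 := by
  unfold ind
  rw [if_neg h]

theorem ind_nonneg (p : Prop) : 0 ≤ ind p := by
  by_cases h : p
  · rw [ind_pos h]; norm_num
  · rw [ind_neg h]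

theorem ind_mono {p q : Prop} (h : p → q) : ind p ≤ ind q := by
  by_cases hp : p
  · rw [ind_pos hp, ind_pos (h hp)]
  · rw [ind_neg hp]; exact ind_nonneg q

variable {Ω : Type} {L : ℕ} {ν : ℕ → Ω → ℝ}

theorem Fk_range (k : ℕ) (ω : Ω) :
    Fk L ν k ω = ∑ i ∈ range (L + 1 - k), 2 ^ i * ν (k + i) ω := by
  unfold Fk
  rw [← Finset.Ico_add_one_right_eq_Icc, Finset.sum_Ico_eq_sum_range]
  refine Finset.sum_congr rfl fun i _ => ?_
  rw [Nat.add_sub_cancel_left]

theorem Fk_succ {k : ℕ} (hk : k + 1 ≤ L) (ω : Ω) :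
    Fk L ν k ω = ν k ω + 2 * Fk L ν (k + 1) ω := by
  rw [Fk_range, Fk_range]
  have h : L + 1 - k = (L + 1 - (k + 1)) + 1 := by omega
  rw [h, Finset.sum_range_succ', Finset.mul_sum, add_comm]
  congr 1
  · simp
  · refine Finset.sum_congr rfl fun i _ => ?_
    have : k + (i + 1) = k + 1 + i := by omega
    rw [this, pow_succ]
    ring

theorem Fk_top (ω : Ω) : Fk L ν L ω = ν L ω := by
  unfold Fk
  simp

theorem Fk_nonneg (hν : ∀ j ω, 0 ≤ ν j ω) (k : ℕ) (ω : Ω) : 0 ≤ Fk L ν k ω :=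
  Finset.sum_nonneg fun j _ => mul_nonneg (by positivity) (hν j ω)

theorem le_Fk (hν : ∀ j ω, 0 ≤ ν j ω) {k : ℕ} (hk : k ≤ L) (ω : Ω) : ν k ω ≤ Fk L ν k ω := by
  have h := Finset.single_le_sum (f := fun j => (2 : ℝ) ^ (j - k) * ν j ω) (s := Icc k L)
    (fun j _ => mul_nonneg (by positivity) (hν j ω)) (Finset.mem_Icc.2 ⟨le_rfl, hk⟩)
  simpa [Fk] using h

/-- A sequence that at least halves in every step. -/
theorem halves_sum (F : ℕ → ℝ) (A : ℝ) (hA : 0 < A) (n : ℕ)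
    (hF : ∀ k, k < n → 2 * F (k + 1) ≤ F k) :
    ∑ k ∈ range n, (F (k + 1))⁻¹ * ind (A < F (k + 1)) ≤ 2 / max A (F n) := by
  induction n with
  | zero =>
    simp only [range_zero, sum_empty]
    have : 0 < max A (F 0) := lt_max_of_lt_left hA
    positivity
  | succ n ih =>
    have ih' := ih fun k hk => hF k (by omega)
    have h2 := hF n (by omega)
    rw [Finset.sum_range_succ]
    by_cases h : A < F (n + 1)
    · have hp : 0 < F (n + 1) := hA.trans h
      rw [ind_pos h, max_eq_right h.le, mul_one]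
      have h3 : 2 / max A (F n) ≤ 2 / (2 * F (n + 1)) :=
        div_le_div_of_nonneg_left (by norm_num) (by positivity) (h2.trans (le_max_right _ _))
      have h4 : 2 / (2 * F (n + 1)) + (F (n + 1))⁻¹ = 2 / F (n + 1) := by
        field_simp
        norm_num
      linarith
    · rw [ind_neg h, max_eq_left (not_lt.1 h), mul_zero, add_zero]
      exact ih'.trans (div_le_div_of_nonneg_left (by norm_num) hA (le_max_left _ _))

theorem mul_exp_le {x : ℝ} (hx : 0 < x) : Real.exp (-(2 * x)) * x ≤ x⁻¹ := by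
  have h1 : x ≤ Real.exp x := by linarith [Real.add_one_le_exp x]
  have h2 : Real.exp (-(2 * x)) = (Real.exp x * Real.exp x)⁻¹ := by
    rw [← Real.exp_add, ← Real.exp_neg]
    congr 1
    ring
  have h3 : 0 < Real.exp x := Real.exp_pos x
  rw [h2, inv_mul_le_iff₀ (by positivity), ← div_eq_mul_inv, le_div_iff₀ hx]
  exact mul_le_mul h1 h1 hx.le h3.le

/-- The pointwise bound of the heavy part. -/
theorem heavy_le (hν : ∀ j ω, 0 ≤ ν j ω) {μ : ℕ → Ω → ℝ} {A : ℝ} (hA : 1 ≤ A) (ω : Ω)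
    (hμ : ∀ k, 1 ≤ k → k ≤ L → μ k ω ≤ Real.exp (-(2 * Fk L ν k ω))) :
    ∑ k ∈ range L, μ (k + 1) ω * Fk L ν (k + 1) ω * ind (A < Fk L ν (k + 1) ω) ≤
      2 / A * ind (1 < Fk L ν 0 ω) := by
  have hA0 : 0 < A := by linarith
  have hh : ∀ k, k < L → 2 * Fk L ν (k + 1) ω ≤ Fk L ν k ω := fun k hk => by
    rw [Fk_succ (k := k) hk]
    linarith [hν k ω]
  by_cases h0 : 1 < Fk L ν 0 ω
  · rw [ind_pos h0, mul_one]
    have h1 := halves_sum (fun k => Fk L ν k ω) A hA0 L hh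
    have h2 : 2 / max A (Fk L ν L ω) ≤ 2 / A :=
      div_le_div_of_nonneg_left (by norm_num) hA0 (le_max_left _ _)
    refine le_trans (Finset.sum_le_sum fun k hk => ?_) (h1.trans h2)
    have hk' := Finset.mem_range.1 hk
    by_cases h : A < Fk L ν (k + 1) ω
    · have hp : 0 < Fk L ν (k + 1) ω := hA0.trans h
      rw [ind_pos h, mul_one, mul_one]
      exact (mul_le_mul_of_nonneg_right (hμ (k + 1) (by omega) hk') hp.le).trans (mul_exp_le hp)
    · rw [ind_neg h, mul_zero, mul_zero]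
  · rw [ind_neg h0, mul_zero]
    have hall : ∀ k, k ≤ L → Fk L ν k ω ≤ 1 := by
      intro k
      induction k with
      | zero => exact fun _ => not_lt.1 h0
      | succ k ih =>
        intro hk
        have h1 := hh k hk
        have h2 := ih (by omega)
        have h3 := Fk_nonneg (L := L) hν (k + 1) ω
        linarith
    refine le_of_eq (Finset.sum_eq_zero fun k hk => ?_)
    have hk' := Finset.mem_range.1 hk
    rw [ind_neg (not_lt.2 ((hall (k + 1) hk').trans hA)), mul_zero]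

/-- The first level at which the weighted activity drops below one. -/
theorem first_le (hν : ∀ j ω, 0 ≤ ν j ω) {μ : ℕ → Ω → ℝ} (ω : Ω)
    (hμ : ∀ k, 1 ≤ k → k ≤ L → Real.exp (-(4 * Fk L ν k ω)) ≤ μ k ω) :
    ind (1 < Fk L ν 0 ω) ≤
      ν L ω + Real.exp 4 * ∑ k ∈ range L, μ (k + 1) ω * Fk L ν k ω := by
  have hterm : ∀ k ∈ range L, 0 ≤ μ (k + 1) ω * Fk L ν k ω := fun k hk =>
    mul_nonneg ((Real.exp_pos _).le.trans (hμ (k + 1) (by omega) (Finset.mem_range.1 hk)))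
      (Fk_nonneg hν k ω)
  have hs : 0 ≤ Real.exp 4 * ∑ k ∈ range L, μ (k + 1) ω * Fk L ν k ω :=
    mul_nonneg (Real.exp_pos _).le (Finset.sum_nonneg hterm)
  by_cases h0 : 1 < Fk L ν 0 ω
  · rw [ind_pos h0]
    by_cases hL : 1 < Fk L ν L ω
    · rw [Fk_top] at hL
      linarith
    · have hex : ∃ k, k < L ∧ 1 < Fk L ν k ω ∧ Fk L ν (k + 1) ω ≤ 1 := by
        by_contra hcon
        have hall : ∀ k, k ≤ L → 1 < Fk L ν k ω := by
          intro k
          induction k with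
          | zero => exact fun _ => h0
          | succ k ih =>
            intro hk
            by_contra h
            exact hcon ⟨k, hk, ih (by omega), not_lt.1 h⟩
        exact hL (hall L le_rfl)
      obtain ⟨k, hk, h1, h2⟩ := hex
      have h3 : Real.exp (-4) ≤ μ (k + 1) ω :=
        le_trans (Real.exp_le_exp.2 (by linarith)) (hμ (k + 1) (by omega) hk)
      have h4 : Real.exp (-4) * 1 ≤ μ (k + 1) ω * Fk L ν k ω :=
        mul_le_mul h3 h1.le (by norm_num) ((Real.exp_pos _).le.trans h3)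
      have h5 := Finset.single_le_sum hterm (Finset.mem_range.2 hk)
      have h6 : Real.exp 4 * (Real.exp (-4) * 1) = 1 := by
        rw [mul_one, ← Real.exp_add]
        simp
      have h7 := mul_le_mul_of_nonneg_left (h4.trans h5) (Real.exp_pos 4).le
      linarith [hν L ω]
  · rw [ind_neg h0]
    linarith [hν L ω]

theorem geo_le (m n : ℕ) :
    ∑ i ∈ range n, (2 : ℝ) ^ i * (16 ^ (m + 1) / 16 ^ (m + i)) ≤ 32 := by
  have h : ∀ i ∈ range n, (2 : ℝ) ^ i * (16 ^ (m + 1) / 16 ^ (m + i)) ≤ 16 * (1 / 2) ^ i := by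
    intro i _
    have h1 : (2 : ℝ) ^ i * (16 ^ (m + 1) / 16 ^ (m + i)) = 16 * (1 / 8) ^ i := by
      have h2 : (16 : ℝ) ^ i = 2 ^ i * 8 ^ i := by
        rw [← mul_pow]
        norm_num
      rw [pow_add, pow_add, h2, one_div, inv_pow]
      field_simp
    rw [h1]
    exact mul_le_mul_of_nonneg_left (pow_le_pow_left₀ (by norm_num) (by norm_num) i) (by norm_num)
  refine (Finset.sum_le_sum h).trans ?_
  rw [← Finset.mul_sum]
  have := sum_geometric_two_le n
  linarith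

/-- The bound for one level. -/
theorem one_level [Fintype Ω] {C1 C2 A : ℝ} (hC1 : 1 ≤ C1) (hC2 : 1 ≤ C2)
    {W μ : Ω → ℝ} {err : ℕ → ℝ} {m : ℕ} (hm : m < L) (hW : ∀ ω, 0 ≤ W ω)
    (hν : ∀ j ω, 0 ≤ ν j ω) (hνA : ∀ ω, ν m ω ≤ C2 * A) (herr : ∀ j, 0 ≤ err j)
    (hμ : ∀ ω, 0 ≤ μ ω)
    (hmain : ∑ ω, W ω * μ ω * ν (m + 1) ω ≤
      2 * ∑ ω, W ω * μ ω * ν (m + 1) ω * ind (A < ν (m + 1) ω) + err (m + 1))
    (hcross : ∀ j, j ≤ L → m ≤ j → j ≠ m + 1 → ∑ ω, W ω * μ ω * ν j ω ≤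
      C1 * (∑ ω, W ω * μ ω * ν j ω * ind (A < ν (m + 1) ω) +
        16 ^ (m + 1) / 16 ^ j * ∑ ω, W ω * μ ω * ν (m + 1) ω) + err j) :
    ∑ ω, W ω * (μ ω * Fk L ν m ω) ≤
      C1 * (C2 + 66) * ∑ ω, W ω * (μ ω * Fk L ν (m + 1) ω * ind (A < Fk L ν (m + 1) ω)) +
        (32 * C1 + 1) * ∑ i ∈ range (L + 1 - m), 2 ^ i * err (m + i) := by
  set a := ∑ ω, W ω * μ ω * ν (m + 1) ω with ha
  set H := ∑ ω, W ω * (μ ω * Fk L ν (m + 1) ω * ind (A < Fk L ν (m + 1) ω)) with hH
  set E := ∑ i ∈ range (L + 1 - m), 2 ^ i * err (m + i) with hE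
  have hWμ : ∀ ω, 0 ≤ W ω * μ ω := fun ω => mul_nonneg (hW ω) (hμ ω)
  have ha0 : 0 ≤ a := Finset.sum_nonneg fun ω _ => mul_nonneg (hWμ ω) (hν _ ω)
  have hH0 : 0 ≤ H := Finset.sum_nonneg fun ω _ =>
    mul_nonneg (hW ω) (mul_nonneg (mul_nonneg (hμ ω) (Fk_nonneg hν _ ω)) (ind_nonneg _))
  have hind : ∀ ω, ind (A < ν (m + 1) ω) ≤ ind (A < Fk L ν (m + 1) ω) := fun ω =>
    ind_mono fun h => h.trans_le (le_Fk hν hm ω)
  have hall : ∀ j, j ≤ L → m ≤ j → ∑ ω, W ω * μ ω * ν j ω ≤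
      C1 * (∑ ω, W ω * μ ω * ν j ω * ind (A < ν (m + 1) ω) + 16 ^ (m + 1) / 16 ^ j * a) +
        err j := by
    intro j h1 h2
    by_cases h3 : j = m + 1
    · subst h3
      have h4 : 0 ≤ ∑ ω, W ω * μ ω * ν (m + 1) ω * ind (A < ν (m + 1) ω) :=
        Finset.sum_nonneg fun ω _ => mul_nonneg (mul_nonneg (hWμ ω) (hν _ ω)) (ind_nonneg _)
      rw [div_self (by positivity), one_mul, ← ha]
      nlinarith [herr (m + 1)]
    · exact hcross j h1 h2 h3
  have haH : a ≤ 2 * H + E := by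
    have h1 : ∑ ω, W ω * μ ω * ν (m + 1) ω * ind (A < ν (m + 1) ω) ≤ H := by
      refine Finset.sum_le_sum fun ω _ => ?_
      have h2 : ν (m + 1) ω * ind (A < ν (m + 1) ω) ≤
          Fk L ν (m + 1) ω * ind (A < Fk L ν (m + 1) ω) :=
        mul_le_mul (le_Fk hν hm ω) (hind ω) (ind_nonneg _) (Fk_nonneg hν _ ω)
      have h3 := mul_le_mul_of_nonneg_left h2 (hWμ ω)
      linarith
    have h2 : 2 ^ 1 * err (m + 1) ≤ E :=
      Finset.single_le_sum (f := fun i => (2 : ℝ) ^ i * err (m + i))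
        (fun i _ => mul_nonneg (by positivity) (herr _)) (Finset.mem_range.2 (by omega))
    linarith [herr (m + 1)]
  have hG : ∑ ω, W ω * (μ ω * Fk L ν m ω) =
      ∑ i ∈ range (L + 1 - m), 2 ^ i * ∑ ω, W ω * μ ω * ν (m + i) ω := by
    simp only [Fk_range, Finset.mul_sum]
    rw [Finset.sum_comm]
    refine Finset.sum_congr rfl fun i _ => Finset.sum_congr rfl fun ω _ => ?_
    ring
  have hh : ∑ i ∈ range (L + 1 - m),
      2 ^ i * ∑ ω, W ω * μ ω * ν (m + i) ω * ind (A < ν (m + 1) ω) ≤ (C2 + 2) * H := by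
    have h1 : ∑ i ∈ range (L + 1 - m),
        2 ^ i * ∑ ω, W ω * μ ω * ν (m + i) ω * ind (A < ν (m + 1) ω) =
        ∑ ω, W ω * μ ω * (Fk L ν m ω * ind (A < ν (m + 1) ω)) := by
      simp only [Fk_range (k := m), Finset.mul_sum, Finset.sum_mul]
      rw [Finset.sum_comm]
      refine Finset.sum_congr rfl fun ω _ => Finset.sum_congr rfl fun i _ => ?_
      ring
    rw [h1, hH, Finset.mul_sum]
    refine Finset.sum_le_sum fun ω _ => ?_
    have h2 : Fk L ν m ω * ind (A < ν (m + 1) ω) ≤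
        (C2 + 2) * (Fk L ν (m + 1) ω * ind (A < Fk L ν (m + 1) ω)) := by
      by_cases h : A < ν (m + 1) ω
      · have h3 : A < Fk L ν (m + 1) ω := h.trans_le (le_Fk hν hm ω)
        rw [ind_pos h, ind_pos h3, Fk_succ hm]
        nlinarith [hνA ω]
      · rw [ind_neg h, mul_zero]
        exact mul_nonneg (by linarith) (mul_nonneg (Fk_nonneg hν _ ω) (ind_nonneg _))
    have h3 := mul_le_mul_of_nonneg_left h2 (hWμ ω)
    linarith
  have hsum : ∑ i ∈ range (L + 1 - m), 2 ^ i * ∑ ω, W ω * μ ω * ν (m + i) ω ≤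
      C1 * (∑ i ∈ range (L + 1 - m),
        2 ^ i * ∑ ω, W ω * μ ω * ν (m + i) ω * ind (A < ν (m + 1) ω)) +
      C1 * ((∑ i ∈ range (L + 1 - m), (2 : ℝ) ^ i * (16 ^ (m + 1) / 16 ^ (m + i))) * a) + E := by
    rw [hE, Finset.sum_mul, Finset.mul_sum, Finset.mul_sum, ← Finset.sum_add_distrib,
      ← Finset.sum_add_distrib]
    refine Finset.sum_le_sum fun i hi => ?_
    have hi' := Finset.mem_range.1 hi
    have h1 := mul_le_mul_of_nonneg_left (hall (m + i) (by omega) (by omega))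
      (show (0 : ℝ) ≤ 2 ^ i by positivity)
    linarith
  have hg := mul_le_mul_of_nonneg_right (geo_le m (L + 1 - m)) ha0
  have hC0 : 0 ≤ C1 := by linarith
  have h1 := mul_le_mul_of_nonneg_left hh hC0
  have h2 := mul_le_mul_of_nonneg_left hg hC0
  have h3 := mul_le_mul_of_nonneg_left haH hC0
  rw [hG]
  linarith

end Level

open Level in
theorem level_proof : LevelStmt := by
  intro C1 C2 hC1 hC2
  have he : 1 ≤ Real.exp 4 := Real.one_le_exp (by norm_num)
  have hK : 1 ≤ C1 * (C2 + 66) := by nlinarith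
  have hA : 1 ≤ 4 * (Real.exp 4 * (C1 * (C2 + 66))) := by nlinarith
  have hC : 1 ≤ Real.exp 4 * (32 * C1 + 1) := by nlinarith
  refine ⟨4 * (Real.exp 4 * (C1 * (C2 + 66))), 2 * (Real.exp 4 * (32 * C1 + 1)), hA,
    by linarith, ?_⟩
  intro L Ω _ W ν μ err top hW hν hνA herr hμ hmain hcross htop
  set K := C1 * (C2 + 66) with hKdef
  set A := 4 * (Real.exp 4 * K) with hAdef
  set X := ∑ ω, W ω * ind (1 < Fk L ν 0 ω) with hX
  have hEq : ∑ k ∈ Icc 1 L, ∑ j ∈ Icc (k - 1) L, 2 ^ (j + 1 - k) * err j k =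
      ∑ m ∈ range L, ∑ i ∈ range (L + 1 - m), 2 ^ i * err (m + i) (m + 1) := by
    rw [← Finset.Ico_add_one_right_eq_Icc, Finset.sum_Ico_eq_sum_range, Nat.add_sub_cancel]
    refine Finset.sum_congr rfl fun m _ => ?_
    rw [← Finset.Ico_add_one_right_eq_Icc, Finset.sum_Ico_eq_sum_range, Nat.add_sub_cancel_left,
      add_comm 1 m]
    refine Finset.sum_congr rfl fun i _ => ?_
    have : m + i + 1 - (m + 1) = i := by omega
    rw [this]
  rw [hEq]
  set E := ∑ m ∈ range L, ∑ i ∈ range (L + 1 - m), 2 ^ i * err (m + i) (m + 1) with hE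
  have hE0 : 0 ≤ E := Finset.sum_nonneg fun m _ => Finset.sum_nonneg fun i _ =>
    mul_nonneg (by positivity) (herr _ _)
  have htop0 : 0 ≤ top :=
    le_trans (Finset.sum_nonneg fun ω _ => mul_nonneg (hW ω) (hν L ω)) htop
  have h1 : X ≤ top + Real.exp 4 * ∑ m ∈ range L, ∑ ω, W ω * (μ (m + 1) ω * Fk L ν m ω) := by
    have h2 : X ≤ ∑ ω, W ω *
        (ν L ω + Real.exp 4 * ∑ k ∈ range L, μ (k + 1) ω * Fk L ν k ω) :=
      Finset.sum_le_sum fun ω _ => mul_le_mul_of_nonneg_left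
        (first_le hν ω fun k h1 h2 => (hμ k ω h1 h2).1) (hW ω)
    have h3 : ∑ ω, W ω * (ν L ω + Real.exp 4 * ∑ k ∈ range L, μ (k + 1) ω * Fk L ν k ω) =
        ∑ ω, W ω * ν L ω +
          Real.exp 4 * ∑ m ∈ range L, ∑ ω, W ω * (μ (m + 1) ω * Fk L ν m ω) := by
      rw [Finset.sum_comm, Finset.mul_sum, ← Finset.sum_add_distrib]
      refine Finset.sum_congr rfl fun ω _ => ?_
      rw [← Finset.mul_sum]
      ring
    linarith
  have h2 : ∑ m ∈ range L, ∑ ω, W ω * (μ (m + 1) ω * Fk L ν m ω) ≤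
      K * (∑ m ∈ range L, ∑ ω, W ω *
        (μ (m + 1) ω * Fk L ν (m + 1) ω * ind (A < Fk L ν (m + 1) ω))) + (32 * C1 + 1) * E := by
    rw [hE, Finset.mul_sum, Finset.mul_sum, ← Finset.sum_add_distrib]
    refine Finset.sum_le_sum fun m hm => ?_
    have hm' := Finset.mem_range.1 hm
    exact one_level (err := fun j => err j (m + 1)) hC1 hC2 hm' hW hν
      (fun ω => hνA m ω hm'.le) (fun j => herr j _)
      (fun ω => (Real.exp_pos _).le.trans (hμ (m + 1) ω (by omega) hm').1)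
      (hmain (m + 1) (by omega) hm')
      (fun j h1 h2 h3 => hcross (m + 1) j (by omega) hm' h1 (by omega) h3)
  have h3 : ∑ m ∈ range L, ∑ ω, W ω *
      (μ (m + 1) ω * Fk L ν (m + 1) ω * ind (A < Fk L ν (m + 1) ω)) ≤ 2 / A * X := by
    rw [Finset.sum_comm, hX, Finset.mul_sum]
    refine Finset.sum_le_sum fun ω _ => ?_
    rw [← Finset.mul_sum]
    have h4 := mul_le_mul_of_nonneg_left
      (heavy_le hν hA ω fun k h1 h2 => (hμ k ω h1 h2).2) (hW ω)
    linarith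
  have h4 : Real.exp 4 * (K * (2 / A * X)) = X / 2 := by
    have h5 : Real.exp 4 ≠ 0 := by positivity
    have h6 : K ≠ 0 := by positivity
    rw [hAdef]
    field_simp
    norm_num
  have h5 := mul_le_mul_of_nonneg_left h3 (show 0 ≤ K by linarith)
  have h6 := mul_le_mul_of_nonneg_left (h2.trans (add_le_add h5 le_rfl)) (Real.exp_pos 4).le
  have h7 : top ≤ Real.exp 4 * (32 * C1 + 1) * top := le_mul_of_one_le_left htop0 hC
  nlinarith

end Vale.Agent.P318.D
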