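import Vale.Agent.P318.D.Stmt

/-!
Track D: low activity in one family is negligible.
-/

namespace Vale.Agent.P318.D

open Finset
open scoped BigOperators

namespace Main

theorem ind_of {p : Prop} (h : p) : ind p = 1 := by simp [ind, h]

theorem ind_not {p : Prop} (h : ¬p) : ind p = 0 := by simp [ind, h]

theorem ind_nn (p : Prop) : 0 ≤ ind p := by
  by_cases h : p
  · simp [ind_of h]
  · simp [ind_not h]

variable {S : Sys} {F : Fn S} {δ T p Ξ : ℝ} {τ : S.B → ℝ} {Sh : ℕ}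

theorem W_nn (f : S.G → ℝ) (ξ : S.G) : 0 ≤ S.W f ξ := sq_nonneg _

theorem Wm_nn (ξ : S.G) : 0 ≤ F.Wm τ ξ := mul_nonneg (W_nn _ _) (sq_nonneg _)

theorem Wm_le (hN : Noise S) (h : S.Rate τ) (ξ : S.G) : F.Wm τ ξ ≤ S.W F.f ξ :=
  mul_le_of_le_one_right (W_nn _ _) (pow_le_one₀ (hN.mu_mem τ ξ h).1 (hN.mu_mem τ ξ h).2)

theorem sum_Wm (hB : Basic S) (hN : Noise S) (h : S.Rate τ) (ho : F.OK) :
    ∑ ξ, F.Wm τ ξ ≤ 1 := by
  refine (sum_le_sum fun ξ _ => Wm_le hN h ξ).trans ?_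
  rw [← hB.parseval]
  exact expect_le univ_nonempty fun β _ => pow_le_one₀ (ho.nonneg β) (ho.le_one β)

theorem sq_nn (b : S.B) (x : S.Λ → ℝ) : 0 ≤ S.sq b x := sum_nonneg fun _ _ => sq_nonneg _

theorem I_nn : 0 ≤ F.I := sum_nonneg fun _ _ => expect_nonneg fun _ _ => abs_nonneg _

theorem Ee_nn : 0 ≤ F.Ee := sum_nonneg fun _ _ => expect_nonneg fun _ _ => abs_nonneg _

theorem Eb_nn (b : S.B) : 0 ≤ F.Eb b :=
  add_nonneg (div_nonneg (sum_nonneg fun _ _ => expect_nonneg fun _ _ => abs_nonneg _)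
    (Real.sqrt_nonneg _)) (sum_nonneg fun _ _ => expect_nonneg fun _ _ => abs_nonneg _)

theorem HM_nn : 0 ≤ F.HM Ξ := sum_nonneg fun _ _ => mul_nonneg (W_nn _ _) (ind_nn _)

/-- The weights `w` gain the factor `1 - k` in the block `b`. -/
def Val (δ k : ℝ) (w : S.ι → ℝ) (b : S.B) (ξ : S.G) : Prop :=
  ∀ A : Finset S.ι, A ⊆ S.J b → A.card ≤ S.D (S.own b) →
    ∑ i ∈ A, w i ^ 2 * S.dotb i b (S.cv0 ξ) ^ 2 ≤
      (1 - k) * ((1 + δ) * S.ν (S.own b) * S.sq b (S.cv0 ξ))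

theorem val0 (hR : RipL S δ) {w : S.ι → ℝ} (hw : ∀ i, 0 ≤ w i ∧ w i ≤ 1) (b : S.B) (ξ : S.G) :
    Val δ 0 w b ξ := fun A h1 h2 => by
  rw [sub_zero, one_mul]
  exact (sum_le_sum fun i _ => mul_le_of_le_one_left (sq_nonneg _)
    (pow_le_one₀ (hw i).1 (hw i).2)).trans (hR.up b A _ h1 h2)

theorem val_of (hR : RipL S δ) {w : S.ι → ℝ} {R : Finset S.P} {ε k c : ℝ} {b : S.B} {ξ : S.G}
    (hw : ∀ i, 0 ≤ w i ∧ w i ≤ S.om R i ξ) (hk : ε ^ 2 + k ≤ c)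
    (h : ∀ A : Finset S.ι, A ⊆ S.Om R ε ξ ∩ S.J b → A.card ≤ S.D (S.own b) →
      ∑ i ∈ A, w i ^ 2 * S.dotb i b (S.cv0 ξ) ^ 2 ≤
        (1 - c) * ((1 + δ) * S.ν (S.own b) * S.sq b (S.cv0 ξ))) : Val δ k w b ξ := by
  intro A h1 h2
  have u := hR.up b A (S.cv0 ξ) h1 h2
  have u0 := (sum_nonneg fun _ _ => sq_nonneg _).trans u
  have a1 := h (A ∩ S.Om R ε ξ) (fun i hi => mem_inter.2 ⟨(mem_inter.1 hi).2,
    h1 (mem_inter.1 hi).1⟩) ((card_le_card inter_subset_left).trans h2)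
  have a2 : ∑ i ∈ A \ S.Om R ε ξ, w i ^ 2 * S.dotb i b (S.cv0 ξ) ^ 2 ≤
      ε ^ 2 * ∑ i ∈ A, S.dotb i b (S.cv0 ξ) ^ 2 := by
    rw [mul_sum]
    refine (sum_le_sum fun i hi => ?_).trans (sum_le_sum_of_subset_of_nonneg sdiff_subset
      fun _ _ _ => by positivity)
    have : S.om R i ξ < ε := by simpa [Sys.Om] using (mem_sdiff.1 hi).2
    exact mul_le_mul_of_nonneg_right (pow_le_pow_left₀ (hw i).1 ((hw i).2.trans this.le) 2)
      (sq_nonneg _)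
  rw [← sum_inter_add_sum_sdiff A (S.Om R ε ξ)]
  nlinarith [mul_le_mul_of_nonneg_left u (sq_nonneg ε), mul_le_mul_of_nonneg_right hk u0]

variable (F τ) in
/-- The energy of one shell and one partition, with weights. -/
noncomputable def Z (g : S.B → S.G → ℝ) (t : ℝ) (P : S.P) : ℝ :=
  ∑ ξ, F.Wm τ ξ * ∑ b ∈ S.Bl P, g b ξ * S.xw t b ξ

variable (F T p Ξ) in
/-- The small terms. -/
noncomputable def u : ℝ := F.HM Ξ + Real.exp (-p) + T * S.M ^ 2 * Ξ ^ 6 / (S.q : ℝ) ^ 4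

theorem shell (hB : Basic S) (hN : Noise S) (hR : RipL S δ) (H : Hyp2 S F δ τ T p Ξ Sh)
    (d0 : 0 < δ) (d1 : δ ≤ 1) {C t k : ℝ} (hC : 1 ≤ C) (t0 : 0 < t) (t1 : t ≤ T) (k1 : k ≤ 1)
    (hx : ∀ b ξ, 0 ≤ S.xw t b ξ)
    (hP : ∀ b ξ, (∀ i ∈ S.J b, S.hw t p i b ξ ≤ C) ∧
      (S.low Ξ ξ → ∀ (w : S.ι → ℝ) (ψ : ℝ), (∀ i, 0 ≤ w i ∧ w i ≤ 1) → 0 ≤ ψ →
        (∀ A : Finset S.ι, A ⊆ S.J b → A.card ≤ S.D (S.own b) →
          ∑ i ∈ A, w i ^ 2 * S.dotb i b (S.cv0 ξ) ^ 2 ≤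
            ψ * ((1 + δ) * S.ν (S.own b) * S.sq b (S.cv0 ξ))) →
        ∑ i ∈ S.J b, w i ^ 2 * S.hw t p i b ξ ≤ (1 + δ) ^ 3 * ψ * S.xw t b ξ +
          C / δ * (S.J b).card * (Real.exp (-p) + t * S.M ^ 2 * Ξ ^ 6 / (S.q : ℝ) ^ 4)))
    (w : S.ι → S.G → ℝ) (hw : ∀ i ξ, 0 ≤ w i ξ ∧ w i ξ ≤ 1) (P : S.P) :
    ∑ ξ, F.Wm τ ξ * ∑ b ∈ S.Bl P, ∑ i ∈ S.J b, w i ξ ^ 2 * S.hw t p i b ξ ≤
      (1 + δ) ^ 3 * (Z F τ (fun _ _ => 1) t P -
        k * Z F τ (fun b ξ => ind (Val δ k (fun i => w i ξ) b ξ)) t P) +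
        C / δ * S.N * u F T p Ξ := by
  set v := Real.exp (-p) + T * S.M ^ 2 * Ξ ^ 6 / (S.q : ℝ) ^ 4 with hv
  have v0 : 0 ≤ v := by
    have := t0.le.trans t1
    positivity
  have c0 : C ≤ C / δ := le_div_self (by linarith) d0 d1
  have a : ∀ b ξ, ∑ i ∈ S.J b, w i ξ ^ 2 * S.hw t p i b ξ ≤ (1 + δ) ^ 3 *
      (1 * S.xw t b ξ - k * (ind (Val δ k (fun i => w i ξ) b ξ) * S.xw t b ξ)) +
      C / δ * (ind (¬ S.low Ξ ξ) + v) * ∑ _i ∈ S.J b, (1 : ℝ) := fun b ξ => by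
    have p0 : 0 ≤ 1 - k * ind (Val δ k (fun i => w i ξ) b ξ) := by
      by_cases h : Val δ k (fun i => w i ξ) b ξ
      · rw [ind_of h]; linarith
      · rw [ind_not h]; linarith
    rw [sum_const, nsmul_eq_mul, mul_one]
    by_cases hl : S.low Ξ ξ
    · have := (hP b ξ).2 hl (fun i => w i ξ) _ (fun i => hw i ξ) p0 (by
        by_cases h : Val δ k (fun i => w i ξ) b ξ
        · rw [ind_of h, mul_one]; exact h
        · rw [ind_not h, mul_zero]; exact val0 hR (fun i => hw i ξ) b ξ)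
      have e : C / δ * (S.J b).card * (Real.exp (-p) + t * S.M ^ 2 * Ξ ^ 6 / (S.q : ℝ) ^ 4) ≤
          C / δ * (S.J b).card * v := by rw [hv]; gcongr
      rw [ind_not (not_not.2 hl)]
      linarith
    · have h1 : ∑ i ∈ S.J b, w i ξ ^ 2 * S.hw t p i b ξ ≤ (S.J b).card • C :=
        sum_le_card_nsmul _ _ _ fun i hi => (mul_le_mul_of_nonneg_left ((hP b ξ).1 i hi)
          (sq_nonneg _)).trans (mul_le_of_le_one_left (by linarith)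
            (pow_le_one₀ (hw i ξ).1 (hw i ξ).2))
      have h2 : 0 ≤ (1 + δ) ^ 3 * ((1 - k * ind (Val δ k (fun i => w i ξ) b ξ)) * S.xw t b ξ) :=
        mul_nonneg (by positivity) (mul_nonneg p0 (hx b ξ))
      have h3 : C * 1 * (S.J b).card ≤ C / δ * (1 + v) * (S.J b).card := by gcongr; linarith
      rw [nsmul_eq_mul] at h1
      rw [ind_of hl]
      linarith
  have b1 : ∑ ξ, F.Wm τ ξ * (ind (¬ S.low Ξ ξ) + v) ≤ u F T p Ξ := by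
    simp only [mul_add, sum_add_distrib, ← sum_mul]
    have h1 := mul_le_of_le_one_left v0 (sum_Wm hB hN H.rate H.ok)
    have h2 : ∑ ξ, F.Wm τ ξ * ind (¬ S.low Ξ ξ) ≤ F.HM Ξ := sum_le_sum fun ξ _ =>
      mul_le_mul_of_nonneg_right (Wm_le hN H.rate ξ) (ind_nn _)
    rw [u]
    linarith
  have N0 : 0 ≤ C / δ * S.N := mul_nonneg (by positivity) (Nat.cast_nonneg _)
  refine (sum_le_sum fun ξ _ => mul_le_mul_of_nonneg_left (sum_le_sum fun b _ => a b ξ)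
    (Wm_nn ξ)).trans (le_of_eq_of_le ?_ (add_le_add_right (mul_le_mul_of_nonneg_left b1 N0) _))
  rw [Z, Z, mul_sum, ← sum_sub_distrib, mul_sum, mul_sum, ← sum_add_distrib]
  refine sum_congr rfl fun ξ _ => ?_
  rw [sum_add_distrib, ← mul_sum, ← mul_sum, hB.sum_J H.wf, sum_sub_distrib, ← mul_sum (a := k),
    sum_const, nsmul_eq_mul, mul_one, card_univ, Sys.N]
  ring

theorem Z_nn {g : S.B → S.G → ℝ} {t : ℝ} (hg : ∀ b ξ, 0 ≤ g b ξ) (hx : ∀ b ξ, 0 ≤ S.xw t b ξ)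
    (P : S.P) : 0 ≤ Z F τ g t P :=
  sum_nonneg fun ξ _ => mul_nonneg (Wm_nn ξ) (sum_nonneg fun b _ => mul_nonneg (hg b ξ) (hx b ξ))

theorem sum_Z (s : Finset ℕ) (R : Finset S.P) (g : ℕ → S.P → S.B → S.G → ℝ) (t : ℕ → ℝ) :
    ∑ j ∈ s, ∑ P ∈ R, Z F τ (g j P) (t j) P =
      ∑ ξ, F.Wm τ ξ * ∑ P ∈ R, ∑ b ∈ S.Bl P, ∑ j ∈ s, g j P b ξ * S.xw (t j) b ξ := by
  simp only [Z, mul_sum]
  rw [sum_comm, sum_congr rfl fun P _ => sum_comm, sum_comm]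
  exact sum_congr rfl fun ξ _ => sum_congr rfl fun P _ => sum_comm

theorem cnt_eq {R : Finset S.P} (h : R.Nonempty) (ξ : S.G) :
    ∑ P ∈ R, ∑ b ∈ S.Bl P, ind (S.act b ξ) = R.card * S.cnt R ξ := by
  have : (R.card : ℝ) ≠ 0 := by exact_mod_cast h.card_ne_zero
  rw [Sys.cnt]
  field_simp

theorem sum_sqrt (hT : 0 ≤ T) (k : ℕ) : ∑ j ∈ range k, √(T / 4 ^ j) ≤ 2 * √T := by
  have e : ∀ j : ℕ, √(T / 4 ^ j) = √T * (1 / 2) ^ j := fun j => by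
    rw [Real.sqrt_div hT, show (4 : ℝ) ^ j = (2 ^ j) ^ 2 by rw [← pow_mul, mul_comm, pow_mul]; norm_num,
      Real.sqrt_sq (by positivity), one_div_pow, mul_one_div]
  simp only [e, ← mul_sum]
  rw [mul_comm]
  exact mul_le_mul_of_nonneg_right (sum_geometric_two_le k) (Real.sqrt_nonneg _)

theorem fine (h : S.Num δ T p Ξ Sh) {j : ℕ} (hj : j ≤ Sh) (P : S.P) :
    100 * S.ν P ≤ S.q * √(T / 4 ^ j) := by
  have h1 : 1 / 2 ^ Sh ≤ √(T / 4 ^ j) := Real.le_sqrt_of_sq_le (by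
    rw [one_div_pow, ← pow_mul, mul_comm, pow_mul]
    exact div_le_div₀ (by linarith [h.one_le_T]) h.one_le_T (by positivity)
      (by norm_num; exact pow_le_pow_right₀ (by norm_num) hj))
  have h2 := h.fine P
  rw [← le_div_iff₀ (by positivity), div_eq_mul_one_div] at h2
  exact h2.trans (mul_le_mul_of_nonneg_left h1 (Nat.cast_nonneg _))

theorem kap_le {t : ℝ} (t0 : 0 < t) (t1 : t ≤ T) (hT : 1 ≤ T) : √t * kap t ≤ 13 * T := by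
  have s0 := Real.sqrt_pos.2 t0
  have h1 : √t ≤ T := Real.sqrt_le_iff.2 ⟨by linarith, by nlinarith⟩
  have h2 := (Nat.ceil_lt_add_one (by positivity : 0 ≤ 8 / √t)).le
  have h3 : √t * (8 / √t) = 8 := by field_simp
  rw [kap]
  push_cast
  nlinarith [mul_le_mul_of_nonneg_left h2 s0.le]

theorem Er_le {R : Finset S.P} {m E : ℝ} (h : Fam F R m E) (hp : 0 ≤ p) {P : S.P} (hP : P ∈ R) :
    F.Er p P m m E ≤ √p * E + 2 * (√m * E) := by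
  have h1 := h.err P hP
  have h2 : F.I / √(S.D P) ≤ E := le_trans (le_add_of_nonneg_right Ee_nn) h1
  rw [Fn.Er, Real.sqrt_div hp, div_mul_eq_mul_div, mul_div_assoc]
  linarith [mul_le_mul_of_nonneg_left h1 (Real.sqrt_nonneg m),
    mul_le_mul_of_nonneg_left h2 (Real.sqrt_nonneg p)]

/-- One of the two tests gains. -/
theorem dich (hN : Noise S) (hR : RipL S δ) (wf : S.WF) {R : Finset S.P} {ε k1 k2 : ℝ} {b : S.B}
    {ξ : S.G} {π : S.ι → ℝ} (hπ : ∀ i, 0 ≤ π i ∧ π i ≤ 1) (h1 : ε ^ 2 ≤ k1) (h2 : ε ^ 2 ≤ k2)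
    (h3 : 2 * k1 ≤ 1) (h4 : 2 * k2 ≤ 1) (hc : (S.Om R ε ξ ∩ S.J b).card ≤ 1)
    (hP : ∀ i ∈ S.J b, (1 - 2 * k1) * S.sq b (fun l => S.n i l) * S.sq b (S.cv0 ξ) ≤
      S.dotb i b (S.cv0 ξ) ^ 2 → 2 * k2 ≤ π i) :
    Val δ k1 (fun i => S.om R i ξ) b ξ ∨ Val δ k2 (fun i => (1 - π i) * S.om R i ξ) b ξ := by
  have o := fun i => hN.om_mem R i ξ
  have n0 := wf.one_le_ν (S.own b)
  have s0 := sq_nn b (S.cv0 ξ)
  by_cases h : ∀ i ∈ S.Om R ε ξ ∩ S.J b, 2 * k2 ≤ π i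
  · refine Or.inr (val_of hR (R := R) (ε := ε) (c := 2 * k2) (fun i => ⟨mul_nonneg
      (by linarith [hπ i]) (o i).1, mul_le_of_le_one_left (o i).1 (by linarith [hπ i])⟩)
      (by linarith) fun A a1 a2 => ?_)
    refine le_trans ?_ (mul_le_mul_of_nonneg_left
      (hR.up b A _ (a1.trans inter_subset_right) a2) (by linarith))
    rw [mul_sum]
    refine sum_le_sum fun i hi => mul_le_mul_of_nonneg_right ?_ (sq_nonneg _)
    have e1 := h i (a1 hi)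
    have e2 : (1 - π i) * S.om R i ξ ≤ 1 - π i := mul_le_of_le_one_right (by linarith [hπ i]) (o i).2
    have e3 : 0 ≤ (1 - π i) * S.om R i ξ := mul_nonneg (by linarith [hπ i]) (o i).1
    nlinarith [hπ i]
  · push Not at h
    obtain ⟨i0, hi0, h⟩ := h
    refine Or.inl (val_of hR (R := R) (ε := ε) (c := 2 * k1) (fun i => ⟨(o i).1, le_rfl⟩)
      (by linarith) fun A a1 _ => ?_)
    have a2 : A ⊆ {i0} := fun i hi => mem_singleton.2 (card_le_one.1 hc _ (a1 hi) _ hi0)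
    refine (sum_le_sum_of_subset_of_nonneg a2 fun _ _ _ => by positivity).trans ?_
    have j0 := (mem_inter.1 hi0).2
    have e1 := lt_of_not_ge fun h' => h.not_ge (hP i0 j0 h')
    have e2 := mul_le_mul_of_nonneg_right (mul_le_mul_of_nonneg_left (hR.norm b i0 j0).2
      (by linarith : 0 ≤ 1 - 2 * k1)) s0
    have e3 := mul_le_of_le_one_left (sq_nonneg (S.dotb i0 b (S.cv0 ξ)))
      (pow_le_one₀ (n := 2) (o i0).1 (o i0).2)
    rw [sum_singleton]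
    linarith

theorem num {n nh Ty G X X' Z1 Z2 r y s C0 Cp C1 C2 a k1 k2 k δ Sh : ℝ} (r0 : 0 < r) (k0 : 0 < k)
    (h1 : k ≤ k1) (h2 : k ≤ k2) (n0 : 0 ≤ n) (z1 : 0 ≤ Z1) (d0 : 0 < δ)
    (c2 : 1 ≤ C2) (a1 : 1 ≤ a)
    (hd : 1000 * C0 * δ = k) (ha : 48 * (C2 / a * C0) = k2) (hX : X ≤ C0 * (r * n))
    (hX' : X' ≤ C0 * (r * n)) (hy : Sh * (r * y) ≤ r * (Cp / δ * Ty)) (y0 : 0 ≤ Sh * (r * y))
    (e1 : k1 * Z1 ≤ 7 * δ * X + 2 * (Sh * (r * y)) + r * (C1 / δ * G))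
    (e2 : k2 * Z2 ≤ 7 * δ * X + 2 * (Sh * (r * y)) + C2 / a * (X' + 2 * X + Sh * (r * y)) +
      r * (C2 * a ^ 3 / δ * s))
    (e3 : r * n ≤ r * (nh + Ty) + 4 * (Z1 + Z2))
    (s0 : 0 ≤ C2 * a ^ 3 / δ * s) :
    n ≤ 2 * nh + 2 * Ty + 8 / k * ((4 + C2) * (Cp / δ * Ty) + C1 / δ * G + C2 * a ^ 3 / δ * s) := by
  have p0 : 0 ≤ r * n := by positivity
  have p1 : 7 * δ * X ≤ k * (r * n / 100) := by
    nlinarith [mul_le_mul_of_nonneg_left hX d0.le, mul_nonneg k0.le p0]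
  have p2 : C2 / a ≤ C2 := div_le_self (by linarith) a1
  have p3 : 0 ≤ C2 / a := by positivity
  have p4 : C2 / a * (X' + 2 * X) ≤ k2 * (r * n / 16) := by
    nlinarith [mul_le_mul_of_nonneg_left hX p3, mul_le_mul_of_nonneg_left hX' p3]
  have p5 : C2 / a * (Sh * (r * y)) ≤ C2 * (r * (Cp / δ * Ty)) :=
    mul_le_mul p2 hy y0 (by linarith)
  have q1 : k * Z1 ≤ k * (r * n / 100) + r * (2 * (Cp / δ * Ty) + C1 / δ * G) := by
    nlinarith [mul_le_mul_of_nonneg_right h1 z1]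
  have q2 : k * (Z2 - r * n / 16) ≤
      k * (r * n / 100) + r * ((2 + C2) * (Cp / δ * Ty) + C2 * a ^ 3 / δ * s) := by
    have q3 : k2 * (Z2 - r * n / 16) ≤
        k * (r * n / 100) + r * ((2 + C2) * (Cp / δ * Ty) + C2 * a ^ 3 / δ * s) := by linarith
    rcases le_total 0 (Z2 - r * n / 16) with h | h
    · exact (mul_le_mul_of_nonneg_right h2 h).trans q3
    · have := mul_nonneg (by linarith : 0 ≤ 2 + C2) (y0.trans hy)
      nlinarith [mul_nonneg k0.le p0, mul_nonneg r0.le s0, mul_nonneg k0.le (neg_nonneg.2 h)]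
  refine le_of_mul_le_mul_left (le_of_mul_le_mul_left ?_ r0) k0
  have q4 : r * (k * (2 * nh + 2 * Ty + 8 / k * ((4 + C2) * (Cp / δ * Ty) + C1 / δ * G +
      C2 * a ^ 3 / δ * s))) = k * (r * (2 * nh + 2 * Ty)) + 8 * (r * ((4 + C2) * (Cp / δ * Ty) +
        C1 / δ * G + C2 * a ^ 3 / δ * s)) := by field_simp
  rw [q4]
  nlinarith [mul_le_mul_of_nonneg_left e3 k0.le, mul_nonneg k0.le p0]

theorem gain {X Z' Y y : ℝ} (d0 : 0 < δ) (d2 : δ ≤ 1 / 1000) (y0 : 0 ≤ y) (h1 : 0 ≤ X)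
    (h2 : 0 ≤ Z') (h3 : Y ≤ (1 + δ) ^ 3 * (X - Z') + y) :
    (1 + 3 * δ) * Y ≤ X + 7 * δ * X - Z' + 2 * y ∧ (Z' = 0 → Y ≤ 2 * X + y) := by
  have l1 : 1 ≤ (1 + 3 * δ) * (1 + δ) ^ 3 :=
    one_le_mul_of_one_le_of_one_le (by linarith) (one_le_pow₀ (by linarith))
  have l2 : (1 + δ) ^ 3 ≤ 1 + 3.01 * δ := by nlinarith [mul_pos d0 d0]
  have l3 : (1 + 3 * δ) * (1 + δ) ^ 3 ≤ 1 + 7 * δ := by nlinarith
  refine ⟨?_, fun h => by nlinarith⟩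
  nlinarith [mul_le_mul_of_nonneg_left h3 (by linarith : 0 ≤ 1 + 3 * δ),
    mul_le_mul_of_nonneg_right l3 h1, mul_le_mul_of_nonneg_right l1 h2, mul_nonneg d0.le y0]

theorem ty (hT : 0 ≤ T) : 0 ≤ u F T p Ξ ∧ 0 ≤ F.Ty T p Ξ Sh ∧
    (Sh + 1) * (S.N * u F T p Ξ) ≤ F.Ty T p Ξ Sh ∧ S.M * F.HM Ξ ≤ F.Ty T p Ξ Sh ∧
    (Sh + 1) * (T * F.I / S.q) ≤ F.Ty T p Ξ Sh := by
  have N0 : 0 ≤ S.N := Nat.cast_nonneg _
  have M0 : 0 ≤ S.M := Nat.cast_nonneg _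
  have h0 := HM_nn (F := F) (Ξ := Ξ)
  have h1 := I_nn (F := F)
  have u0 : 0 ≤ u F T p Ξ := by rw [u]; positivity
  have i0 : 0 ≤ T * F.I / S.q := by positivity
  have eT : F.Ty T p Ξ Sh = (Sh + 1) * (S.N + S.M) * (u F T p Ξ + T * F.I / S.q) := rfl
  have ty0 : 0 ≤ F.Ty T p Ξ Sh := by rw [eT]; positivity
  refine ⟨u0, ty0, ?_, ?_, ?_⟩
  · rw [eT, mul_assoc]
    gcongr <;> linarith
  · have : F.HM Ξ ≤ u F T p Ξ := by
      rw [u, add_assoc]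
      exact le_add_of_nonneg_right (by positivity)
    rw [eT]
    refine mul_le_mul ?_ (by linarith) h0 (by positivity)
    nlinarith [mul_nonneg (Nat.cast_nonneg Sh) N0, mul_nonneg (Nat.cast_nonneg Sh) M0]
  · rcases isEmpty_or_nonempty S.ι with h | h
    · simpa [Fn.I] using ty0
    · have : 1 ≤ S.N := by rw [Sys.N]; exact_mod_cast Fintype.card_pos
      rw [eT]
      refine mul_le_mul ?_ (by linarith) i0 (by positivity)
      exact le_mul_of_one_le_right (by positivity) (by linarith)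

/-- The lower bound. -/
theorem lower (B : Basic S) (N : Noise S) (hτ : S.Rate τ) {R : Finset S.P} (hR : R.Nonempty)
    {hi ε : ℝ} {g1 g2 : ℕ → S.P → S.B → S.G → ℝ} (h1 : ∀ j P b ξ, 0 ≤ g1 j P b ξ)
    (h2 : ∀ j P b ξ, 0 ≤ g2 j P b ξ) {t : ℕ → ℝ} (x0 : ∀ j b ξ, 0 ≤ S.xw (t j) b ξ)
    {s : Finset ℕ} (hm : ∀ ξ, S.cnt R ξ ≤ hi → ∑ P ∈ R, ∑ b ∈ S.Bl P,
      ind (2 ≤ (S.Om R ε ξ ∩ S.J b).card) ≤ R.card * S.cnt R ξ / 2)
    (hg : ∀ ξ, S.W F.f ξ ≠ 0 → S.low Ξ ξ → ∀ P, ∀ b ∈ S.Bl P, S.act b ξ →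
      (S.Om R ε ξ ∩ S.J b).card ≤ 1 →
      ∃ j ∈ s, 1 / 2 ≤ S.xw (t j) b ξ ∧ (g1 j P b ξ = 1 ∨ g2 j P b ξ = 1)) :
    R.card * ∑ ξ, F.Wm τ ξ * S.cnt R ξ ≤
      R.card * (∑ ξ, F.Wm τ ξ * S.cnt R ξ * ind (hi < S.cnt R ξ) + S.M * F.HM Ξ) +
        4 * (∑ j ∈ s, ∑ P ∈ R, Z F τ (g1 j P) (t j) P + ∑ j ∈ s, ∑ P ∈ R, Z F τ (g2 j P) (t j) P) := by
  have r0 : (0 : ℝ) ≤ R.card := Nat.cast_nonneg _
  rw [sum_Z, sum_Z, Fn.HM, ← sum_add_distrib, mul_sum, mul_sum (a := S.M), ← sum_add_distrib,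
    mul_sum, mul_sum, ← sum_add_distrib]
  refine sum_le_sum fun ξ _ => ?_
  have cn : 0 ≤ S.cnt R ξ := div_nonneg (sum_nonneg fun _ _ => sum_nonneg fun _ _ => ind_nn _) r0
  have s1 : ∀ P b, 0 ≤ ∑ j ∈ s, g1 j P b ξ * S.xw (t j) b ξ := fun P b =>
    sum_nonneg fun j _ => mul_nonneg (h1 _ _ _ _) (x0 j b ξ)
  have s2 : ∀ P b, 0 ≤ ∑ j ∈ s, g2 j P b ξ * S.xw (t j) b ξ := fun P b =>
    sum_nonneg fun j _ => mul_nonneg (h2 _ _ _ _) (x0 j b ξ)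
  have s3 := mul_nonneg (Wm_nn (F := F) (τ := τ) ξ)
    (sum_nonneg fun P (_ : P ∈ R) => sum_nonneg fun b (_ : b ∈ S.Bl P) => s1 P b)
  have s4 := mul_nonneg (Wm_nn (F := F) (τ := τ) ξ)
    (sum_nonneg fun P (_ : P ∈ R) => sum_nonneg fun b (_ : b ∈ S.Bl P) => s2 P b)
  have s5 : 0 ≤ R.card * (F.Wm τ ξ * S.cnt R ξ * ind (hi < S.cnt R ξ)) :=
    mul_nonneg r0 (mul_nonneg (mul_nonneg (Wm_nn ξ) cn) (ind_nn _))
  have s6 : 0 ≤ R.card * (S.M * (S.W F.f ξ * ind (¬ S.low Ξ ξ))) :=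
    mul_nonneg r0 (mul_nonneg (Nat.cast_nonneg _) (mul_nonneg (W_nn _ _) (ind_nn _)))
  by_cases w0 : S.W F.f ξ = 0
  · simp [Fn.Wm, w0]
  by_cases h5 : hi < S.cnt R ξ
  · rw [ind_of h5, mul_one]
    linarith
  by_cases h6 : ¬ S.low Ξ ξ
  · have h3 : R.card * S.cnt R ξ ≤ R.card * S.M := by
      rw [← cnt_eq hR, ← nsmul_eq_mul]
      exact sum_le_card_nsmul _ _ _ fun P _ => B.sum_act P ξ
    have h4 := mul_le_mul (Wm_le N hτ ξ) h3 (mul_nonneg r0 cn) (W_nn F.f ξ)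
    rw [ind_of h6, mul_one]
    linarith
  have f5 : ∑ P ∈ R, ∑ b ∈ S.Bl P, ind (S.act b ξ) ≤ ∑ P ∈ R, ∑ b ∈ S.Bl P,
      (ind (2 ≤ (S.Om R ε ξ ∩ S.J b).card) + 2 * (∑ j ∈ s, g1 j P b ξ * S.xw (t j) b ξ +
        ∑ j ∈ s, g2 j P b ξ * S.xw (t j) b ξ)) := by
    refine sum_le_sum fun P _ => sum_le_sum fun b hb => ?_
    have := s1 P b
    have := s2 P b
    by_cases h3 : S.act b ξ
    swap
    · rw [ind_not h3]
      linarith [ind_nn (2 ≤ (S.Om R ε ξ ∩ S.J b).card)]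
    rw [ind_of h3]
    by_cases h4 : 2 ≤ (S.Om R ε ξ ∩ S.J b).card
    · rw [ind_of h4]
      linarith
    obtain ⟨j, hj, j3, h⟩ := hg ξ w0 (not_not.1 h6) P b hb h3 (by omega)
    have v1 := single_le_sum (f := fun j => g1 j P b ξ * S.xw (t j) b ξ)
      (fun j _ => mul_nonneg (h1 _ _ _ _) (x0 j b ξ)) hj
    have v2 := single_le_sum (f := fun j => g2 j P b ξ * S.xw (t j) b ξ)
      (fun j _ => mul_nonneg (h2 _ _ _ _) (x0 j b ξ)) hj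
    rw [ind_not h4]
    rcases h with h | h
    · rw [h, one_mul] at v1
      linarith
    · rw [h, one_mul] at v2
      linarith
  simp only [sum_add_distrib, ← mul_sum] at f5
  rw [cnt_eq hR] at f5
  linarith [mul_le_mul_of_nonneg_left (f5.trans (add_le_add_left (hm ξ (not_lt.1 h5)) _))
    (Wm_nn (F := F) (τ := τ) ξ)]

theorem upper {R : Finset S.P} (hR : R.Nonempty) {C0 : ℝ} {s : Finset ℕ} {t : ℕ → ℝ}
    (h : ∀ b ξ, ∑ j ∈ s, S.xw (t j) b ξ ≤ C0 * ind (S.act b ξ)) :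
    ∑ j ∈ s, ∑ P ∈ R, Z F τ (fun _ _ => 1) (t j) P ≤ C0 * (R.card * ∑ ξ, F.Wm τ ξ * S.cnt R ξ) := by
  rw [sum_Z _ _ fun _ _ _ _ => 1, mul_sum, mul_sum]
  refine sum_le_sum fun ξ _ => (mul_le_mul_of_nonneg_left (sum_le_sum fun P _ =>
    sum_le_sum fun b _ => (sum_congr rfl fun j _ => one_mul _).trans_le (h b ξ))
      (Wm_nn ξ)).trans_eq ?_
  simp only [← mul_sum]
  rw [cnt_eq hR]
  ring

theorem consts {C2 C0 c : ℝ} (c2 : 1 ≤ C2) (c0 : 1 ≤ C0) (c3 : 0 < c) (c4 : c ≤ 1) :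
    ∃ a k1 k δ : ℝ, 1 ≤ a ∧ 48 * (C2 / a * C0) = c / 2 ∧ 2 * k1 ≤ 1 ∧
      1 - 1 / (4 * a ^ 4) = 1 - 2 * k1 ∧ 0 < k ∧ k ≤ k1 ∧ k ≤ c / 2 ∧ 0 < δ ∧ 1000 * C0 * δ = k ∧
      δ ≤ 1 / 1000 ∧ (k / 10) ^ 2 ≤ k := by
  obtain ⟨a, ha⟩ : ∃ a, a = 96 * (C2 * C0) / c := ⟨_, rfl⟩
  have a1 : 1 ≤ a := by
    rw [ha, le_div_iff₀ c3]
    nlinarith [one_le_mul_of_one_le_of_one_le c2 c0]
  have a4 : 1 ≤ a ^ 4 := one_le_pow₀ a1
  obtain ⟨k, hk⟩ : ∃ k, k = min (1 / (8 * a ^ 4)) (c / 2) := ⟨_, rfl⟩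
  have k0 : 0 < k := by rw [hk]; positivity
  have kk2 : k ≤ c / 2 := hk ▸ min_le_right _ _
  have d0 : 0 < k / (1000 * C0) := by positivity
  have d1 : 1000 * C0 * (k / (1000 * C0)) = k := by field_simp
  refine ⟨a, 1 / (8 * a ^ 4), k, _, a1, by rw [ha]; field_simp; norm_num, ?_, by field_simp; ring,
    k0, hk ▸ min_le_left _ _, kk2, d0, d1, by nlinarith, by nlinarith⟩
  rw [mul_one_div, div_le_one (by positivity)]
  linarith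

theorem last {x nh Ty G k A C1 C2 m : ℝ} (k0 : 0 < k) (a0 : 0 ≤ A) (c1 : 0 ≤ C1) (c2 : 0 ≤ C2)
    (ty0 : 0 ≤ Ty) (G0 : 0 ≤ G) (m1 : 1 ≤ m)
    (h : x ≤ 2 * nh + 2 * Ty + 8 / k * (A * Ty + C1 * (4 * G) + C2 * (4 * G + 13 * (√m * Ty)))) :
    x ≤ 2 * nh + (2 + 8 / k * (A + 4 * C1 + 13 * C2)) * (G + √m * Ty) := by
  have q1 : Ty ≤ √m * Ty := le_mul_of_one_le_left ty0 (Real.one_le_sqrt.2 m1)
  refine h.trans ?_
  rw [add_assoc, add_mul, mul_assoc (8 / k), add_mul, add_mul, mul_comm 4 C1, mul_comm 13 C2,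
    mul_assoc C1, mul_assoc C2]
  gcongr <;> linarith

end Main

open Main in
theorem main_proof (hB : BasicStmt) (hN : NoiseStmt) (hR : RipStmt) (hC0 : Core0Stmt)
    (hC1 : Core1Stmt) (hS : SymStmt) (hP : PtStmt) (hSh : ShellStmt) (hE : ExpStmt)
    (hPk : PkStmt) (hPi : PiStmt) : MainStmt := by
  obtain ⟨C1, c1, hC0⟩ := hC0
  obtain ⟨C2, c2, hC1⟩ := hC1
  obtain ⟨Cp, cp, hP⟩ := hP
  obtain ⟨C0, c0, hSh⟩ := hSh
  obtain ⟨Ck, -, hPk⟩ := hPk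
  obtain ⟨c, c3, c4, hPi⟩ := hPi
  obtain ⟨a, k1, k, δ, a1, a2, k11, k12, k0, kk1, kk2, d0, d1, d2, ek⟩ := consts c2 c0 c3 c4
  refine ⟨δ, k / 10, 2 + 8 / k * ((4 + C2) * (Cp / δ) + 4 * (C1 / δ) + 13 * (C2 * a ^ 3 / δ)), d0,
    d2, by positivity, by linarith, le_add_of_le_of_nonneg one_le_two (by positivity),
    fun S F τ T p Ξ Sh R m E s hi H hF hX hs => ?_⟩
  have d4 : δ ≤ 1 / 4 := by linarith
  have B := hB S
  have N := hN S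
  have L := hR S δ d0 d4 H.wf H.rip
  have T1 := H.num.one_le_T
  have p0 : 0 ≤ p := zero_le_one.trans H.num.one_le_p
  have m1 := hF.one_le
  have r0 : (0 : ℝ) < R.card := by exact_mod_cast hF.ne.card_pos
  have t0 : ∀ j : ℕ, 0 < T / 4 ^ j := fun j => by positivity
  have t1 : ∀ j : ℕ, T / 4 ^ j ≤ T := fun j => div_le_self (by linarith) (one_le_pow₀ (by norm_num))
  have x0 : ∀ (j : ℕ) b ξ, 0 ≤ S.xw (T / 4 ^ j) b ξ := fun j b ξ => (hSh S b ξ H.wf).1 _ (t0 j).le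
  have pk : ∀ j ∈ range (Sh + 1), ∀ P i, PkL S Ck a (T / 4 ^ j) P i := fun j hj P i =>
    hPk S δ a _ P i d0 d4 H.wf H.rip a1 (t0 j) (fine H.num (mem_range_succ_iff.1 hj) P)
  have hy : ∀ j ∈ range (Sh + 1), ∀ P ∈ R, Hyp S F δ τ (T / 4 ^ j) p P R m m E :=
    fun j hj P hP => ⟨d0, d4, H.wf, H.rip, H.ok, H.rate, t0 j, H.num.one_le_p, H.num.p_le_D P,
      fine H.num (mem_range_succ_iff.1 hj) P, m1, hF.blocks P hP, hF⟩
  have sh := fun (j : ℕ) (k : ℝ) (hk : k ≤ 1) => shell B N L H d0 (by linarith) cp (t0 j) (t1 j) hk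
    (x0 j) fun b ξ => hP S δ T p Ξ Sh _ b ξ d0 d4 H.wf H.rip H.num (t0 j)
  have bt : ∀ t, 0 < t → ∀ P, t * F.Bt τ t P = Z F τ (fun _ _ => 1) t P := fun t ht P => by
    simp only [Z, one_mul]
    exact (hS S F τ t p P H.wf ht p0).1
  have up := fun T' (hT : 0 < T') => upper (F := F) (τ := τ) hF.ne (t := fun j => T' / 4 ^ j)
    fun b ξ => (hSh S b ξ H.wf).2.1 T' (Sh + 1) hT
  obtain ⟨u0, ty0, ty1, ty2, ty3⟩ := ty (F := F) (p := p) (Ξ := Ξ) (Sh := Sh) (zero_le_one.trans T1)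
  have y0 : 0 ≤ Cp / δ * S.N * u F T p Ξ :=
    mul_nonneg (mul_nonneg (by positivity) (Nat.cast_nonneg _)) u0
  have E0 : 0 ≤ E := by
    obtain ⟨P0, hP0⟩ := hF.ne
    exact le_trans (add_nonneg (div_nonneg I_nn (Real.sqrt_nonneg _)) Ee_nn) (hF.err P0 hP0)
  have b0 : 0 ≤ m * ∑ b, τ b * F.Eb b :=
    mul_nonneg (by linarith) (sum_nonneg fun b _ => mul_nonneg (H.rate b).1 (Eb_nn b))
  have er : ∀ P ∈ R, F.Er p P m m E + m * ∑ b, τ b * F.Eb b ≤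
      2 * (√p * E + √m * E + m * ∑ b, τ b * F.Eb b) := fun P hP => by
    linarith only [Er_le hF p0 hP, b0, mul_nonneg (Real.sqrt_nonneg p) E0]
  have G0 : 0 ≤ √p * E + √m * E + m * ∑ b, τ b * F.Eb b := by positivity
  generalize √p * E + √m * E + m * ∑ b, τ b * F.Eb b = G at er G0 ⊢
  obtain ⟨g1, hg1⟩ : ∃ g1 : ℕ → S.P → S.B → S.G → ℝ,
    g1 = fun _ _ b ξ => ind (Val δ k1 (fun i => S.om R i ξ) b ξ) := ⟨_, rfl⟩
  obtain ⟨g2, hg2⟩ : ∃ g2 : ℕ → S.P → S.B → S.G → ℝ, g2 = fun j P b ξ =>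
    ind (Val δ (c / 2) (fun i => (1 - S.pis a (T / 4 ^ j) P i ξ) * S.om R i ξ) b ξ) := ⟨_, rfl⟩
  have n1 : ∀ j P b ξ, 0 ≤ g1 j P b ξ := fun _ _ _ _ => hg1 ▸ ind_nn _
  have n2 : ∀ j P b ξ, 0 ≤ g2 j P b ξ := fun _ _ _ _ => hg2 ▸ ind_nn _
  have z0 : ∀ (j : ℕ) P, 0 ≤ Z F τ (fun _ _ => 1) (T / 4 ^ j) P := fun j P =>
    Z_nn (fun _ _ => zero_le_one) (x0 j) P
  have z1 : ∀ (j : ℕ) P, 0 ≤ Z F τ (g1 j P) (T / 4 ^ j) P := fun j P => Z_nn (n1 j P) (x0 j) P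
  have e1 : ∀ j ∈ range (Sh + 1), ∀ P ∈ R, k1 * Z F τ (g1 j P) (T / 4 ^ j) P ≤
      7 * δ * Z F τ (fun _ _ => 1) (T / 4 ^ j) P + 2 * (Cp / δ * S.N * u F T p Ξ) +
        C1 / δ * (2 * G) * √(T / 4 ^ j) := fun j hj P hP => by
    have h1 := (hC0 S F δ τ _ p P R m m E (hy j hj P hP)).1
    rw [bt _ (t0 j), ((hS S F τ _ p P H.wf (t0 j) p0).2 R hF.ne).1] at h1
    have h2 := (gain d0 d2 y0 (z0 j P) (mul_nonneg (k0.le.trans kk1)
      (Z_nn (fun _ _ => ind_nn _) (x0 j) P))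
      (sh j k1 (by linarith only [k11, k0, kk1]) (S.om R) (N.om_mem R) P)).1
    have h3 := mul_le_mul_of_nonneg_left ((le_add_of_nonneg_right b0).trans (er P hP))
      (by positivity : 0 ≤ C1 * √(T / 4 ^ j) / δ)
    rw [hg1]
    linear_combination h1 + h2 + h3
  have e2 : ∀ j ∈ range (Sh + 1), ∀ P ∈ R, c / 2 * Z F τ (g2 j P) (T / 4 ^ j) P ≤
      7 * δ * Z F τ (fun _ _ => 1) (T / 4 ^ j) P + 2 * (Cp / δ * S.N * u F T p Ξ) + C2 / a *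
        (Z F τ (fun _ _ => 1) (a ^ 4 * T / 4 ^ j) P + 2 * Z F τ (fun _ _ => 1) (T / 4 ^ j) P +
          Cp / δ * S.N * u F T p Ξ) +
        C2 * a ^ 3 / δ * (2 * G * √(T / 4 ^ j) + 13 * √m * (T * F.I / S.q)) := fun j hj P hP => by
    have h1 := hC1 S F δ τ _ p P R m m E a (hy j hj P hP) a1
    have h0 := (hS S F τ _ p P H.wf (t0 j) p0).2 R hF.ne
    rw [bt _ (t0 j), bt _ (mul_pos (by positivity) (t0 j)), h0.1, h0.2 a fun i => (pk j hj P i).sy,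
      ← mul_div_assoc, Real.mul_self_sqrt (zero_le_one.trans m1)] at h1
    have h2 := (gain d0 d2 y0 (z0 j P) (mul_nonneg (half_pos c3).le
      (Z_nn (fun _ _ => ind_nn _) (x0 j) P)) (sh j (c / 2) (by linarith only [c3, c4])
      (fun i ξ => (1 - S.pis a (T / 4 ^ j) P i ξ) * S.om R i ξ) (fun i ξ => ⟨mul_nonneg
        (sub_nonneg.2 ((pk j hj P i).mem ξ).2) (N.om_mem R i ξ).1, mul_le_one₀
          (sub_le_self _ ((pk j hj P i).mem ξ).1) (N.om_mem R i ξ).1 (N.om_mem R i ξ).2⟩) P)).1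
    have h3 := (gain d0 d2 y0 (z0 j P) (zero_mul _).ge
      (sh j 0 zero_le_one (S.om R) (N.om_mem R) P)).2 (zero_mul _)
    have h4 := mul_le_mul_of_nonneg_left h3 (by positivity : 0 ≤ C2 / a)
    have h5 := mul_le_mul_of_nonneg_left (er P hP) (Real.sqrt_nonneg (T / 4 ^ j))
    have h6 := mul_le_mul_of_nonneg_right (kap_le (t0 j) (t1 j) T1)
      (by have := I_nn (F := F); positivity : 0 ≤ √m * F.I / S.q)
    have h7 := mul_le_mul_of_nonneg_left (add_le_add h5 h6) (by positivity : 0 ≤ C2 * a ^ 3 / δ)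
    rw [hg2]
    linear_combination h1 + h2 + h4 + h7
  have e3 := lower (F := F) (Ξ := Ξ) (hi := hi) (ε := k / 10) (s := range (Sh + 1)) B N H.rate
    hF.ne n1 n2 x0 (fun ξ h1 => by
      obtain ⟨f1, f2, -⟩ := hE S R s (k / 10 / 4) (k / 10) ξ H.wf hF.ne hX (by positivity)
        (by positivity) (by linarith only [k0]) (le_trans (by gcongr) hs)
      refine f2.trans ((mul_le_mul_of_nonneg_left f1 (by positivity)).trans_eq ?_)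
      field_simp
      norm_num) fun ξ w0 hl P b hb h3 h4 => by
    obtain ⟨j, j1, j2, j3⟩ := (hSh S b ξ H.wf).2.2 δ T p Ξ Sh d4 H.num hl (H.minD ξ w0 b h3)
    have hj := mem_range_succ_iff.2 j1
    have o : S.own b = P := (mem_filter.1 hb).2
    rw [hg1, hg2]
    refine ⟨j, hj, j3, (dich N L H.wf (fun i => (pk j hj P i).mem ξ) (ek.trans kk1) (ek.trans kk2)
      k11 (by linarith only [c4]) h4 fun i hi h => ?_).imp ind_of ind_of⟩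
    have e := (B.mem_J H.wf P i b hb).1 hi
    have := hPi S δ a _ P i ξ d0 d4 H.wf H.rip a1 (t0 j) (fine H.num j1 P)
      (by rw [e, ← o]; exact j2) (by rw [e, k12]; exact h)
    linarith only [this]
  have f1 := sum_le_sum fun j hj => sum_le_sum (e1 j hj)
  have f2 := sum_le_sum fun j hj => sum_le_sum (e2 j hj)
  simp only [sum_add_distrib, mul_add, sum_const, card_range, nsmul_eq_mul, ← mul_sum,
    Nat.cast_add, Nat.cast_one] at f1 f2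
  have sq := sum_sqrt (zero_le_one.trans T1) (Sh + 1)
  refine last k0 (by positivity) (by positivity) (by positivity) ty0 (by positivity) m1 ?_
  rw [mul_assoc (4 + C2)]
  refine num (y := Cp / δ * S.N * u F T p Ξ) (Sh := Sh + 1) r0 k0 kk1 kk2
    (sum_nonneg fun ξ _ => mul_nonneg (Wm_nn ξ) (div_nonneg
      (sum_nonneg fun _ _ => sum_nonneg fun _ _ => ind_nn _) r0.le))
    (sum_nonneg fun j (_ : j ∈ range (Sh + 1)) => sum_nonneg fun P (_ : P ∈ R) => z1 j P) d0 c2 a1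
    d1 a2 (up T (by positivity)) (up (a ^ 4 * T) (by positivity)) ?_ (by positivity) ?_ ?_
    (e3.trans (add_le_add_left (mul_le_mul_of_nonneg_left (add_le_add_right ty2 _) r0.le) _))
    (by positivity)
  · linear_combination mul_le_mul_of_nonneg_left ty1 (by positivity : 0 ≤ R.card * (Cp / δ))
  · linear_combination f1 +
      mul_le_mul_of_nonneg_left sq (by positivity : 0 ≤ R.card * (C1 / δ * (2 * G)))
  · linear_combination f2 + mul_le_mul_of_nonneg_left sq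
      (by positivity : 0 ≤ R.card * (C2 * a ^ 3 / δ * (2 * G))) + mul_le_mul_of_nonneg_left ty3
      (by positivity : 0 ≤ R.card * (C2 * a ^ 3 / δ * (13 * √m)))

end Vale.Agent.P318.D
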