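import Vale.Agent.P318.D.Stmt
import Vale.Agent.P318.NegKer

/-!
Track D: repair of the triangle inequality, and the passage from the instances to all sizes.
-/

namespace Vale.Agent.P318.D

open Finset

namespace MetricP

/-- The concave profile. -/
noncomputable def ps (T r : ℝ) : ℝ := T * (1 - Real.exp (-(T⁻¹ * r)))

lemma one_sub_nonneg {T r : ℝ} (hT : 0 < T) (hr : 0 ≤ r) : 0 ≤ 1 - Real.exp (-(T⁻¹ * r)) :=
  sub_nonneg.2 (Real.exp_le_one_iff.2 (neg_nonpos.2 (by positivity)))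

lemma ps_nonneg {T r : ℝ} (hT : 0 < T) (hr : 0 ≤ r) : 0 ≤ ps T r :=
  mul_nonneg hT.le (one_sub_nonneg hT hr)

lemma ps_le {T : ℝ} (hT : 0 < T) (r : ℝ) : ps T r ≤ r := by
  have h := mul_le_mul_of_nonneg_left (Real.add_one_le_exp (-(T⁻¹ * r))) hT.le
  have e : T * (T⁻¹ * r) = r := mul_inv_cancel_left₀ hT.ne' r
  unfold ps
  nlinarith

lemma ps_mono {T r s : ℝ} (hT : 0 < T) (h : r ≤ s) : ps T r ≤ ps T s :=
  mul_le_mul_of_nonneg_left (sub_le_sub_left (Real.exp_le_exp.2 (neg_le_neg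
    (mul_le_mul_of_nonneg_left h (inv_pos.2 hT).le))) 1) hT.le

lemma ps_add (T a b : ℝ) : ps T (a + b) = ps T a + ps T b -
    T * ((1 - Real.exp (-(T⁻¹ * a))) * (1 - Real.exp (-(T⁻¹ * b)))) := by
  unfold ps
  rw [mul_add, neg_add, Real.exp_add]
  ring

lemma gain_nonneg {T a b : ℝ} (hT : 0 < T) (ha : 0 ≤ a) (hb : 0 ≤ b) :
    0 ≤ T * ((1 - Real.exp (-(T⁻¹ * a))) * (1 - Real.exp (-(T⁻¹ * b)))) :=
  mul_nonneg hT.le (mul_nonneg (one_sub_nonneg hT ha) (one_sub_nonneg hT hb))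

lemma gain_ge {T a b : ℝ} (hT : 0 < T) (h1 : a ≤ T) (h2 : T ≤ 2 * a) (hab : a ≤ b) :
    4 / 27 * a ≤ T * ((1 - Real.exp (-(T⁻¹ * a))) * (1 - Real.exp (-(T⁻¹ * b)))) := by
  have e1 : Real.exp (-(1 / 2)) ≤ 61 / 100 := by
    have h3 : Real.exp (-(1 / 2)) * Real.exp (-(1 / 2)) = Real.exp (-1) := by
      rw [← Real.exp_add]; norm_num
    nlinarith [Real.exp_neg_one_lt_d9, Real.exp_pos (-(1 / 2) : ℝ)]
  have k : ∀ r, a ≤ r → 39 / 100 ≤ 1 - Real.exp (-(T⁻¹ * r)) := fun r hr => by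
    have : 1 / 2 ≤ T⁻¹ * r := by
      rw [← div_eq_inv_mul, le_div_iff₀ hT]
      linarith
    linarith [Real.exp_le_exp.2 (neg_le_neg this)]
  have h4 := mul_le_mul (k a le_rfl) (k b hab) (by norm_num) (by linarith [k a le_rfl])
  have h5 := mul_le_mul_of_nonneg_left h4 hT.le
  linarith

lemma exists_scale {a : ℝ} {K : ℕ} (h1 : 1 / 16 ≤ a) (h2 : a ≤ 2 ^ K / 16) :
    ∃ j ∈ range (K + 1), a ≤ 2 ^ j / 16 ∧ (2 : ℝ) ^ j / 16 ≤ 2 * a := by
  induction K with
  | zero => exact ⟨0, by simp, h2, by linarith⟩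
  | succ K ih =>
    by_cases h : a ≤ 2 ^ K / 16
    · obtain ⟨j, hj, h3⟩ := ih h
      exact ⟨j, mem_range.2 (by have := mem_range.1 hj; omega), h3⟩
    · exact ⟨K + 1, by simp, h2, by rw [pow_succ]; linarith [not_le.1 h]⟩

/-- The repaired distance as a function of the squared Euclidean distance. -/
noncomputable def dd (η : ℝ) (K : ℕ) (r : ℝ) : ℝ :=
  r + 27 * η * ∑ j ∈ range (K + 1), ps (2 ^ j / 16) r

lemma tri {η a b c : ℝ} {K : ℕ} (hη : 0 ≤ η) (hK : 27 * η * (K + 1) ≤ 1) (h0 : 0 ≤ a)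
    (hab : a ≤ b) (h1 : a = 0 ∨ 1 / 16 ≤ a) (h2 : a ≤ 2 ^ K / 16) (hc : c ≤ a + b + 2 * η * a) :
    dd η K c ≤ dd η K a + dd η K b := by
  have he : 0 ≤ 2 * η * a := by positivity
  have hb : 0 ≤ b := h0.trans hab
  let g : ℕ → ℝ := fun j => (2 ^ j / 16 : ℝ) * ((1 - Real.exp (-((2 ^ j / 16 : ℝ)⁻¹ * a))) *
    (1 - Real.exp (-((2 ^ j / 16 : ℝ)⁻¹ * b))))
  have hg : ∀ j, 0 ≤ g j := fun j => gain_nonneg (by positivity) h0 hb
  have k1 : ∀ j ∈ range (K + 1), ps (2 ^ j / 16) c ≤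
      ps (2 ^ j / 16) a + ps (2 ^ j / 16) b - g j + 2 * η * a := fun j _ => by
    have hT : (0 : ℝ) < 2 ^ j / 16 := by positivity
    have m1 := ps_mono hT hc
    rw [ps_add, ps_add] at m1
    have m2 := gain_nonneg hT (add_nonneg h0 hb) he
    have m3 := ps_le hT (2 * η * a)
    simp only [g]
    linarith
  have k2 := sum_le_sum k1
  rw [sum_add_distrib, sum_sub_distrib, sum_add_distrib, sum_const, card_range, nsmul_eq_mul]
    at k2
  push_cast at k2
  have k3 : 4 / 27 * a ≤ ∑ j ∈ range (K + 1), g j := by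
    rcases h1 with rfl | h1
    · simpa using sum_nonneg fun j _ => hg j
    · obtain ⟨j, hj, h3, h4⟩ := exists_scale h1 h2
      exact (gain_ge (by positivity) h3 h4 hab).trans (single_le_sum (fun j _ => hg j) hj)
  have hw : 0 ≤ 27 * η := by positivity
  have k4 := mul_le_mul_of_nonneg_left k2 hw
  have k5 := mul_le_mul_of_nonneg_left k3 hw
  have k6 := mul_le_mul_of_nonneg_right hK he
  unfold dd
  nlinarith

end MetricP

open MetricP

theorem metric_proof : MetricStmt := by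
  intro X ι _ _ u η K hη hK hsep hle hac
  have hρ : NegKer fun x y => ∑ i, (u x i - u y i) ^ 2 :=
    NegKer.sum univ fun i _ => NegKer.sq_sub fun x => u x i
  have h0 : ∀ x y, 0 ≤ ∑ i, (u x i - u y i) ^ 2 := fun x y => by positivity
  refine ⟨fun x y => dd η K (∑ i, (u x i - u y i) ^ 2), ?_, fun x y z => ?_, fun x y => ⟨?_, ?_⟩⟩
  · exact hρ.add (NegKer.const_mul (NegKer.sum (range (K + 1)) fun j _ =>
      (hρ.one_sub_exp (t := (2 ^ j / 16 : ℝ)⁻¹) (by positivity)).const_mul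
        (t := 2 ^ j / 16) (by positivity)) (by positivity))
  · have e : ∑ i, (u x i - u z i) ^ 2 = ∑ i, (u x i - u y i) ^ 2 + ∑ i, (u y i - u z i) ^ 2 -
        2 * ∑ i, (u x i - u y i) * (u z i - u y i) := by
      rw [mul_sum, ← sum_add_distrib, ← sum_sub_distrib]
      exact sum_congr rfl fun i _ => by ring
    rcases le_total (∑ i, (u x i - u y i) ^ 2) (∑ i, (u y i - u z i) ^ 2) with h | h
    · exact tri hη hK (h0 x y) h (hsep x y) (hle x y) (by linarith [hac x y z])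
    · rw [add_comm]
      refine tri hη hK (h0 y z) h (hsep y z) (hle y z) ?_
      have h1 := hac z y x
      have e1 : ∑ i, (u z i - u y i) ^ 2 = ∑ i, (u y i - u z i) ^ 2 := hρ.symm z y
      have e2 : ∑ i, (u z i - u y i) * (u x i - u y i) = ∑ i, (u x i - u y i) * (u z i - u y i) :=
        sum_congr rfl fun i _ => mul_comm _ _
      rw [e1, e2] at h1
      linarith
  · exact le_add_of_nonneg_right (mul_nonneg (by positivity)
      (sum_nonneg fun j _ => ps_nonneg (by positivity) (h0 x y)))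
  · have h1 := sum_le_card_nsmul (range (K + 1))
      (fun j => ps (2 ^ j / 16) (∑ i, (u x i - u y i) ^ 2)) _
      fun j _ => ps_le (by positivity) _
    rw [card_range, nsmul_eq_mul] at h1
    push_cast at h1
    have h2 := mul_le_mul_of_nonneg_left h1 (by positivity : 0 ≤ 27 * η)
    have h3 := mul_le_mul_of_nonneg_right hK (h0 x y)
    unfold dd
    nlinarith

theorem final_proof (h : InstStmt) : FinalStmt := by
  obtain ⟨c, C0, hc, hC0, L0, H⟩ := h
  obtain ⟨C, hC, hCC⟩ : ∃ C : ℝ, 1 ≤ C ∧ C0 ≤ C := ⟨max 1 C0, le_max_left _ _, le_max_right _ _⟩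
  have hg : ∀ L : ℕ, 1 ≤ L → Real.exp L ≤ C * L ^ 3 * 256 ^ L := fun L hL => by
    have h1 : (1 : ℝ) ≤ (L : ℝ) ^ 3 := one_le_pow₀ (by exact_mod_cast hL)
    have h2 : Real.exp L ≤ 256 ^ L := by
      rw [← mul_one (L : ℝ), Real.exp_nat_mul]
      exact pow_le_pow_left₀ (Real.exp_pos _).le (by linarith [Real.exp_one_lt_d9]) _
    exact h2.trans (le_mul_of_one_le_left (by positivity) (one_le_mul_of_one_le_of_one_le hC h1))
  refine ⟨c / √(2048 * C), by positivity,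
    ⌈Real.exp (C * ((L0 + 1 : ℕ) : ℝ) ^ 3 * 256 ^ (L0 + 1))⌉₊, fun n hn => ?_⟩
  obtain ⟨L, hL, h1, h2⟩ : ∃ L : ℕ, L0 + 1 ≤ L ∧ Real.exp (C * L ^ 3 * 256 ^ L) ≤ n ∧
      (n : ℝ) < Real.exp (C * ((L + 1 : ℕ) : ℝ) ^ 3 * 256 ^ (L + 1)) := by
    by_contra hcon
    push Not at hcon
    have hall : ∀ L : ℕ, L0 + 1 ≤ L → Real.exp (C * L ^ 3 * 256 ^ L) ≤ n := fun L hL => by
      induction L, hL using Nat.le_induction with
      | base => exact Nat.ceil_le.1 hn
      | succ L hL ih => exact hcon L hL ih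
    have h3 := hall (L0 + 1 + n) (by omega)
    have h4 := hg (L0 + 1 + n) (by omega)
    have h5 := Real.add_one_le_exp ((L0 + 1 + n : ℕ) : ℝ)
    have h6 := Real.add_one_le_exp (C * ((L0 + 1 + n : ℕ) : ℝ) ^ 3 * 256 ^ (L0 + 1 + n))
    have h7 : (n : ℝ) ≤ ((L0 + 1 + n : ℕ) : ℝ) := by exact_mod_cast (by omega)
    linarith
  have hL1 : (1 : ℝ) ≤ L := by exact_mod_cast (by omega : 1 ≤ L)
  have hn0 : (0 : ℝ) < n := (Real.exp_pos _).trans_le h1
  have l1 : C * L ^ 3 * 256 ^ L ≤ Real.log n := (Real.le_log_iff_exp_le hn0).2 h1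
  have l2 : (L : ℝ) ≤ Real.log (Real.log n) :=
    (Real.le_log_iff_exp_le (lt_of_lt_of_le (by positivity) l1)).2 ((hg L (by omega)).trans l1)
  have l3 : Real.log n ≤ 2048 * C * (L * √L * 16 ^ L) ^ 2 := by
    refine ((Real.log_lt_iff_lt_exp hn0).2 h2).le.trans ?_
    have e1 : ((L : ℝ) * √L * 16 ^ L) ^ 2 = L ^ 3 * 256 ^ L := by
      rw [mul_pow, mul_pow, Real.sq_sqrt (by positivity), ← pow_mul, mul_comm L 2, pow_mul]
      norm_num
      ring
    have e2 : ((L + 1 : ℕ) : ℝ) ^ 3 ≤ (2 * L) ^ 3 :=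
      pow_le_pow_left₀ (by positivity) (by push_cast; linarith) 3
    rw [e1, pow_succ (256 : ℝ)]
    have e3 := mul_le_mul_of_nonneg_left e2 (by positivity : (0 : ℝ) ≤ C * (256 ^ L * 256))
    nlinarith
  have l4 : √(Real.log n) ≤ √(2048 * C) * (L * √L * 16 ^ L) := by
    refine (Real.sqrt_le_sqrt l3).trans (le_of_eq ?_)
    rw [Real.sqrt_mul (by positivity), Real.sqrt_sq (by positivity)]
  refine le_trans ?_ (H L (by omega) n (le_trans (Real.exp_le_exp.2 ?_) h1))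
  · have hs : 0 < √(L : ℝ) := by positivity
    have hq : 0 < √(2048 * C) := by positivity
    calc c / √(2048 * C) * √(Real.log n) / Real.log (Real.log n) ^ 3
        ≤ c / √(2048 * C) * (√(2048 * C) * (L * √L * 16 ^ L)) / L ^ 3 := by
          gcongr
      _ = c * 16 ^ L / (L * √L) := by
          have e : (L : ℝ) ^ 3 = (L * √L) * (L * √L) := by
            have := Real.mul_self_sqrt (show (0 : ℝ) ≤ L by positivity)
            calc (L : ℝ) ^ 3 = L * L * L := by ring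
              _ = L * L * (√L * √L) := by rw [this]
              _ = _ := by ring
          rw [e]
          field_simp
  · gcongr

end Vale.Agent.P318.D
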