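import Vale.Agent.P318.D.Stmt

/-!
Track D: the near-line part of the pairing is small.
-/

namespace Vale.Agent.P318.D

open Finset
open scoped BigOperators

namespace Near

variable {S : Sys}

/-- The normalisation. -/
noncomputable def NN (S : Sys) (a t : ℝ) (P : S.P) (i : S.ι) : ℝ :=
  S.nrm (2 * a ^ 4 * t / S.ν P) (kap t) i (S.pb P i)

/-- The Fejer kernel at the hyperplane `i`. -/
noncomputable def th (c : S.ι → ZMod S.q) (t : ℝ) (i : S.ι) (β : S.G) : ℝ :=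
  fej (kap t) (S.y c i β)

/-- The smoothed test vector. -/
noncomputable def Z (t : ℝ) (P : S.P) (X : S.ι → S.G → ℝ) (i : S.ι) : S.G → ℝ :=
  S.cv (S.hk (t / S.ν P) (S.pb P i)) (X i)

/-- The localised test vector. -/
noncomputable def W (c : S.ι → ZMod S.q) (a t : ℝ) (P : S.P) (X : S.ι → S.G → ℝ) (i : S.ι)
    (β : S.G) : ℝ := th c t i β / NN S a t P i * Z t P X i β

/-- The main test vector. -/
noncomputable def Y1 (c : S.ι → ZMod S.q) (a t : ℝ) (P : S.P) (X : S.ι → S.G → ℝ) (i : S.ι) :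
    S.G → ℝ := S.cv (S.hk (a ^ 4 * t / S.ν P) (S.pb P i)) (W c a t P X i)

/-- The remainder. -/
noncomputable def Y2 (c : S.ι → ZMod S.q) (a t : ℝ) (P : S.P) (X : S.ι → S.G → ℝ) (i : S.ι)
    (β : S.G) : ℝ :=
  S.cv (S.pkt a t P i) (Z t P X i) β -
    S.cv (S.hk (2 * a ^ 4 * t / S.ν P) (S.pb P i)) (W c a t P X i) β

theorem one_le_kap (t : ℝ) : 1 ≤ kap t := by unfold kap; omega

theorem split (hB : Basic S) (hH : Heat S) (hN : Noise S) (F : Fn S) (τ : S.B → ℝ) {a t : ℝ}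
    {P : S.P} (h1 : 0 ≤ t / S.ν P) (h2 : 0 ≤ a ^ 4 * t / S.ν P) (X : S.ι → S.G → ℝ) (i : S.ι) :
    𝔼 β, F.al τ t P i β * S.cv (S.pkt a t P i) (X i) β =
      𝔼 β, F.al τ (a ^ 4 * t) P i β * Y1 F.c a t P X i β +
      𝔼 β, S.cv (S.nzT τ i) (F.a i) β * Y2 F.c a t P X i β +
      𝔼 β, S.cv (S.nzN τ i) (F.a i) β * Y2 F.c a t P X i β := by
  unfold Fn.al Y1
  rw [hB.cv_adj _ _ _ (hH.mkv _ _ h1).2.2, hB.cv_adj _ _ _ (hH.mkv _ _ h2).2.2, hH.semi,
    hB.cv_comm, ← Finset.expect_add_distrib, ← Finset.expect_add_distrib]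
  refine Finset.expect_congr rfl fun β _ => ?_
  rw [hN.split τ i, Y2, Z, show 2 * a ^ 4 * t / S.ν P = a ^ 4 * t / S.ν P + a ^ 4 * t / S.ν P by
    ring]
  ring

theorem dot_nv (hH : Heat S) {s : ℝ} {b : S.B} {w : S.G} (h : S.hk s b w ≠ 0) (i : S.ι) :
    S.dot (S.nv i b) w = S.dot (S.nG i) w := by
  refine Finset.sum_congr rfl fun l _ => ?_
  by_cases hl : S.blk l = b
  · simp [Sys.nv, Sys.nG, hl]
  · simp [hH.supp s b w h l hl]

theorem Y2_near (hB : Basic S) (hH : Heat S) (hF : FejStmt) (c : S.ι → ZMod S.q) {a t : ℝ}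
    {P : S.P} (h2 : 0 ≤ 2 * a ^ 4 * t / S.ν P) {X : S.ι → S.G → ℝ} {i : S.ι}
    (hN : 0 < NN S a t P i) {r : ℝ} (hZ : ∀ β, |Z t P X i β| ≤ r) {β : S.G}
    (hβ : S.near c i β) :
    |Y2 c a t P X i β| ≤ 7 * (kap t : ℝ) ^ 2 / S.q / NN S a t P i * r := by
  obtain ⟨m1, m2, -⟩ := hH.mkv _ (S.pb P i) h2
  have hd : ∀ z : ZMod S.q, |fej (kap t) z - fej (kap t) (S.y c i β + z)| ≤
      7 * (kap t : ℝ) ^ 2 / S.q := fun z => by
    rcases hβ with h | h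
    · rw [h, zero_add, sub_self, abs_zero]
      positivity
    · have := (hF S.q (kap t) (one_le_kap t) (-1 + z)).2.2.2
      rwa [show -1 + z + 1 = z by ring, ← h] at this
  unfold Y2 Sys.cv
  rw [← Finset.sum_sub_distrib]
  refine (Finset.abs_sum_le_sum_abs _ _).trans ?_
  rw [← one_mul (7 * (kap t : ℝ) ^ 2 / S.q / NN S a t P i * r), ← m2, Finset.sum_mul]
  refine Finset.sum_le_sum fun w _ => ?_
  by_cases hw : S.hk (2 * a ^ 4 * t / S.ν P) (S.pb P i) w = 0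
  · simp [Sys.pkt, Sys.pk, hw]
  · have e : S.pkt a t P i w * Z t P X i (β + w) -
        S.hk (2 * a ^ 4 * t / S.ν P) (S.pb P i) w * W c a t P X i (β + w) =
        S.hk (2 * a ^ 4 * t / S.ν P) (S.pb P i) w * ((fej (kap t) (S.dot (S.nG i) w) -
          fej (kap t) (S.y c i β + S.dot (S.nG i) w)) / NN S a t P i * Z t P X i (β + w)) := by
      rw [Sys.pkt, Sys.pk, dot_nv hH hw, W, th, hB.y_add, NN]
      ring
    rw [e, abs_mul, abs_of_nonneg (m1 w), abs_mul, abs_div, abs_of_pos hN]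
    exact mul_le_mul_of_nonneg_left (mul_le_mul (div_le_div_of_nonneg_right (hd _) hN.le) (hZ _)
      (abs_nonneg _) (by positivity)) (m1 w)

theorem layer (hB : Basic S) (hN : Noise S) (hW : S.WF) {F : Fn S} (hF : F.OK) {τ : S.B → ℝ}
    (hτ : S.Rate τ) (i : S.ι) {Y : S.G → ℝ} {r : ℝ} (hr : 0 ≤ r)
    (hY : ∀ β, S.near F.c i β → |Y β| ≤ r) :
    |𝔼 β, S.cv (S.nzN τ i) (F.a i) β * Y β| ≤ r * 𝔼 β, |F.a i β| := by
  refine (Finset.abs_expect_le _ _).trans (le_trans ?_ (mul_le_mul_of_nonneg_left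
    (hB.ex_abs _ (F.a i) (fun w => hN.nzN_nonneg τ i w hτ) (hN.nzN_sum τ i hτ)) hr))
  rw [Finset.mul_expect]
  refine Finset.expect_le_expect fun β _ => ?_
  by_cases h0 : S.cv (S.nzN τ i) (F.a i) β = 0
  · simp [h0]
  · obtain ⟨w, -, hw⟩ := Finset.exists_ne_zero_of_sum_ne_zero h0
    have h1 := hF.lay i _ (right_ne_zero_of_mul hw)
    rw [Sys.near, hB.y_add, hN.nzN_supp hW τ i w (left_ne_zero_of_mul hw), add_zero] at h1
    rw [abs_mul, mul_comm]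
    exact mul_le_mul_of_nonneg_right (hY β h1) (abs_nonneg _)

theorem sq_Y1 (hB : Basic S) (hH : Heat S) (hF : FejStmt) (c : S.ι → ZMod S.q) {K a t : ℝ}
    {P : S.P} (h1 : 0 ≤ t / S.ν P) (h2 : 0 ≤ a ^ 4 * t / S.ν P) (X : S.ι → S.G → ℝ) {i : S.ι}
    (h : PkL S K a t P i) : 𝔼 β, Y1 c a t P X i β ^ 2 ≤ K * a ^ 2 * 𝔼 β, X i β ^ 2 := by
  obtain ⟨N1, N2, n1, n2, n3, n4, n5⟩ := h.sup
  have hN : 0 < NN S a t P i := h.pos
  have m1 := hH.mkv _ (S.pb P i) h1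
  have m2 := hH.mkv _ (S.pb P i) h2
  have h0 : ∀ β, 0 ≤ th c t i β := fun β => (hF S.q (kap t) (one_le_kap t) _).1
  have e1 : ∀ β, Y1 c a t P X i β = (NN S a t P i)⁻¹ *
      S.cv (S.hk (a ^ 4 * t / S.ν P) (S.pb P i)) (fun β => th c t i β * Z t P X i β) β := by
    intro β
    rw [← hB.cv_mul, Y1]
    congr 1
    funext β
    rw [W]
    ring
  have e2 : 𝔼 β, th c t i β * Z t P X i β ^ 2 ≤ N1 * 𝔼 β, X i β ^ 2 := by
    calc 𝔼 β, th c t i β * Z t P X i β ^ 2 ≤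
          𝔼 β, th c t i β * S.cv (S.hk (t / S.ν P) (S.pb P i)) (fun β => X i β ^ 2) β :=
          Finset.expect_le_expect fun β _ =>
            mul_le_mul_of_nonneg_left (hB.cv_sq _ _ m1 β) (h0 β)
      _ = 𝔼 β, S.cv (S.hk (t / S.ν P) (S.pb P i)) (th c t i) β * X i β ^ 2 :=
          (hB.cv_adj _ _ _ m1.2.2).symm
      _ ≤ _ := by
          rw [Finset.mul_expect]
          exact Finset.expect_le_expect fun β _ =>
            mul_le_mul_of_nonneg_right (n3 c β) (sq_nonneg _)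
  have e3 : 𝔼 β, S.cv (S.hk (a ^ 4 * t / S.ν P) (S.pb P i))
      (fun β => th c t i β * Z t P X i β) β ^ 2 ≤ N2 * 𝔼 β, th c t i β * Z t P X i β ^ 2 := by
    rw [← hB.ex_cv _ (fun β => th c t i β * Z t P X i β ^ 2) m2, Finset.mul_expect]
    refine Finset.expect_le_expect fun β _ => (hB.cv_cs _ _ _ m2 h0 β).trans ?_
    exact mul_le_mul_of_nonneg_right (n4 c β) (hB.le_cv _ _ 0 m2
      (fun β => mul_nonneg (h0 β) (sq_nonneg _)) β)
  have e4 : 0 ≤ 𝔼 β, X i β ^ 2 := Finset.expect_nonneg fun _ _ => sq_nonneg _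
  simp only [e1, mul_pow]
  rw [← Finset.mul_expect, inv_pow, inv_mul_le_iff₀ (by positivity)]
  calc _ ≤ N2 * (N1 * 𝔼 β, X i β ^ 2) := e3.trans (mul_le_mul_of_nonneg_left e2 n2)
    _ = N1 * N2 * 𝔼 β, X i β ^ 2 := by ring
    _ ≤ K * a ^ 2 * NN S a t P i ^ 2 * 𝔼 β, X i β ^ 2 := mul_le_mul_of_nonneg_right n5 e4
    _ = _ := by ring

theorem db (hB : Basic S) (hD : DBL S) (hH : Heat S) (hF : FejStmt) (hW : S.WF)
    (c : S.ι → ZMod S.q) {K a t : ℝ} (hK : 0 ≤ K) {P : S.P} (h1 : 0 ≤ t / S.ν P)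
    (h2 : 0 ≤ a ^ 4 * t / S.ν P) (h3 : 0 ≤ 2 * a ^ 4 * t / S.ν P) {X : S.ι → S.G → ℝ}
    (h : ∀ i, PkL S K a t P i) {ℓ r : ℝ} (hℓ : 0 ≤ ℓ) (hr : 0 ≤ r) {b : S.B} (hb : b ∈ S.Bl P)
    (hX : S.DB (S.J b) X ℓ r) :
    S.DB (S.J b) (Z t P X) ℓ r ∧
      S.DB (S.J b) (Y1 c a t P X) (K * a ^ 2 * ℓ) (K * a ^ 2 * r) ∧
      S.DB (S.J b) (Y2 c a t P X) (2 * (K * a ^ 2 * ℓ)) (2 * (K * a ^ 2 * r)) := by
  have hi : ∀ i ∈ S.J b, S.pb P i = b := fun i hi => (hB.mem_J hW P i b hb).1 hi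
  have hκ : 0 ≤ K * a ^ 2 := by positivity
  have dZ : S.DB (S.J b) (Z t P X) ℓ r :=
    hD.congr _ _ _ _ _ (hD.cv _ _ _ _ _ (hH.mkv _ b h1) hX) fun i h => by rw [Z, hi i h]
  have dW : S.DB (S.J b) (W c a t P X) (K * a ^ 2 * ℓ) (K * a ^ 2 * r) :=
    hD.mul _ _ _ _ (fun i β => th c t i β / NN S a t P i) _ hℓ hr hκ (fun i _ β => by
      have hN : 0 < NN S a t P i := (h i).pos
      obtain ⟨f1, f2, -⟩ := hF S.q (kap t) (one_le_kap t) (S.y c i β)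
      rw [th, abs_of_nonneg (div_nonneg f1 hN.le), div_le_iff₀ hN]
      exact f2.trans (h i).kap_le) dZ
  refine ⟨dZ, hD.congr _ _ _ _ _ (hD.cv _ _ _ _ _ (hH.mkv _ b h2) dW) fun i h => by
    rw [Y1, hi i h], ?_⟩
  rw [two_mul, two_mul]
  refine hD.congr _ _ _ _ _ (hD.sub _ _ _ _ _ _ _ (hD.dom _ _ _ _ _ (S.pkt a t P) _
    (hH.mkv _ b h3) hℓ hr hκ (fun i h' w => hi i h' ▸ (h i).dom w) dZ)
    (hD.cv _ _ _ _ _ (hH.mkv _ b h3) dW)) fun i h => funext fun β => ?_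
  rw [Y2, hi i h]

theorem main (hB : Basic S) (hP : PairStmt) (hV : VStmt) {F : Fn S} {δ : ℝ} {τ : S.B → ℝ}
    {t p : ℝ} {P : S.P} {R : Finset S.P} {m m' E' : ℝ} (h : Hyp S F δ τ t p P R m m' E')
    {t' β0 ℓ r s : ℝ} (ht : 0 < t') (h0 : 0 ≤ β0) (h1 : 20 / t' ≤ β0 ^ 2) (hℓ : 0 ≤ ℓ)
    (hr : 0 ≤ r) (hs : 0 < s) {Y : S.ι → S.G → ℝ} (hY : ∀ b ∈ S.Bl P, S.DB (S.J b) Y ℓ r) :
    |∑ i, 𝔼 β, F.al τ t' P i β * Y i β| ≤ s * F.Bt τ t' P + nsq Y / (2 * s) + ℓ * F.I +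
      9 / δ * (s / 2 * β0 + r) * F.EP P := by
  obtain ⟨v1, v2, v3, v4, -⟩ := hV S F τ t' P h.wf h.ok h.rate ht
  have hδ := h.δ_pos
  have key : ∀ b ∈ S.Bl P, |∑ i ∈ S.J b, 𝔼 β, F.al τ t' P i β * Y i β| ≤
      s * ∑ l ∈ S.Lb b, 𝔼 β, F.V τ t' l β ^ 2 + (∑ i ∈ S.J b, 𝔼 β, Y i β ^ 2) / (2 * s) +
        ℓ * ∑ i ∈ S.J b, 𝔼 β, |F.a i β| + 9 / δ * (s / 2 * β0 + r) * F.Eb b := fun b hb => by
    have k1 := hP S δ h.δ_pos h.δ_le h.wf h.rip b (F.al τ t' P) Y (F.V τ t') _ β0 ℓ r s _ h0 hℓ hr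
      hs (v2 b hb) (fun β => (v1 b β).trans h1) (hY b hb) (v4 b hb)
    have k2 : ℓ * ∑ i ∈ S.J b, 𝔼 β, |F.al τ t' P i β| ≤ ℓ * ∑ i ∈ S.J b, 𝔼 β, |F.a i β| :=
      mul_le_mul_of_nonneg_left (Finset.sum_le_sum fun i _ => v3 i) hℓ
    have k3 : 0 ≤ s * ∑ l ∈ S.Lb b, 𝔼 β, F.V τ t' l β ^ 2 := mul_nonneg hs.le
      (Finset.sum_nonneg fun _ _ => Finset.expect_nonneg fun _ _ => sq_nonneg _)
    have k4 := mul_le_mul_of_nonneg_right h.δ_le k3
    linarith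
  rw [← hB.sum_J h.wf P]
  refine ((Finset.abs_sum_le_sum_abs _ _).trans (Finset.sum_le_sum key)).trans ?_
  simp only [Finset.sum_add_distrib, ← Finset.mul_sum, ← Finset.sum_div]
  rw [hB.sum_J h.wf P, hB.sum_J h.wf P, hB.sum_Lb]
  have := mul_le_mul_of_nonneg_left (hB.sum_Eb h.wf F P)
    (show 0 ≤ 9 / δ * (s / 2 * β0 + r) by positivity)
  unfold Fn.Bt nsq Fn.I
  linarith

theorem arith {K a u d B n x y z w v : ℝ} (hK : 1 ≤ K) (ha : 1 ≤ a) (hu : 0 ≤ u) (hd : 1 ≤ d)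
    (hB : 0 ≤ B) (hn : 0 ≤ n) (hx : 0 ≤ x) (hy : 0 ≤ y) (hz : 0 ≤ z) (hw : 0 ≤ w) (hv : 0 ≤ v) :
    a ^ 3 * B + K / (2 * a) * n + K * a ^ 2 * u * (540 * x + 1330 * v) +
      K * a ^ 3 * u * d * (113 * z + 180 * w) ≤
    1400 * K / a * (a ^ 4 * B + n) + 1400 * K * a ^ 3 * (u * d) * (x + y + z + w + v) := by
  have h1 : a ^ 3 * B ≤ 1400 * K * (a ^ 3 * B) :=
    le_mul_of_one_le_left (by positivity) (by linarith)
  have h2 : 1400 * K / a * (a ^ 4 * B + n) = 1400 * K * (a ^ 3 * B) + 2800 * (K / (2 * a) * n) := by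
    field_simp
    ring
  have h3 : 0 ≤ K / (2 * a) * n := by positivity
  have h4 : K * a ^ 2 * u ≤ K * a ^ 3 * (u * d) :=
    mul_le_mul (mul_le_mul_of_nonneg_left (pow_le_pow_right₀ ha (by norm_num)) (by linarith))
      (le_mul_of_one_le_right hu hd) hu (by positivity)
  have h5 := mul_le_mul_of_nonneg_right h4 (show 0 ≤ 540 * x + 1330 * v by positivity)
  have h6 : 0 ≤ K * a ^ 3 * (u * d) := by positivity
  have h7 := mul_nonneg h6 hx
  have h8 := mul_nonneg h6 hy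
  have h9 := mul_nonneg h6 hz
  have h10 := mul_nonneg h6 hw
  have h11 := mul_nonneg h6 hv
  rw [h2]
  linarith

end Near

open Near in
theorem near_proof (hB : BasicStmt) (hD : DBStmt) (hH : HeatStmt) (hN : NoiseStmt) (hF : FejStmt)
    (hPk : PkStmt) (hP : PairStmt) (hTo : TouchStmt) (hV : VStmt) (hX : XStmt) : NearStmt := by
  obtain ⟨K, hK, hPk⟩ := hPk
  refine ⟨1400 * K, by linarith, fun S F δ τ t p P R m m' E' a h ha => ?_⟩
  have ht := h.t_pos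
  have hδ := h.δ_pos
  have hν : 0 < S.ν P := one_pos.trans_le (h.wf.one_le_ν P)
  have hq : (0 : ℝ) < S.q := Nat.cast_pos.2 (by have := h.wf.big; omega)
  have hk : ∀ i, PkL S K a t P i := fun i =>
    hPk S δ a t P i h.δ_pos h.δ_le h.wf h.rip ha ht h.fine
  obtain ⟨-, -, -, x4⟩ := hX S F δ τ t p P R m m' E' h
  generalize F.X τ t p P R = X at x4 ⊢
  obtain ⟨u, hu⟩ : ∃ u, u = 1 / √t := ⟨_, rfl⟩
  have hu0 : 0 ≤ u := by rw [hu]; positivity
  have hD0 : (0 : ℝ) < S.D P := Nat.cast_pos.2 (h.wf.one_le_D P)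
  have el : 2 * l0 t p (S.D P) = 180 * (u * √(p / S.D P)) := by
    rw [l0, hu, show p / (t * S.D P) = p / S.D P / t by field_simp, Real.sqrt_div' _ ht.le]
    ring
  have ec : 2 * c0 t * √m' = 10 * (u * √m') := by
    rw [c0, hu]
    ring
  rw [el, ec] at x4
  have d := fun b hb => db (hB S) (hD S) (hH S) hF h.wf F.c (by linarith : 0 ≤ K)
    (by positivity) (by positivity) (by positivity) hk (by positivity) (by positivity) hb (x4 b hb)
  have hm' : 1 ≤ √m' := Real.one_le_sqrt.2 h.fam.one_le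
  have hp : √(p / S.D P) ≤ 1 := Real.sqrt_le_one.2 ((div_le_one hD0).2 h.p_le)
  have hI : 0 ≤ F.I := Finset.sum_nonneg fun _ _ => Finset.expect_nonneg fun _ _ => abs_nonneg _
  have hE : ∀ P, 0 ≤ F.EP P := fun P => add_nonneg (by positivity)
    (Finset.sum_nonneg fun _ _ => Finset.expect_nonneg fun _ _ => abs_nonneg _)
  have hE' : 0 ≤ E' := h.fam.ne.elim fun P' hP' => (hE P').trans (h.fam.err P' hP')
  have hτ : 0 ≤ ∑ b, τ b * F.Eb b := Finset.sum_nonneg fun b _ => mul_nonneg (h.rate b).1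
    (add_nonneg (div_nonneg (Finset.sum_nonneg fun _ _ => Finset.expect_nonneg fun _ _ =>
      abs_nonneg _) (Real.sqrt_nonneg _))
      (Finset.sum_nonneg fun _ _ => Finset.expect_nonneg fun _ _ => abs_nonneg _))
  have hBt : 0 ≤ F.Bt τ (a ^ 4 * t) P :=
    Finset.sum_nonneg fun _ _ => Finset.expect_nonneg fun _ _ => sq_nonneg _
  have hn : 0 ≤ nsq X := Finset.sum_nonneg fun _ _ => Finset.expect_nonneg fun _ _ => sq_nonneg _
  have k1 := main (hB S) hP hV h (t' := a ^ 4 * t) (β0 := 5 * u) (s := a ^ 3) (by positivity)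
    (by positivity) (by
      rw [hu, mul_pow, div_pow, Real.sq_sqrt ht.le, div_le_iff₀ (by positivity)]
      have : (1 : ℝ) ≤ a ^ 4 := one_le_pow₀ ha
      field_simp
      linarith) (by positivity) (by positivity) (by positivity) fun b hb => (d b hb).2.1
  have k2 := hTo S δ h.δ_pos h.δ_le h.wf h.rip F τ _ _ _ h.rate (by positivity) (by positivity)
    ((hD S).glue_univ h.wf _ _ _ P m (by positivity) h.blocks fun b hb => (d b hb).2.2)
  have k3 : |∑ i, 𝔼 β, S.cv (S.nzN τ i) (F.a i) β * Y2 F.c a t P X i β| ≤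
      K * a ^ 2 * u * (1330 * (√m' * kap t * F.I / S.q)) := by
    have e : K * a ^ 2 * u * (1330 * (√m' * kap t * F.I / S.q)) =
        7 * kap t / S.q * (K * a ^ 2) * (190 * (u * √m')) * F.I := by ring
    rw [e, Fn.I, Finset.mul_sum]
    refine (Finset.abs_sum_le_sum_abs _ _).trans (Finset.sum_le_sum fun i _ =>
      layer (hB S) (hN S) h.wf h.ok h.rate i (by positivity) fun β hβ => ?_)
    obtain ⟨b1, b2⟩ := (hB S).pb_mem h.wf P i
    have hN0 : 0 < NN S a t P i := (hk i).pos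
    refine (Y2_near (hB S) (hH S) hF F.c (by positivity) hN0
      ((hD S).sup _ _ _ _ (d _ b1).1 i b2) hβ).trans (mul_le_mul ?_ ?_ (by positivity)
        (by positivity))
    · rw [div_le_iff₀ hN0, mul_assoc, show 7 * (kap t : ℝ) ^ 2 / S.q = 7 * kap t / S.q * kap t by
        ring]
      exact mul_le_mul_of_nonneg_left (hk i).kap_le (by positivity)
    · have := mul_le_mul_of_nonneg_left (hp.trans hm') hu0
      linarith
  have k4 : nsq (Y1 F.c a t P X) / (2 * a ^ 3) ≤ K / (2 * a) * nsq X := by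
    rw [div_le_iff₀ (by positivity), show K / (2 * a) * nsq X * (2 * a ^ 3) =
      K * a ^ 2 * nsq X by field_simp, nsq, nsq, Finset.mul_sum]
    exact Finset.sum_le_sum fun i _ => sq_Y1 (hB S) (hH S) hF F.c (by positivity) (by positivity)
      X (hk i)
  have k5 := arith hK ha hu0 (d := 1 / δ) (by rw [le_div_iff₀ hδ]; linarith [h.δ_le]) hBt hn
    (x := √(p / S.D P) * F.I) (y := √m * E') (z := √m' * F.EP P)
    (w := √m * √m' * ∑ b, τ b * F.Eb b) (v := √m' * kap t * F.I / S.q) (by positivity)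
    (by positivity) (mul_nonneg (by positivity) (hE P)) (by positivity) (by positivity)
  have k6 : 9 / δ * (a ^ 3 / 2 * (5 * u) + K * a ^ 2 * (10 * (u * √m'))) * F.EP P ≤
      K * a ^ 3 * u * (1 / δ) * (113 * (√m' * F.EP P)) := by
    have e1 : a ^ 3 * u ≤ K * a ^ 3 * u * √m' := by
      rw [mul_assoc K]
      exact (le_mul_of_one_le_left (by positivity) hK).trans
        (le_mul_of_one_le_right (by positivity) hm')
    have e2 : K * a ^ 2 * (u * √m') ≤ K * a ^ 3 * (u * √m') := by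
      gcongr
      norm_num
    have e3 : 0 ≤ K * a ^ 3 * u * √m' := by positivity
    have := mul_le_mul_of_nonneg_right (show 9 * (a ^ 3 / 2 * (5 * u) + K * a ^ 2 *
      (10 * (u * √m'))) ≤ 113 * (K * a ^ 3 * u * √m') by linarith)
      (mul_nonneg (by positivity : 0 ≤ 1 / δ) (hE P))
    calc _ = 9 * (a ^ 3 / 2 * (5 * u) + K * a ^ 2 * (10 * (u * √m'))) * (1 / δ * F.EP P) := by ring
      _ ≤ _ := this
      _ = _ := by ring
  have k7 : 9 / δ * (2 * (K * a ^ 2 * (10 * (u * √m'))) * √m) * ∑ b, τ b * F.Eb b ≤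
      K * a ^ 3 * u * (1 / δ) * (180 * (√m * √m' * ∑ b, τ b * F.Eb b)) := by
    calc _ = K * a ^ 2 * u * (1 / δ) * (180 * (√m * √m' * ∑ b, τ b * F.Eb b)) := by ring
      _ ≤ _ := by
        gcongr
        norm_num
  simp only [split (hB S) (hH S) (hN S) F τ (by positivity : 0 ≤ t / S.ν P)
    (by positivity : 0 ≤ a ^ 4 * t / S.ν P) X, Finset.sum_add_distrib]
  rw [show 1400 * K * a ^ 3 / (δ * √t) = 1400 * K * a ^ 3 * (u * (1 / δ)) by
    rw [hu]; field_simp, Fn.Er]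
  refine ((abs_add_le _ _).trans (add_le_add (abs_add_le _ _) le_rfl)).trans ?_
  linarith

end Vale.Agent.P318.D
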