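import Vale.Agent.P318.D.Stmt

/-!
Track D: block averages and the noise.
-/

namespace Vale.Agent.P318.D

open Finset
open scoped BigOperators

namespace NoiseP

theorem ind_pos {p : Prop} (h : p) : ind p = 1 := by simp [ind, h]

theorem ind_neg {p : Prop} (h : ¬ p) : ind p = 0 := by simp [ind, h]

theorem ind_nonneg (p : Prop) : 0 ≤ ind p := by
  by_cases h : p
  · rw [ind_pos h]; norm_num
  · rw [ind_neg h]

theorem ind_le_one (p : Prop) : ind p ≤ 1 := by
  by_cases h : p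
  · rw [ind_pos h]
  · rw [ind_neg h]; norm_num

theorem ind_congr {p r : Prop} (h : p ↔ r) : ind p = ind r := by
  rw [propext h]

theorem ind_not (p : Prop) : ind (¬ p) = 1 - ind p := by
  by_cases h : p
  · rw [ind_pos h, ind_neg (not_not.mpr h)]; norm_num
  · rw [ind_neg h, ind_pos h]; norm_num

theorem ind_forall {α : Type} [Fintype α] (p : α → Prop) : ind (∀ a, p a) = ∏ a, ind (p a) := by
  by_cases h : ∀ a, p a
  · rw [ind_pos h]
    exact (Finset.prod_eq_one fun a _ => ind_pos (h a)).symm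
  · rw [ind_neg h]
    obtain ⟨a, ha⟩ := not_forall.mp h
    exact (Finset.prod_eq_zero (mem_univ a) (ind_neg ha)).symm

variable (S : Sys)

theorem q_pos : (0 : ℝ) < S.q := by exact_mod_cast S.hq.out.pos

/-- The factor of the block average in one coordinate. -/
noncomputable def e1 (A : Finset S.B) (l : S.Λ) (z : ZMod S.q) : ℝ :=
  if S.blk l ∈ A then (S.q : ℝ)⁻¹ else ind (z = 0)

theorem eA_eq (A : Finset S.B) (w : S.G) : S.eA A w = ∏ l, e1 S A l (w l) := by
  unfold Sys.eA e1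
  rw [Finset.prod_ite, Finset.prod_const, ind_forall, div_eq_mul_inv, mul_comm, inv_pow]
  congr 1
  rw [Finset.prod_filter]
  refine Finset.prod_congr rfl fun l _ => ?_
  by_cases h : S.blk l ∈ A
  · rw [if_neg (not_not.mpr h), ind_pos fun h' => absurd h h']
  · rw [if_pos h]
    exact ind_congr ⟨fun h' => h' h, fun h' _ => h'⟩

theorem ch_eq (ξ w : S.G) : S.ch ξ w = ∏ l, (ZMod.stdAddChar (ξ l * w l) : ℂ) := by
  unfold Sys.ch Sys.dot
  induction (univ : Finset S.Λ) using Finset.induction_on with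
  | empty => simp
  | insert a s ha ih => rw [Finset.sum_insert ha, Finset.prod_insert ha, AddChar.map_add_eq_mul, ih]

theorem ch_zero (w : S.G) : S.ch 0 w = 1 := by
  simp [Sys.ch, Sys.dot]

theorem sum_char (x : ZMod S.q) :
    ∑ z : ZMod S.q, (ZMod.stdAddChar (x * z) : ℂ) = if x = 0 then (S.q : ℂ) else 0 := by
  have h := AddChar.sum_mulShift (R := ZMod S.q) x (ZMod.isPrimitive_stdAddChar S.q)
  simp only [ZMod.card] at h
  rw [Finset.sum_congr rfl fun z _ => by rw [mul_comm x z], h]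
  split_ifs <;> simp

theorem sy_e1 (A : Finset S.B) (l : S.Λ) (x : ZMod S.q) :
    ∑ z : ZMod S.q, (e1 S A l z : ℂ) * ZMod.stdAddChar (x * z) =
      (ind (S.blk l ∈ A → x = 0) : ℝ) := by
  unfold e1
  by_cases h : S.blk l ∈ A
  · simp only [if_pos h]
    rw [← Finset.mul_sum, sum_char]
    by_cases hx : x = 0
    · rw [if_pos hx, ind_pos fun _ => hx]
      have : (S.q : ℂ) ≠ 0 := by exact_mod_cast S.hq.out.pos.ne'
      push_cast
      field_simp
    · rw [if_neg hx, ind_neg fun h' => hx (h' h)]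
      simp
  · simp only [if_neg h]
    rw [ind_pos fun h' => absurd h' h, Finset.sum_eq_single (0 : ZMod S.q)]
    · rw [ind_pos rfl]; simp
    · intro z _ hz
      rw [ind_neg hz]; simp
    · intro h'; exact absurd (mem_univ _) h'

theorem sy_eA (A : Finset S.B) (ξ : S.G) :
    S.sy (S.eA A) ξ = (ind (∀ b ∈ A, ¬ S.act b ξ) : ℝ) := by
  have h1 : ind (∀ b ∈ A, ¬ S.act b ξ) = ∏ l, ind (S.blk l ∈ A → ξ l = 0) := by
    rw [← ind_forall]
    refine ind_congr ⟨fun h l hl => ?_, fun h b hb ⟨l, hl, hne⟩ => hne (h l (hl ▸ hb))⟩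
    by_contra hne
    exact h _ hl ⟨l, rfl, hne⟩
  rw [h1]
  push_cast
  rw [← Finset.prod_congr rfl fun l _ => sy_e1 S A l (ξ l), Finset.prod_univ_sum,
    Fintype.piFinset_univ]
  unfold Sys.sy
  refine Finset.sum_congr rfl fun w _ => ?_
  rw [eA_eq, ch_eq, Finset.prod_mul_distrib]
  push_cast
  rfl

theorem sum_eq_sy (k : S.G → ℝ) : ((∑ w, k w : ℝ) : ℂ) = S.sy k 0 := by
  unfold Sys.sy
  push_cast
  exact Finset.sum_congr rfl fun w _ => by rw [ch_zero, mul_one]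

theorem not_act_zero (b : S.B) : ¬ S.act b 0 := fun ⟨_, _, h⟩ => h rfl

theorem eA_nonneg (A : Finset S.B) (w : S.G) : 0 ≤ S.eA A w :=
  div_nonneg (ind_nonneg _) (pow_nonneg (q_pos S).le _)

theorem sum_eA (A : Finset S.B) : ∑ w, S.eA A w = 1 := by
  have h := sum_eq_sy S (S.eA A)
  rw [sy_eA, ind_pos fun b _ => not_act_zero S b] at h
  exact_mod_cast h

theorem eA_neg (A : Finset S.B) (w : S.G) : S.eA A (-w) = S.eA A w := by
  unfold Sys.eA
  congr 1
  exact ind_congr (by simp)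

theorem mk_eA (A : Finset S.B) : S.Mk (S.eA A) := ⟨eA_nonneg S A, sum_eA S A, eA_neg S A⟩

theorem pA_nonneg (τ : S.B → ℝ) (A : Finset S.B) (h : S.Rate τ) : 0 ≤ S.pA τ A := by
  refine Finset.prod_nonneg fun b _ => ?_
  split_ifs
  · exact (h b).1
  · linarith [(h b).2]

/-- Expansion of a product over all subsets. -/
theorem sum_prod_ite {α : Type} [Fintype α] [DecidableEq α] (x y : α → ℝ) :
    ∑ A : Finset α, ∏ b, (if b ∈ A then x b else y b) = ∏ b, (x b + y b) := by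
  rw [Finset.prod_add, Finset.powerset_univ]
  refine Finset.sum_congr rfl fun A _ => ?_
  rw [Finset.prod_ite]
  congr 1
  · congr 1
    ext b
    simp
  · congr 1
    ext b
    simp

theorem sum_pA_mul (τ u v : S.B → ℝ) :
    ∑ A, S.pA τ A * ∏ b, (if b ∈ A then u b else v b) = ∏ b, (τ b * u b + (1 - τ b) * v b) := by
  rw [← sum_prod_ite]
  refine Finset.sum_congr rfl fun A _ => ?_
  unfold Sys.pA
  rw [← Finset.prod_mul_distrib]
  refine Finset.prod_congr rfl fun b _ => ?_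
  split_ifs <;> rfl

theorem sum_pA (τ : S.B → ℝ) : ∑ A, S.pA τ A = 1 := by
  have h := sum_pA_mul S τ (fun _ => 1) (fun _ => 1)
  simpa using h

theorem sum_mem (τ : S.B → ℝ) (b : S.B) : ∑ A, ind (b ∈ A) * S.pA τ A = τ b := by
  have h := sum_pA_mul S τ (fun _ => 1) (fun b' => if b' = b then 0 else 1)
  have h2 : ∏ b', (τ b' * 1 + (1 - τ b') * if b' = b then 0 else 1) = τ b := by
    rw [Finset.prod_eq_single b]
    · simp
    · intro b' _ hb'
      rw [if_neg hb']; ring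
    · intro h'; exact absurd (mem_univ _) h'
  rw [h2] at h
  rw [← h]
  refine Finset.sum_congr rfl fun A _ => ?_
  rw [mul_comm]
  congr 1
  by_cases hb : b ∈ A
  · rw [ind_pos hb]
    refine (Finset.prod_eq_one fun b' _ => ?_).symm
    split_ifs with h1 h2
    · rfl
    · exact absurd (h2 ▸ hb) h1
    · rfl
  · rw [ind_neg hb]
    exact (Finset.prod_eq_zero (mem_univ b) (by rw [if_neg hb, if_pos rfl])).symm

theorem mk_nz (τ : S.B → ℝ) (h : S.Rate τ) : S.Mk (S.nz τ) := by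
  refine ⟨fun w => Finset.sum_nonneg fun A _ => mul_nonneg (pA_nonneg S τ A h) (eA_nonneg S A w),
    ?_, fun w => Finset.sum_congr rfl fun A _ => by rw [eA_neg]⟩
  unfold Sys.nz
  rw [Finset.sum_comm]
  simp only [← Finset.mul_sum, sum_eA, mul_one]
  exact sum_pA S τ

theorem sy_sum {κ : Type} (s : Finset κ) (r : κ → ℝ) (k : κ → S.G → ℝ) (ξ : S.G) :
    S.sy (fun w => ∑ j ∈ s, r j * k j w) ξ = ∑ j ∈ s, (r j : ℂ) * S.sy (k j) ξ := by
  unfold Sys.sy
  push_cast
  simp only [Finset.sum_mul, Finset.mul_sum, mul_assoc]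
  exact Finset.sum_comm

theorem sy_nz (τ : S.B → ℝ) (ξ : S.G) : S.sy (S.nz τ) ξ = (S.mu τ ξ : ℝ) := by
  have h := sum_pA_mul S τ (fun b => 1 - ind (S.act b ξ)) (fun _ => 1)
  have h1 : S.mu τ ξ = ∑ A, S.pA τ A * ind (∀ b ∈ A, ¬ S.act b ξ) := by
    unfold Sys.mu
    rw [Finset.prod_congr rfl fun b _ =>
      (by ring : 1 - τ b * ind (S.act b ξ) = τ b * (1 - ind (S.act b ξ)) + (1 - τ b) * 1), ← h]
    refine Finset.sum_congr rfl fun A _ => ?_
    congr 1
    rw [ind_forall]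
    refine Finset.prod_congr rfl fun b _ => ?_
    by_cases hb : b ∈ A
    · rw [if_pos hb, ← ind_not]
      exact ind_congr ⟨fun h' _ => h', fun h' => h' hb⟩
    · rw [if_neg hb, ind_pos fun h' => absurd h' hb]
  rw [h1]
  have h2 := sy_sum S univ (S.pA τ) S.eA ξ
  push_cast
  simp only [sy_eA] at h2
  exact h2

theorem mu_mem (τ : S.B → ℝ) (ξ : S.G) (h : S.Rate τ) : 0 ≤ S.mu τ ξ ∧ S.mu τ ξ ≤ 1 := by
  have h1 : ∀ b, 0 ≤ 1 - τ b * ind (S.act b ξ) := fun b => by
    have := mul_le_mul (h b).2 (ind_le_one (S.act b ξ)) (ind_nonneg _) zero_le_one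
    linarith
  refine ⟨Finset.prod_nonneg fun b _ => h1 b, Finset.prod_le_one (fun b _ => h1 b) fun b _ => ?_⟩
  have := mul_nonneg (h b).1 (ind_nonneg (S.act b ξ))
  linarith

theorem split (τ : S.B → ℝ) (i : S.ι) (f : S.G → ℝ) (β : S.G) :
    S.cv (S.nz τ) f β = S.cv (S.nzT τ i) f β + S.cv (S.nzN τ i) f β := by
  unfold Sys.cv
  rw [← Finset.sum_add_distrib]
  refine Finset.sum_congr rfl fun w _ => ?_
  rw [← add_mul]
  congr 1
  unfold Sys.nz Sys.nzT Sys.nzN
  rw [← Finset.sum_add_distrib]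
  refine Finset.sum_congr rfl fun A _ => ?_
  rw [ind_not]
  ring

theorem nzN_nonneg (τ : S.B → ℝ) (i : S.ι) (w : S.G) (h : S.Rate τ) : 0 ≤ S.nzN τ i w :=
  Finset.sum_nonneg fun A _ =>
    mul_nonneg (mul_nonneg (ind_nonneg _) (pA_nonneg S τ A h)) (eA_nonneg S A w)

theorem nzN_sum (τ : S.B → ℝ) (i : S.ι) (h : S.Rate τ) : ∑ w, S.nzN τ i w ≤ 1 := by
  unfold Sys.nzN
  rw [Finset.sum_comm]
  simp only [← Finset.mul_sum, sum_eA, mul_one]
  rw [← sum_pA S τ]
  exact Finset.sum_le_sum fun A _ =>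
    mul_le_of_le_one_left (pA_nonneg S τ A h) (ind_le_one _)

theorem nzN_supp (hW : S.WF) (τ : S.B → ℝ) (i : S.ι) (w : S.G) (h : S.nzN τ i w ≠ 0) :
    S.dot (S.nG i) w = 0 := by
  obtain ⟨A, -, hA⟩ := Finset.exists_ne_zero_of_sum_ne_zero h
  have h1 : ¬ S.touch i A := by
    intro ht
    rw [ind_neg (not_not.mpr ht)] at hA
    simp at hA
  have h2 : ∀ l, S.blk l ∉ A → w l = 0 := by
    by_contra hc
    unfold Sys.eA at hA
    rw [ind_neg hc] at hA
    simp at hA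
  refine Finset.sum_eq_zero fun l _ => ?_
  by_cases hn : S.n i l = 0
  · simp [Sys.nG, hn]
  · rw [h2 l fun hl => h1 ⟨_, (hW.supp i l hn).symm ▸ hl⟩, mul_zero]

theorem mk_zk (R : Finset S.P) (i : S.ι) (hR : R.Nonempty) : S.Mk (S.zk R i) := by
  have hc : (0 : ℝ) < R.card := by exact_mod_cast hR.card_pos
  refine ⟨fun w => div_nonneg (Finset.sum_nonneg fun P _ => eA_nonneg S _ w) hc.le, ?_, fun w => ?_⟩
  · unfold Sys.zk
    rw [← Finset.sum_div, Finset.sum_comm]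
    simp only [sum_eA, Finset.sum_const, nsmul_eq_mul, mul_one]
    exact div_self hc.ne'
  · unfold Sys.zk
    simp only [eA_neg]

theorem sy_zk (R : Finset S.P) (i : S.ι) (ξ : S.G) (hR : R.Nonempty) :
    S.sy (S.zk R i) ξ = ((1 - S.om R i ξ : ℝ) : ℂ) := by
  have hc : (0 : ℝ) < R.card := by exact_mod_cast hR.card_pos
  have h1 : S.zk R i = fun w => ∑ P ∈ R, (R.card : ℝ)⁻¹ * S.eA {S.pb P i} w := by
    funext w
    unfold Sys.zk
    rw [← Finset.mul_sum, div_eq_inv_mul]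
  have h2 : 1 - S.om R i ξ =
      ∑ P ∈ R, (R.card : ℝ)⁻¹ * ind (∀ b ∈ ({S.pb P i} : Finset S.B), ¬ S.act b ξ) := by
    have h3 : ∀ P, ind (∀ b ∈ ({S.pb P i} : Finset S.B), ¬ S.act b ξ) =
        1 - ind (S.act (S.pb P i) ξ) := fun P => by
      rw [← ind_not]
      exact ind_congr (by simp)
    simp only [h3]
    unfold Sys.om
    rw [← Finset.mul_sum, Finset.sum_sub_distrib, Finset.sum_const, nsmul_eq_mul, mul_one]
    field_simp
  rw [h1, h2, sy_sum S R (fun _ => (R.card : ℝ)⁻¹) (fun P => S.eA {S.pb P i}) ξ]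
  simp only [sy_eA]
  push_cast
  rfl

theorem om_mem (R : Finset S.P) (i : S.ι) (ξ : S.G) : 0 ≤ S.om R i ξ ∧ S.om R i ξ ≤ 1 := by
  refine ⟨div_nonneg (Finset.sum_nonneg fun P _ => ind_nonneg _) (Nat.cast_nonneg _), ?_⟩
  refine div_le_one_of_le₀ ?_ (Nat.cast_nonneg _)
  have h := Finset.sum_le_card_nsmul R (fun P => ind (S.act (S.pb P i) ξ)) 1
    fun P _ => ind_le_one _
  simpa using h

theorem idem (hB : Basic S) (A : Finset S.B) (b : S.B) (f : S.G → ℝ) (hb : b ∈ A) :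
    S.cv (S.eA A) (S.cv (S.eA {b}) f) = S.cv (S.eA A) f := by
  refine hB.hat_inj _ _ fun ξ => ?_
  rw [hB.hat_cv, hB.hat_cv, hB.hat_cv, sy_eA, sy_eA, ← mul_assoc]
  congr 1
  by_cases h : ∀ b ∈ A, ¬ S.act b ξ
  · rw [ind_pos h, ind_pos fun b' hb' => by rw [Finset.mem_singleton.mp hb']; exact h b hb]
    simp
  · rw [ind_neg h]
    simp

theorem eA_Dl (hB : Basic S) (A : Finset S.B) (l : S.Λ) (f : S.G → ℝ) (β : S.G)
    (hl : S.blk l ∈ A) : S.cv (S.eA A) (S.Dl l f) β = 0 := by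
  have h : S.cv (S.eA A) (S.Dl l f) = fun _ => 0 := by
    refine hB.hat_inj _ _ fun ξ => ?_
    have h0 : S.hat (fun _ => 0) ξ = 0 := by simp [Sys.hat]
    rw [hB.hat_cv, hB.hat_Dl, sy_eA, h0]
    by_cases h : ∀ b ∈ A, ¬ S.act b ξ
    · have hz : ξ l = 0 := by
        by_contra hne
        exact h _ hl ⟨l, rfl, hne⟩
      rw [hz]
      simp [Vale.Agent.P318.R.ang]
    · rw [ind_neg h]
      simp
  rw [h]

end NoiseP

theorem noise_proof (hB : BasicStmt) : NoiseStmt := fun S =>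
  { mk_eA := NoiseP.mk_eA S
    sy_eA := NoiseP.sy_eA S
    idem := NoiseP.idem S (hB S)
    eA_Dl := NoiseP.eA_Dl S (hB S)
    pA_nonneg := NoiseP.pA_nonneg S
    sum_pA := NoiseP.sum_pA S
    sum_mem := NoiseP.sum_mem S
    mk_nz := NoiseP.mk_nz S
    sy_nz := NoiseP.sy_nz S
    mu_mem := NoiseP.mu_mem S
    split := NoiseP.split S
    nzN_nonneg := NoiseP.nzN_nonneg S
    nzN_sum := NoiseP.nzN_sum S
    nzN_supp := NoiseP.nzN_supp S
    mk_zk := NoiseP.mk_zk S
    sy_zk := NoiseP.sy_zk S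
    om_mem := NoiseP.om_mem S }

end Vale.Agent.P318.D
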