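import Vale.Agent.P318.D.Stmt
import Vale.Agent.P318.RProb

/-!
Track D: existence of typical offsets.
-/

namespace Vale.Agent.P318.D

open Finset
open scoped BigOperators
open Vale.Agent.P318.R

namespace Off

section One

variable {q : ℕ} [NeZero q]

/-- The fractional position. -/
noncomputable def fr (x : ZMod q) : ℝ := (x.val : ℝ) / q

/-- The increment of the position. -/
noncomputable def dl (x z : ZMod q) : ℝ := fr (z + x) - fr z

/-- The carry. -/
noncomputable def cy (x z : ZMod q) : ℝ := if q ≤ z.val + x.val then 1 else 0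

theorem qpos : (0 : ℝ) < q := by exact_mod_cast Nat.pos_of_ne_zero (NeZero.ne q)

theorem fr_nonneg (x : ZMod q) : 0 ≤ fr x := div_nonneg (Nat.cast_nonneg _) qpos.le

theorem fr_le (x : ZMod q) : fr x ≤ 1 :=
  (div_le_one qpos).2 (by exact_mod_cast (ZMod.val_lt x).le)

theorem abs_dl (x z : ZMod q) : |dl x z| ≤ 1 := by
  have := fr_nonneg (z + x)
  have := fr_le (z + x)
  have := fr_nonneg z
  have := fr_le z
  rw [dl, abs_le]
  constructor <;> linarith

theorem dl_eq (x z : ZMod q) : dl x z = fr x - cy x z := by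
  have hq := (qpos (q := q)).ne'
  simp only [dl, fr, cy]
  split_ifs with h
  · rw [ZMod.val_add_of_le h, Nat.cast_sub h]
    push_cast
    field_simp
    ring
  · rw [ZMod.val_add_of_lt (not_le.1 h)]
    push_cast
    field_simp
    ring

theorem ex_shift (a : ZMod q) (f : ZMod q → ℝ) : 𝔼 z, f (z + a) = 𝔼 z, f z :=
  Fintype.expect_equiv (Equiv.addRight a) _ _ fun _ => rfl

theorem ex_dl (x : ZMod q) : 𝔼 z, dl x z = 0 := by
  simp only [dl]
  rw [expect_sub_distrib, ex_shift x fr, sub_self]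

theorem ex_cy (x : ZMod q) : 𝔼 z, cy x z = fr x := by
  have h := ex_dl x
  simp only [dl_eq] at h
  rw [expect_sub_distrib, Fintype.expect_const] at h
  linarith

theorem ex_dl_mul_le {x x' : ZMod q} (h : x.val ≤ x'.val) : 0 ≤ 𝔼 z, dl x z * dl x' z := by
  have e : ∀ z, dl x z * dl x' z = fr x * fr x' - fr x * cy x' z + (1 - fr x') * cy x z := by
    intro z
    rw [dl_eq, dl_eq]
    have : cy x z * cy x' z = cy x z := by
      simp only [cy]
      split_ifs with h1 h2
      · simp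
      · omega
      · simp
      · simp
    linear_combination this
  simp only [e]
  rw [expect_add_distrib, expect_sub_distrib, Fintype.expect_const, ← mul_expect, ← mul_expect,
    ex_cy, ex_cy, sub_self, zero_add]
  exact mul_nonneg (sub_nonneg.2 (fr_le _)) (fr_nonneg _)

theorem ex_dl_mul (x x' : ZMod q) : 0 ≤ 𝔼 z, dl x z * dl x' z := by
  rcases le_total x.val x'.val with h | h
  · exact ex_dl_mul_le h
  · simpa only [mul_comm] using ex_dl_mul_le h

theorem mgf_corr (x x' : ZMod q) {η : ℝ} (h0 : 0 < η) (h1 : η ≤ 1) :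
    𝔼 z, Real.exp (-(η / 4 * (dl x z * dl x' z + η * dl x z ^ 2))) ≤ 1 := by
  have e : ∀ z, Real.exp (-(η / 4 * (dl x z * dl x' z + η * dl x z ^ 2))) ≤
      1 - η / 4 * (dl x z * dl x' z) := by
    intro z
    have a1 := abs_le.1 (abs_dl x z)
    have a2 := abs_le.1 (abs_dl x' z)
    set a := dl x z
    set b := dl x' z
    have b1 : (b + η * a) ^ 2 ≤ 2 ^ 2 := by
      refine sq_le_sq' ?_ ?_ <;> nlinarith
    have b2 : a ^ 2 ≤ 1 := by nlinarith
    have b3 : (η / 4 * (a * b + η * a ^ 2)) ^ 2 ≤ η ^ 2 / 4 * a ^ 2 := by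
      have : (η / 4 * (a * b + η * a ^ 2)) ^ 2 = η ^ 2 / 16 * a ^ 2 * (b + η * a) ^ 2 := by ring
      rw [this]
      exact (mul_le_mul_of_nonneg_left b1 (by positivity)).trans (le_of_eq (by ring))
    have b4 : |-(η / 4 * (a * b + η * a ^ 2))| ≤ 1 := by
      rw [abs_neg, ← sq_le_one_iff_abs_le_one]
      nlinarith [mul_le_mul (pow_le_one₀ h0.le h1 (n := 2)) b2 (sq_nonneg _) zero_le_one]
    have b5 := (abs_le.1 (Real.abs_exp_sub_one_sub_id_le b4)).2
    rw [neg_sq] at b5
    nlinarith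
  refine (expect_le_expect fun z _ => e z).trans ?_
  rw [expect_sub_distrib, Fintype.expect_const, ← mul_expect]
  have := mul_nonneg (by positivity : 0 ≤ η / 4) (ex_dl_mul x x')
  linarith

theorem ex_cross (x : ZMod q) : |cen x / q| ≤ 𝔼 z, ind (dl x z ≠ cen x / q) := by
  have hq := qpos (q := q)
  rw [cen, ZMod.valMinAbs_def_pos]
  split_ifs with h
  · have e : (((x.val : ℤ) : ℝ)) / q = fr x := by simp [fr]
    rw [e, abs_of_nonneg (fr_nonneg _)]
    refine (ex_cy x).symm.trans_le (expect_le_expect fun z _ => ?_)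
    rw [dl_eq, cy, ind]
    split_ifs <;> simp_all
  · have e : (((x.val : ℤ) - q : ℤ) : ℝ) / q = fr x - 1 := by
      push_cast
      rw [fr]
      field_simp
    rw [e, abs_of_nonpos (sub_nonpos.2 (fr_le _)), neg_sub]
    have e2 : 1 - fr x = 𝔼 z, (1 - cy x z) := by
      rw [expect_sub_distrib, Fintype.expect_const, ex_cy]
    refine e2.trans_le (expect_le_expect fun z _ => ?_)
    rw [dl_eq, cy, ind]
    split_ifs with h1 h2 h3
    · norm_num
    · norm_num
    · norm_num
    · exact absurd (fun h4 => by linarith) h3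

theorem mgf_cross (x : ZMod q) :
    𝔼 z, Real.exp (|cen x / q| / 2 - ind (dl x z ≠ cen x / q)) ≤ 1 := by
  have e : ∀ p : Prop, Real.exp (-ind p) ≤ 1 - 1 / 2 * ind p := by
    intro p
    rw [ind]
    split_ifs
    · have := Real.add_one_le_exp 1
      rw [Real.exp_neg, inv_le_comm₀ (Real.exp_pos _) (by norm_num)]
      linarith
    · simp
  simp only [sub_eq_add_neg, Real.exp_add]
  rw [← mul_expect]
  have h1 : 𝔼 z, Real.exp (-ind (dl x z ≠ cen x / q)) ≤ Real.exp (-(|cen x / q| / 2)) := by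
    refine (expect_le_expect fun z _ => e _).trans ?_
    rw [expect_sub_distrib, Fintype.expect_const, ← mul_expect]
    linarith [ex_cross x, Real.add_one_le_exp (-(|cen x / q| / 2))]
  refine (mul_le_mul_of_nonneg_left h1 (Real.exp_pos _).le).trans ?_
  rw [← Real.exp_add, add_neg_cancel, Real.exp_zero]

theorem ex_near (a : ZMod q) : 𝔼 z, ind (z + a = 0 ∨ z + a = -1) ≤ 2 / q := by
  rw [ex_shift a fun z => ind (z = 0 ∨ z = -1)]
  have e : ∀ b : ZMod q, pr (fun z => z = b) = 1 / q := fun b => by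
    rw [pr_eq_card, Finset.filter_eq', if_pos (mem_univ _), card_singleton, ZMod.card]
    simp
  have h := pr_or_le (fun z : ZMod q => z = 0) fun z => z = -1
  rw [e, e] at h
  exact h.trans (le_of_eq (by ring))

theorem tail {ι : Type} [Fintype ι] [DecidableEq ι] (a : ι → ZMod q) (X : ι → ZMod q → ℝ)
    (h : ∀ i, 𝔼 z, Real.exp (X i z) ≤ 1) (lm : ℝ) :
    pr (fun c : ι → ZMod q => lm ≤ ∑ i, X i (c i + a i)) ≤ Real.exp (-lm) := by
  have h1 := pr_ge_le_exp (fun c : ι → ZMod q => ∑ i, X i (c i + a i)) lm 1 zero_le_one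
  have h2 := expect_exp_sum_le (Ω := fun _ : ι => ZMod q) univ (fun i z => X i (z + a i))
    (fun _ => 1) fun i _ => (ex_shift (a i) fun z => Real.exp (X i z)).trans_le (h i)
  simp only [one_mul, prod_const_one] at h1 h2
  exact h1.trans (mul_le_of_le_one_right (Real.exp_pos _).le h2)

end One

variable (S : Sys)

theorem ph_sub (c : S.ι → ZMod S.q) (u v : S.G) (i : S.ι) : S.ph c u i - S.ph c v i =
    dl (S.dot (S.nG i) (u - v)) (c i + S.dot (S.nG i) v) := by
  have e : S.y c i u = c i + S.dot (S.nG i) v + S.dot (S.nG i) (u - v) := by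
    simp only [Sys.y, Sys.dot, Pi.sub_apply, mul_sub, sum_sub_distrib]
    ring
  simp only [Sys.ph, dl, fr, e]
  rfl

theorem corr {lm η : ℝ} (h0 : 0 < η) (h1 : η ≤ 1) (u v w : S.G) :
    pr (fun c => ¬ -(η * S.rho c u v) - 4 * lm / η ≤ S.ip c u v w) ≤ Real.exp (-lm) := by
  refine le_trans (pr_mono fun c hc => ?_) (tail (fun i => S.dot (S.nG i) v) _
    (fun i => mgf_corr (S.dot (S.nG i) (u - v)) (S.dot (S.nG i) (w - v)) h0 h1) lm)
  simp only [← ph_sub, sum_neg_distrib, ← mul_sum, sum_add_distrib]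
  have h2 := mul_le_mul_of_nonneg_left (not_le.1 hc).le (by positivity : 0 ≤ η / 4)
  have e : η / 4 * (-(η * S.rho c u v) - 4 * lm / η) = -(η / 4 * (η * S.rho c u v)) - lm := by
    field_simp
  rw [e, Sys.rho, Sys.ip] at h2
  linarith

theorem cross (lm : ℝ) (u v : S.G) : pr (fun c => ¬ (∑ i, |S.ep (u - v) i|) / 2 - lm ≤
    ∑ i, ind (S.ph c u i - S.ph c v i ≠ S.ep (u - v) i)) ≤ Real.exp (-lm) := by
  refine le_trans (pr_mono fun c hc => ?_) (tail (fun i => S.dot (S.nG i) v) _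
    (fun i => mgf_cross (S.dot (S.nG i) (u - v))) lm)
  simp only [← ph_sub, sum_sub_distrib, ← sum_div]
  simp only [Sys.ep] at hc
  linarith

theorem hoef {lm : ℝ} (h : 0 ≤ lm) (u v w : S.G) :
    pr (fun c => ¬ -√(2 * lm * ∑ i, S.ep (u - v) i ^ 2) ≤
      ∑ i, S.ep (u - v) i * (S.ph c w i - S.ph c v i)) ≤ Real.exp (-lm) := by
  rcases (sum_nonneg fun i (_ : i ∈ univ) => sq_nonneg (S.ep (u - v) i)).eq_or_lt with hV | hV
  · have e : ∀ i, S.ep (u - v) i = 0 := fun i => pow_eq_zero_iff two_ne_zero |>.1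
      ((sum_eq_zero_iff_of_nonneg fun i _ => sq_nonneg _).1 hV.symm i (mem_univ _))
    refine (pr_le_expect (f := fun _ => 0) (fun _ => le_rfl) fun c hc => ?_).trans ?_
    · simp [e] at hc
    · simpa using (Real.exp_pos _).le
  · have h1 := pr_sum_ge_le (Ω := fun _ : S.ι => ZMod S.q) univ
      (fun i z => -(S.ep (u - v) i * dl (S.dot (S.nG i) (w - v)) (z + S.dot (S.nG i) v)))
      (fun i => |S.ep (u - v) i|) (fun i _ z => by
        rw [abs_neg, abs_mul]
        exact mul_le_of_le_one_right (abs_nonneg _) (abs_dl _ _))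
      (fun i _ => by
        rw [expect_neg_distrib, ← mul_expect, ex_shift _ (dl _), ex_dl, mul_zero, neg_zero])
      hV (by simp only [sq_abs, le_refl]) (Real.sqrt_nonneg (2 * lm * ∑ i, S.ep (u - v) i ^ 2))
    rw [Real.sq_sqrt (by positivity)] at h1
    refine le_trans (pr_mono fun c hc => ?_) (h1.trans (le_of_eq ?_))
    · simp only [← ph_sub, sum_neg_distrib]
      linarith
    · congr 2
      field_simp

theorem ex_dn : 𝔼 c, S.dn c ≤ 4 * S.N ^ 2 / (S.q : ℝ) ^ 2 := by
  simp only [Sys.dn]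
  rw [expect_comm]
  refine expect_le univ_nonempty fun β _ => ?_
  have h1 : ∀ p : S.ι × S.ι, pr (fun c => p.1 ≠ p.2 ∧ S.near c p.1 β ∧ S.near c p.2 β) ≤
      4 / (S.q : ℝ) ^ 2 := by
    rintro ⟨i, j⟩
    by_cases hij : i = j
    · refine (pr_le_expect (f := fun _ => 0) (fun _ => le_rfl) fun c hc => absurd hij hc.1).trans ?_
      rw [Fintype.expect_const]
      positivity
    · have i0 : ∀ p, 0 ≤ ind p := fun p => by rw [ind]; split_ifs <;> norm_num
      have h2 := expect_prod_pi_mem (Ω := fun _ : S.ι => ZMod S.q) {i, j}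
        fun k z => ind (z + S.dot (S.nG k) β = 0 ∨ z + S.dot (S.nG k) β = -1)
      simp only [prod_pair hij] at h2
      refine (pr_le_expect (fun c => mul_nonneg (i0 _) (i0 _)) fun c hc => ?_).trans
        (h2.trans_le ((mul_le_mul (ex_near _) (ex_near _) (expect_nonneg fun _ _ => i0 _)
          (by positivity)).trans (le_of_eq (by ring))))
      have a1 : c i + S.dot (S.nG i) β = 0 ∨ c i + S.dot (S.nG i) β = -1 := hc.2.1
      have a2 : c j + S.dot (S.nG j) β = 0 ∨ c j + S.dot (S.nG j) β = -1 := hc.2.2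
      simp [ind, a1, a2]
  refine le_trans (pr_mono (F := fun c => ∃ p : S.ι × S.ι,
    p.1 ≠ p.2 ∧ S.near c p.1 β ∧ S.near c p.2 β) fun c ⟨i, j, h⟩ => ⟨(i, j), h⟩) ?_
  refine (pr_exists_le _).trans ((sum_le_sum fun p _ => h1 p).trans (le_of_eq ?_))
  rw [sum_const, card_univ, Fintype.card_prod, nsmul_eq_mul, Sys.N]
  push_cast
  ring

theorem dn : pr (fun c => ¬ S.dn c ≤ 16 * S.N ^ 2 / (S.q : ℝ) ^ 2) ≤ 1 / 4 := by
  have d0 : ∀ c, 0 ≤ S.dn c := fun c => expect_nonneg fun β _ => by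
    rw [ind]
    split_ifs <;> norm_num
  have hq := qpos (q := S.q)
  rcases isEmpty_or_nonempty S.ι with h | h
  · refine (pr_le_expect (f := fun _ => 0) (fun _ => le_rfl) fun c hc => ?_).trans (by simp)
    refine absurd (le_trans (le_of_eq ?_) (by positivity)) hc
    simp [Sys.dn, ind]
  · have hN : 0 < S.N := by
      rw [Sys.N]
      exact_mod_cast Fintype.card_pos
    have ht : 0 < 16 * S.N ^ 2 / (S.q : ℝ) ^ 2 := by positivity
    refine (pr_le_expect (f := fun c => S.dn c / (16 * S.N ^ 2 / (S.q : ℝ) ^ 2))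
      (fun c => div_nonneg (d0 c) ht.le) fun c hc => (one_le_div ht).2 (not_le.1 hc).le).trans ?_
    rw [← expect_div, div_le_iff₀ ht]
    exact (ex_dn S).trans (le_of_eq (by ring))

end Off

open Off in
theorem off_proof : OffStmt := by
  intro S lm η _ h0 h1 hl
  have hq := qpos (q := S.q)
  have hlog : 0 ≤ S.M * Real.log S.q :=
    mul_nonneg (Nat.cast_nonneg _) (Real.log_natCast_nonneg _)
  have hc : (Fintype.card (S.G × S.G × S.G) : ℝ) = Real.exp (3 * S.M * Real.log S.q) := by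
    have e : 3 * S.M * Real.log S.q = ((3 * Fintype.card S.Λ : ℕ) : ℝ) * Real.log S.q := by
      rw [Sys.M]
      push_cast
      ring
    rw [e, Real.exp_nat_mul, Real.exp_log hq]
    simp only [Fintype.card_prod, Fintype.card_fun, ZMod.card]
    push_cast
    ring
  let Bad : S.G × S.G × S.G → (S.ι → ZMod S.q) → Prop := fun t c =>
    ¬ -(η * S.rho c t.1 t.2.1) - 4 * lm / η ≤ S.ip c t.1 t.2.1 t.2.2 ∨
    ¬ (∑ i, |S.ep (t.1 - t.2.1) i|) / 2 - lm ≤
      ∑ i, ind (S.ph c t.1 i - S.ph c t.2.1 i ≠ S.ep (t.1 - t.2.1) i) ∨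
    ¬ -√(2 * lm * ∑ i, S.ep (t.1 - t.2.1) i ^ 2) ≤
      ∑ i, S.ep (t.1 - t.2.1) i * (S.ph c t.2.2 i - S.ph c t.2.1 i)
  have h2 : ∀ t, pr (Bad t) ≤ 3 * Real.exp (-lm) := fun t => by
    refine (pr_or_le _ _).trans ((add_le_add (corr S h0 h1 _ _ _) ((pr_or_le _ _).trans
      (add_le_add (cross S lm _ _) (hoef S (by linarith) _ _ _)))).trans (le_of_eq (by ring)))
  have h3 : pr (fun c => ∃ t, Bad t c) < 3 / 4 := by
    refine (pr_exists_le _).trans_lt ((sum_le_sum fun t _ => h2 t).trans_lt ?_)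
    rw [sum_const, card_univ, nsmul_eq_mul, hc, mul_left_comm, ← Real.exp_add]
    have e1 : Real.exp (3 * S.M * Real.log S.q + -lm) ≤ Real.exp (-3) :=
      Real.exp_le_exp.2 (by linarith)
    have e2 : Real.exp (-3) < 1 / 4 := by
      have := Real.add_one_lt_exp (x := 3) (by norm_num)
      rw [Real.exp_neg, inv_lt_comm₀ (Real.exp_pos _) (by norm_num)]
      linarith
    linarith
  obtain ⟨c, hc⟩ := exists_not_of_pr_lt_one ((pr_or_le (fun c => ∃ t, Bad t c)
    fun c => ¬ S.dn c ≤ 16 * S.N ^ 2 / (S.q : ℝ) ^ 2).trans_lt (by linarith [dn S]))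
  simp only [Bad, not_or, not_exists, not_not] at hc
  exact ⟨c, fun u v w => (hc.1 (u, v, w)).1, fun u v => (hc.1 (u, v, v)).2.1,
    fun u v w => (hc.1 (u, v, w)).2.2, hc.2⟩

end Vale.Agent.P318.D
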