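import Vale.Agent.P318.D.Stmt

/-!
Track D: pairing of the coefficients of a bounded vector field with a test vector, flatness of the
averaged jumps.
-/

namespace Vale.Agent.P318.D

open Finset
open scoped BigOperators

namespace Pair

/-- The square of `r V - e`. -/
theorem sq_le {Λ : Type} (L : Finset Λ) (V e : Λ → ℝ) (r : ℝ) (hr : 1 ≤ r) :
    ∑ l ∈ L, (r * V l - e l) ^ 2 ≤ r ^ 2 * (√(∑ l ∈ L, V l ^ 2) + ∑ l ∈ L, |e l|) ^ 2 := by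
  set v := √(∑ l ∈ L, V l ^ 2) with hv
  set e1 := ∑ l ∈ L, |e l| with he1
  have hv0 : 0 ≤ v := Real.sqrt_nonneg _
  have he0 : 0 ≤ e1 := sum_nonneg fun _ _ => abs_nonneg _
  have hv2 : v ^ 2 = ∑ l ∈ L, V l ^ 2 := Real.sq_sqrt (sum_nonneg fun _ _ => sq_nonneg _)
  have h1 : ∀ l ∈ L, |V l| ≤ v := fun l hl =>
    Real.abs_le_sqrt (single_le_sum (f := fun l => V l ^ 2) (fun _ _ => sq_nonneg _) hl)
  have h2 : ∀ l ∈ L, |e l| ≤ e1 := fun l hl =>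
    single_le_sum (f := fun l => |e l|) (fun _ _ => abs_nonneg _) hl
  have h3 : ∀ l ∈ L, (r * V l - e l) ^ 2 ≤ r ^ 2 * V l ^ 2 + (2 * r * v + e1) * |e l| := by
    intro l hl
    have a1 : -(V l * e l) ≤ v * |e l| := by
      refine (neg_le_abs _).trans ?_
      rw [abs_mul]
      exact mul_le_mul_of_nonneg_right (h1 l hl) (abs_nonneg _)
    have a2 : e l ^ 2 ≤ e1 * |e l| := by
      rw [← sq_abs, sq]
      exact mul_le_mul_of_nonneg_right (h2 l hl) (abs_nonneg _)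
    have a3 : 2 * r * -(V l * e l) ≤ 2 * r * (v * |e l|) :=
      mul_le_mul_of_nonneg_left a1 (by linarith)
    nlinarith
  refine (sum_le_sum h3).trans ?_
  rw [sum_add_distrib, ← mul_sum, ← mul_sum, ← hv2, ← he1]
  have b1 : r ≤ r ^ 2 := by nlinarith
  have b2 : 1 ≤ r ^ 2 := by nlinarith
  have b3 : r * (v * e1) ≤ r ^ 2 * (v * e1) := mul_le_mul_of_nonneg_right b1 (mul_nonneg hv0 he0)
  have b4 : 1 * e1 ^ 2 ≤ r ^ 2 * e1 ^ 2 := mul_le_mul_of_nonneg_right b2 (sq_nonneg _)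
  nlinarith

/-- The coefficients are bounded by the vector field. -/
theorem coef_le {S : Sys} {δ : ℝ} (hδ : 0 < δ) (hW : S.WF) (hR : RipL S δ) (b : S.B)
    (z : S.ι → ℝ) (V e : S.Λ → ℝ)
    (h : ∀ l ∈ S.Lb b, √(S.ν (S.own b)) * V l = ∑ i ∈ S.J b, (S.n i l : ℝ) * z i + e l) :
    ∑ i ∈ S.J b, z i ^ 2 ≤ (1 + 3 * δ) * (√(S.sq b V) + ∑ l ∈ S.Lb b, |e l|) ^ 2 +
      9 / δ * ((∑ i ∈ S.J b, |z i|) / √(S.D (S.own b))) ^ 2 := by
  have hν := hW.one_le_ν (S.own b)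
  have hr : 1 ≤ √(S.ν (S.own b)) := Real.one_le_sqrt.2 hν
  have h1 : S.sq b (S.comb (S.J b) z) = ∑ l ∈ S.Lb b, (√(S.ν (S.own b)) * V l - e l) ^ 2 := by
    refine sum_congr rfl fun l hl => ?_
    rw [h l hl, add_sub_cancel_right, Sys.comb]
    simp only [mul_comm]
  have h2 := sq_le (S.Lb b) V e _ hr
  rw [← h1, Real.sq_sqrt (by linarith)] at h2
  have h3 := hR.low b z
  have h4 : (1 + 3 * δ) * S.sq b (S.comb (S.J b) z) ≤ (1 + 3 * δ) * (S.ν (S.own b) *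
      (√(∑ l ∈ S.Lb b, V l ^ 2) + ∑ l ∈ S.Lb b, |e l|) ^ 2) :=
    mul_le_mul_of_nonneg_left h2 (by linarith)
  refine le_of_mul_le_mul_left ?_ (by linarith : 0 < S.ν (S.own b))
  rw [div_pow, Real.sq_sqrt (Nat.cast_nonneg _)]
  refine h3.trans (le_of_le_of_eq (add_le_add_left h4 _) ?_)
  rw [Sys.sq]
  ring

theorem heavy {δ A v u e1 : ℝ} (hδ : 0 < δ) (hδ' : δ ≤ 1 / 4) (hv : 0 ≤ v) (hu : 0 ≤ u)
    (he : 0 ≤ e1) (hvu : v ≤ u + e1) (h : A ≤ (1 + 3 * δ) * (v + e1) ^ 2 + 9 / δ * u ^ 2) :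
    √A ≤ 9 / δ * (u + e1) := by
  have hk : 36 ≤ 9 / δ := by
    rw [le_div_iff₀ hδ]
    linarith
  generalize 9 / δ = k at hk h ⊢
  refine Real.sqrt_le_iff.2 ⟨by positivity, h.trans ?_⟩
  have a1 : (v + e1) ^ 2 ≤ (2 * (u + e1)) ^ 2 := pow_le_pow_left₀ (by linarith) (by linarith) 2
  have a2 : u ^ 2 ≤ (u + e1) ^ 2 := pow_le_pow_left₀ hu (by linarith) 2
  have a3 : (1 + 3 * δ) * (v + e1) ^ 2 ≤ 2 * (2 * (u + e1)) ^ 2 :=
    mul_le_mul (by linarith) a1 (sq_nonneg _) (by norm_num)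
  have a4 : k * u ^ 2 ≤ k * (u + e1) ^ 2 := mul_le_mul_of_nonneg_left a2 (by linarith)
  have a5 : (8 + k) * (u + e1) ^ 2 ≤ k ^ 2 * (u + e1) ^ 2 :=
    mul_le_mul_of_nonneg_right (by nlinarith) (sq_nonneg _)
  nlinarith

theorem light {δ A v u e1 β0 : ℝ} (hδ : 0 < δ) (hδ' : δ ≤ 1 / 4) (hu : 0 ≤ u)
    (he : 0 ≤ e1) (hv : v ≤ β0) (hb : u + e1 ≤ β0)
    (h : A ≤ (1 + 3 * δ) * (v + e1) ^ 2 + 9 / δ * u ^ 2) :
    A ≤ (1 + 3 * δ) * v ^ 2 + 9 / δ * β0 * (u + e1) := by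
  have hk : 36 ≤ 9 / δ := by
    rw [le_div_iff₀ hδ]
    linarith
  generalize 9 / δ = k at hk h ⊢
  have a1 : (2 * v + e1) * e1 ≤ 3 * β0 * e1 := mul_le_mul_of_nonneg_right (by linarith) he
  have a0 : 0 ≤ β0 * e1 := mul_nonneg (by linarith) he
  have a2 : (1 + 3 * δ) * ((2 * v + e1) * e1) ≤ (1 + 3 * δ) * (3 * β0 * e1) :=
    mul_le_mul_of_nonneg_left a1 (by linarith)
  have a3 : (1 + 3 * δ) * 3 * (β0 * e1) ≤ k * (β0 * e1) :=
    mul_le_mul_of_nonneg_right (by linarith) a0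
  have a4 : u * u ≤ β0 * u := mul_le_mul_of_nonneg_right (by linarith) hu
  have a5 : k * (u * u) ≤ k * (β0 * u) := mul_le_mul_of_nonneg_left a4 (by linarith)
  nlinarith

theorem young {ι : Type} (J : Finset ι) (z y : ι → ℝ) {s : ℝ} (hs : 0 < s) :
    |∑ i ∈ J, z i * y i| ≤ s / 2 * ∑ i ∈ J, z i ^ 2 + (∑ i ∈ J, y i ^ 2) / (2 * s) := by
  rw [mul_sum, sum_div, ← sum_add_distrib]
  refine (abs_sum_le_sum_abs _ _).trans (sum_le_sum fun i _ => ?_)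
  rw [abs_mul, ← sq_abs (z i), ← sq_abs (y i)]
  have e : s / 2 * |z i| ^ 2 + |y i| ^ 2 / (2 * s) - |z i| * |y i| =
      (s * |z i| - |y i|) ^ 2 / (2 * s) := by
    field_simp
    ring
  have : 0 ≤ (s * |z i| - |y i|) ^ 2 / (2 * s) := by positivity
  linarith

/-- The pointwise bound. -/
theorem point {S : Sys} {δ : ℝ} (hδ : 0 < δ) (hδ' : δ ≤ 1 / 4) (hW : S.WF) (hR : RipL S δ)
    (b : S.B) (z y : S.ι → ℝ) (V e : S.Λ → ℝ) {β0 ℓ c s : ℝ} (hβ : 0 ≤ β0) (hℓ : 0 ≤ ℓ)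
    (hc : 0 ≤ c) (hs : 0 < s)
    (h : ∀ l ∈ S.Lb b, √(S.ν (S.own b)) * V l = ∑ i ∈ S.J b, (S.n i l : ℝ) * z i + e l)
    (hV : S.sq b V ≤ β0 ^ 2)
    (hD : |∑ i ∈ S.J b, z i * y i| ≤ ℓ * ∑ i ∈ S.J b, |z i| + c * √(∑ i ∈ S.J b, z i ^ 2)) :
    |∑ i ∈ S.J b, z i * y i| ≤ s / 2 * ((1 + 3 * δ) * ∑ l ∈ S.Lb b, V l ^ 2 + 9 / δ * β0 *
        ((∑ i ∈ S.J b, |z i|) / √(S.D (S.own b)) + ∑ l ∈ S.Lb b, |e l|)) +
      (∑ i ∈ S.J b, y i ^ 2) / (2 * s) + ℓ * ∑ i ∈ S.J b, |z i| +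
      9 / δ * c * ((∑ i ∈ S.J b, |z i|) / √(S.D (S.own b)) + ∑ l ∈ S.Lb b, |e l|) := by
  have h1 := coef_le hδ hW hR b z V e h
  have hz : 0 ≤ ∑ i ∈ S.J b, |z i| := sum_nonneg fun _ _ => abs_nonneg _
  have hu : 0 ≤ (∑ i ∈ S.J b, |z i|) / √(S.D (S.own b)) := by positivity
  have he : 0 ≤ ∑ l ∈ S.Lb b, |e l| := sum_nonneg fun _ _ => abs_nonneg _
  have hq : 0 ≤ ∑ l ∈ S.Lb b, V l ^ 2 := sum_nonneg fun _ _ => sq_nonneg _
  have hy : 0 ≤ (∑ i ∈ S.J b, y i ^ 2) / (2 * s) :=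
    div_nonneg (sum_nonneg fun _ _ => sq_nonneg _) (by linarith)
  have hv : √(S.sq b V) ≤ β0 := Real.sqrt_le_iff.2 ⟨hβ, hV⟩
  have hv2 : √(S.sq b V) ^ 2 = ∑ l ∈ S.Lb b, V l ^ 2 := Real.sq_sqrt hq
  generalize (∑ i ∈ S.J b, |z i|) / √(S.D (S.own b)) = u at h1 hu ⊢
  generalize ∑ l ∈ S.Lb b, |e l| = e1 at h1 he ⊢
  have p1 : 0 ≤ ℓ * ∑ i ∈ S.J b, |z i| := mul_nonneg hℓ hz
  have p2 : 0 ≤ 9 / δ * c * (u + e1) := by positivity
  have p3 : 0 ≤ s / 2 * ((1 + 3 * δ) * ∑ l ∈ S.Lb b, V l ^ 2 + 9 / δ * β0 * (u + e1)) := by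
    positivity
  rcases le_total (u + e1) β0 with hb | hb
  · have h2 := light hδ hδ' hu he hv hb h1
    rw [hv2] at h2
    have h3 := young (S.J b) z y hs
    have h4 := mul_le_mul_of_nonneg_left h2 (by linarith : 0 ≤ s / 2)
    linarith
  · have h2 := heavy hδ hδ' (Real.sqrt_nonneg _) hu he (hv.trans hb) h1
    have h3 := mul_le_mul_of_nonneg_left h2 hc
    have h4 : c * (9 / δ * (u + e1)) = 9 / δ * c * (u + e1) := by ring
    linarith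

theorem ex_unit {S : Sys} (b : S.B) (α : S.ι → S.G → ℝ) (e : S.Λ → S.G → ℝ) :
    𝔼 β, ((∑ i ∈ S.J b, |α i β|) / √(S.D (S.own b)) + ∑ l ∈ S.Lb b, |e l β|) =
      (∑ i ∈ S.J b, 𝔼 β, |α i β|) / √(S.D (S.own b)) + ∑ l ∈ S.Lb b, 𝔼 β, |e l β| := by
  rw [expect_add_distrib, ← expect_div, expect_sum_comm, expect_sum_comm]

end Pair

/-- Pairing of the coefficients of a bounded vector field with a test vector. -/
theorem pair_proof (hR : RipStmt) : PairStmt := by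
  intro S δ hδ hδ' hW hRIP b α Y V e β0 ℓ c s E hβ hℓ hc hs h hV hD hE
  have hp := fun β => Pair.point hδ hδ' hW (hR S δ hδ hδ' hW hRIP) b (fun i => α i β)
    (fun i => Y i β) (fun l => V l β) (fun l => e l β) hβ hℓ hc hs (fun l hl => h l hl β) (hV β)
    (hD β fun i => α i β)
  rw [← expect_sum_comm]
  refine (Finset.abs_expect_le _ _).trans ((expect_le_expect fun β _ => hp β).trans ?_)
  rw [expect_add_distrib, expect_add_distrib, expect_add_distrib, ← mul_expect, ← mul_expect,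
    ← mul_expect, expect_add_distrib, ← mul_expect, ← mul_expect, ← expect_div, Pair.ex_unit,
    expect_sum_comm, expect_sum_comm, expect_sum_comm]
  have a1 := mul_le_mul_of_nonneg_left hE (by positivity : 0 ≤ 9 / δ * β0)
  have a2 := mul_le_mul_of_nonneg_left hE (by positivity : 0 ≤ 9 / δ * c)
  have a3 := mul_le_mul_of_nonneg_left a1 (by linarith : 0 ≤ s / 2)
  linarith

/-- The jumps averaged over a block are flat. -/
theorem sp_proof (hB : BasicStmt) (hR : RipStmt) (hN : NoiseStmt) : SpStmt := by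
  intro S δ hδ hδ' hW hRIP F b
  have hk := (hN S).mk_eA {b}
  have h : ∀ β, ∀ l ∈ S.Lb b, √(S.ν (S.own b)) * (0 : ℝ) =
      ∑ i ∈ S.J b, (S.n i l : ℝ) * S.cv (S.eA {b}) (F.a i) β + S.cv (S.eA {b}) (F.er l) β := by
    intro β l hl
    have hb : S.blk l = b := (mem_filter.1 hl).2
    have e1 : S.cv (S.eA {b}) (F.er l) β = S.cv (S.eA {b}) (S.Dl l F.f) β -
        S.cv (S.eA {b}) (fun β => ∑ i, (S.n i l : ℝ) * F.a i β) β := (hB S).cv_sub _ _ _ β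
    rw [e1, (hN S).eA_Dl {b} l F.f β (by rw [hb]; exact mem_singleton_self b),
      (hB S).cv_sum univ _ (fun i β => (S.n i l : ℝ) * F.a i β) β]
    simp only [(hB S).cv_mul]
    rw [(hB S).sum_n hW l, hb]
    ring
  have hp : ∀ β, √(∑ i ∈ S.J b, S.cv (S.eA {b}) (F.a i) β ^ 2) ≤
      9 / δ * ((∑ i ∈ S.J b, |S.cv (S.eA {b}) (F.a i) β|) / √(S.D (S.own b)) +
        ∑ l ∈ S.Lb b, |S.cv (S.eA {b}) (F.er l) β|) := by
    intro β
    have h1 := Pair.coef_le hδ hW (hR S δ hδ hδ' hW hRIP) b _ (fun _ => 0) _ (h β)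
    have hz : 0 ≤ ∑ i ∈ S.J b, |S.cv (S.eA {b}) (F.a i) β| := sum_nonneg fun _ _ => abs_nonneg _
    have he : 0 ≤ ∑ l ∈ S.Lb b, |S.cv (S.eA {b}) (F.er l) β| := sum_nonneg fun _ _ => abs_nonneg _
    refine Pair.heavy hδ hδ' (Real.sqrt_nonneg _) (by positivity) he ?_ h1
    have : S.sq b (fun _ => 0) = 0 := by simp [Sys.sq]
    rw [this, Real.sqrt_zero]
    positivity
  refine (expect_le_expect fun β _ => hp β).trans ?_
  rw [← mul_expect, Pair.ex_unit b (fun i => S.cv (S.eA {b}) (F.a i))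
    (fun l => S.cv (S.eA {b}) (F.er l))]
  refine mul_le_mul_of_nonneg_left (add_le_add ?_ ?_) (by positivity)
  · exact div_le_div_of_nonneg_right
      (sum_le_sum fun i _ => (hB S).ex_abs _ _ hk.1 hk.2.1.le) (Real.sqrt_nonneg _)
  · exact sum_le_sum fun l _ => (hB S).ex_abs _ _ hk.1 hk.2.1.le

end Vale.Agent.P318.D
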