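import Vale.Agent.P318.D.Stmt

/-!
Track D: the near-line kernel sees the frequencies that are almost parallel to the column.
-/

namespace Vale.Agent.P318.D

open Finset
open scoped BigOperators

namespace Pi

theorem sum_shift {Λ : Type} (s : Finset Λ) (n x : Λ → ℝ) (j : ℝ) :
    ∑ l ∈ s, (x l + j * n l) ^ 2 =
      ∑ l ∈ s, x l ^ 2 + 2 * j * ∑ l ∈ s, n l * x l + j ^ 2 * ∑ l ∈ s, n l ^ 2 := by
  rw [mul_sum, mul_sum, ← sum_add_distrib, ← sum_add_distrib]
  exact sum_congr rfl fun l _ => by ring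

theorem round_sq {Λ : Type} (s : Finset Λ) {n : Λ → ℤ} (hn : ∀ l, n l = 0 ∨ n l = 1 ∨ n l = -1)
    (x : Λ → ℤ) (u : ℝ) :
    (u - round u) ^ 2 * ∑ l ∈ s, (n l : ℝ) ^ 2 ≤ ∑ l ∈ s, ((x l : ℝ) + -u * n l) ^ 2 := by
  rw [mul_sum]
  refine sum_le_sum fun l _ => ?_
  rcases hn l with h | h | h <;> rw [h]
  · simpa using sq_nonneg (x l : ℝ)
  · have := sq_le_sq.2 (round_le u (x l))
    push_cast
    linarith
  · have := sq_le_sq.2 (round_le u (-x l))
    push_cast at this ⊢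
    linarith

/-- The numerical part. -/
theorem bound {X N d r K A E u v : ℝ} (hN : 0 < N) (hA : 1 ≤ A) (hu : u * N = d)
    (h1 : (1 - 1 / (4 * A)) * N * X ≤ d ^ 2) (h2 : X ≤ A * E) (h3 : K ^ 2 * N ≤ 5 / 4 * E)
    (h4 : (u - r) ^ 2 * N ≤ X + 2 * -u * d + (-u) ^ 2 * N) (h5 : |v + r| ≤ K) :
    X + 2 * v * d + v ^ 2 * N ≤ 7 / 2 * E := by
  subst hu
  have h6 : (1 - 1 / (4 * A)) * X ≤ u ^ 2 * N :=
    le_of_mul_le_mul_left (by linarith) hN
  have h7 : 1 / (4 * A) * X ≤ E / 4 := by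
    rw [one_div, inv_mul_le_iff₀ (by positivity)]
    linarith
  have h8 : (v + r) ^ 2 * N ≤ K ^ 2 * N :=
    mul_le_mul_of_nonneg_right (sq_le_sq' (abs_le.1 h5).1 (abs_le.1 h5).2) hN.le
  have h9 := mul_nonneg (sq_nonneg (u - r - (v + r))) hN.le
  have h10 : 0 ≤ E := by nlinarith [mul_nonneg (sq_nonneg K) hN.le]
  nlinarith

end Pi

theorem pi_proof (hB : BasicStmt) (hT : TrigStmt) (hR : RipStmt) (hP : PkStmt) : PiStmt := by
  obtain ⟨C, hC, hP⟩ := hP
  refine ⟨Real.exp (-7) / (4 * C), by positivity, ?_,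
    fun S δ a t P i ξ h0 h1 hw hr ha ht hq hx hd => ?_⟩
  · rw [div_le_one (by positivity)]
    linarith [Real.exp_le_one_iff.2 (show (-7 : ℝ) ≤ 0 by norm_num)]
  have hp := hP S δ a t P i h0 h1 hw hr ha ht hq
  have hn := (hR S δ h0 h1 hw hr).norm _ i ((hB S).pb_mem hw P i).2
  rw [hw.own_pb] at hn
  have hν := hw.one_le_ν P
  have hs := Real.sqrt_pos.2 ht
  have ha2 : 1 ≤ a ^ 2 := one_le_pow₀ ha
  have ha4 : 1 ≤ a ^ 4 := one_le_pow₀ ha
  set b := S.pb P i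
  set N := S.sq b fun l => S.n i l
  set X := S.sq b (S.cv0 ξ)
  set d := S.dotb i b (S.cv0 ξ)
  set K := 1 / (a ^ 2 * √t) with hK
  set κ : ℝ := (kap t : ℝ) with hκ
  have hδ := mul_le_mul_of_nonneg_right h1 (zero_le_one.trans hν)
  have hN1 : 3 / 4 * S.ν P ≤ N := by linarith [hn.1]
  have hN2 : N ≤ 5 / 4 * S.ν P := by linarith [hn.2]
  have hN : 0 < N := by linarith
  obtain ⟨u, hu⟩ : ∃ u, u * N = d := ⟨_, div_mul_cancel₀ d hN.ne'⟩
  have e1 : ∀ j : ℝ, ∑ l ∈ S.Lb b, (cen (ξ l) + j * S.n i l) ^ 2 = X + 2 * j * d + j ^ 2 * N :=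
    Pi.sum_shift (S.Lb b) (fun l => S.n i l) (S.cv0 ξ)
  have e2 : (u - round u) ^ 2 * N ≤ X + 2 * -u * d + (-u) ^ 2 * N :=
    e1 _ ▸ Pi.round_sq (S.Lb b) (hw.ent i) (fun l => (ξ l).valMinAbs) u
  have hK0 : 0 < K := by positivity
  have hK1 : K ≤ 1 / √t := one_div_le_one_div_of_le hs (le_mul_of_one_le_left hs.le ha2)
  have hK2 : K ^ 2 = 1 / (a ^ 4 * t) := by
    rw [hK, div_pow, mul_pow, Real.sq_sqrt ht.le, one_pow, ← pow_mul]
  have hX : X ≤ a ^ 4 * (S.ν P / (a ^ 4 * t)) := by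
    rw [← mul_div_assoc, mul_div_mul_left _ _ (by positivity), le_div_iff₀ ht]
    linarith
  have hu2 : |u| ≤ 2 / √t := by
    refine abs_le_of_sq_le_sq ?_ (by positivity)
    rw [div_pow, Real.sq_sqrt ht.le, le_div_iff₀ ht]
    have h2 : u ^ 2 * N ≤ X := by
      have h2 := (mul_nonneg (sq_nonneg (u - round u)) hN.le).trans e2
      rw [← hu] at h2
      linarith
    have h3 := mul_le_mul_of_nonneg_left h2 ht.le
    refine le_of_mul_le_mul_right ?_ hN
    linarith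
  have hκ1 : 8 / √t + 4 ≤ κ := by
    rw [hκ, kap]
    push_cast
    linarith [Nat.le_ceil (8 / √t)]
  have hκ0 : 0 < κ := lt_of_lt_of_le (by positivity) hκ1
  have key : ∀ j ∈ Icc (-(round u + ⌊K⌋₊)) (-round u), 2 * |(j : ℝ)| ≤ κ ∧
      Real.exp (-7) ≤ S.rs (2 * a ^ 4 * t / S.ν P) b (ξ + (j : ZMod S.q) • S.nv i b) := by
    intro j hj
    obtain ⟨h2, h3⟩ := mem_Icc.1 hj
    have h4 : |(j : ℝ) + round u| ≤ K := by
      have h4 : (-(round u + ⌊K⌋₊ : ℝ)) ≤ j := by exact_mod_cast h2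
      have h5 : (j : ℝ) ≤ -round u := by exact_mod_cast h3
      exact abs_le.2 ⟨by linarith [Nat.floor_le hK0.le], by linarith⟩
    constructor
    · have h5 := abs_le.1 (abs_sub_round u)
      have h6 := abs_le.1 hu2
      have h7 := abs_le.1 h4
      have h8 : 0 < 1 / √t := by positivity
      have h9 : 2 / √t = 2 * (1 / √t) := by ring
      have h10 : 8 / √t = 8 * (1 / √t) := by ring
      have : |(j : ℝ)| ≤ κ / 2 := abs_le.2 ⟨by linarith, by linarith⟩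
      linarith
    · have h5 := Pi.bound hN ha4 hu hd hX (by
        rw [hK2, one_div, inv_mul_eq_div, ← mul_div_assoc]
        exact div_le_div_of_nonneg_right hN2 (by positivity)) e2 h4
      have h6 : ∑ l ∈ S.Lb b, dt ((ξ + (j : ZMod S.q) • S.nv i b) l) ^ 2 ≤
          7 / 2 * (S.ν P / (a ^ 4 * t)) := by
        refine (sum_le_sum fun l hl => ?_).trans ((e1 j).le.trans h5)
        have := (hT S.q).2.1 ((ξ l).valMinAbs + j * S.n i l)
        simpa [Sys.nv, (mem_filter.1 hl).2, cen] using this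
      refine Real.exp_le_exp.2 (neg_le_neg ((mul_le_mul_of_nonneg_left h6 (by positivity)).trans
        (le_of_eq ?_)))
      field_simp
  have h2 : ((⌊K⌋₊ : ℝ) + 1) * (Real.exp (-7) / 2) ≤
      S.pis a t P i ξ * S.nrm (2 * a ^ 4 * t / S.ν P) (kap t) i b := by
    rw [hp.form]
    refine le_trans ?_ (sum_le_sum_of_subset_of_nonneg (s := Icc (-(round u + ⌊K⌋₊)) (-round u))
      (fun j hj => ?_) fun j hj _ => mul_nonneg ?_ (Real.exp_pos _).le)
    · refine le_trans (le_of_eq ?_) (card_nsmul_le_sum _ _ (Real.exp (-7) / 2) fun j hj => ?_)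
      · rw [Int.card_Icc, show -round u + 1 - -(round u + ⌊K⌋₊) = (⌊K⌋₊ + 1 : ℕ) by push_cast; ring,
          Int.toNat_natCast, nsmul_eq_mul]
        push_cast
        rfl
      · have h3 : |(j : ℝ)| / κ ≤ 1 / 2 := by
          rw [div_le_iff₀ hκ0]
          linarith [(key j hj).1]
        exact le_trans (le_of_eq (by ring)) (mul_le_mul (show 1 / 2 ≤ 1 - |(j : ℝ)| / κ by linarith)
          (key j hj).2 (Real.exp_pos _).le (by linarith))
    · have h3 : |(j : ℝ)| < κ := by linarith [(key j hj).1]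
      rw [mem_Ioo, ← abs_lt]
      rw [hκ] at h3
      exact_mod_cast h3
    · rw [mem_Ioo, ← abs_lt] at hj
      rw [sub_nonneg, div_le_one hκ0, hκ]
      exact_mod_cast hj.le
  have h3 := mul_le_mul_of_nonneg_left hp.nrm_le (hp.mem ξ).1
  have h4 := Nat.lt_floor_add_one K
  have h5 : (0 : ℝ) ≤ ⌊K⌋₊ := Nat.cast_nonneg _
  rw [div_le_iff₀ (by positivity)]
  refine le_of_mul_le_mul_right ?_ (show 0 < 1 + K by positivity)
  have h6 := mul_le_mul_of_nonneg_left (show 1 + K ≤ 2 * (⌊K⌋₊ + 1) by linarith)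
    (Real.exp_pos (-7)).le
  linarith

end Vale.Agent.P318.D
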