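import Vale.Agent.P318.D.Fej

/-!
Track D: the near-line kernel.
-/

namespace Vale.Agent.P318.D

open Finset
open Vale.Agent.P318.R (ang)

namespace Pk

lemma sum_gauss {y : ℝ} (hy : 0 < y) (K : ℕ) :
    ∑ m ∈ range K, Real.exp (-(y * (m + 1)) ^ 2) ≤ 2 / y * (1 - 1 / (1 + y * K)) := by
  induction K with
  | zero => simp
  | succ K ih =>
    rw [sum_range_succ]
    push_cast
    have hK : (0 : ℝ) ≤ y * K := by positivity
    have h1 : Real.exp (-(y * (K + 1)) ^ 2) ≤ 1 / (1 + (y * (K + 1)) ^ 2) := by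
      rw [Real.exp_neg, one_div]
      exact inv_anti₀ (by positivity) (by linarith [Real.add_one_le_exp ((y * (K + 1)) ^ 2)])
    have h2 : 1 / (1 + (y * (K + 1)) ^ 2) ≤ 2 / ((1 + y * K) * (1 + y * (K + 1))) := by
      rw [div_le_div_iff₀ (by positivity) (by positivity)]
      nlinarith [sq_nonneg (y * (K + 1) - 1)]
    have h3 : 2 / y * (1 - 1 / (1 + y * (K + 1))) =
        2 / y * (1 - 1 / (1 + y * K)) + 2 / ((1 + y * K) * (1 + y * (K + 1))) := by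
      field_simp
      ring
    linarith

lemma sum_gauss' {y : ℝ} (hy : 0 < y) {κ : ℕ} (hκ : 1 ≤ κ) :
    ∑ j ∈ Ioo (-(κ : ℤ)) κ, Real.exp (-(y * j) ^ 2) ≤ 1 + 4 / y := by
  obtain ⟨K, rfl⟩ : ∃ K, κ = K + 1 := ⟨κ - 1, by omega⟩
  rw [Fej.sum_Ioo, sum_add_distrib]
  have h := sum_gauss hy K
  have h1 : 2 / y * (1 - 1 / (1 + y * K)) ≤ 2 / y :=
    mul_le_of_le_one_right (by positivity) (sub_le_self _ (by positivity))
  simp only [Int.cast_zero, mul_zero, Int.cast_neg, Int.cast_add, Int.cast_natCast, Int.cast_one,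
    mul_neg, even_two, Even.neg_pow]
  have e : 4 / y = 2 / y + 2 / y := by ring
  norm_num
  linarith

variable {S : Sys}

lemma dot_add (ξ v w : S.G) (j : ZMod S.q) : S.dot (ξ + j • v) w = S.dot ξ w + j * S.dot v w := by
  simp only [Sys.dot, mul_sum, ← sum_add_distrib, Pi.add_apply, Pi.smul_apply, smul_eq_mul]
  exact sum_congr rfl fun l _ => by ring

lemma dot_neg (v w : S.G) : S.dot v (-w) = -S.dot v w := by
  simp [Sys.dot]

/-- The basic identity. -/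
lemma key (hH : Heat S) (s : ℝ) (b : S.B) (κ : ℕ) (v ξ : S.G) (u : ZMod S.q) :
    ∑ w, ((S.hk s b w * fej κ (u + S.dot v w) : ℝ) : ℂ) * S.ch ξ w =
      ∑ j ∈ Ioo (-(κ : ℤ)) κ, ((1 - |(j : ℝ)| / κ : ℝ) : ℂ) *
        ZMod.stdAddChar ((j : ZMod S.q) * u) * (S.rs s b (ξ + (j : ZMod S.q) • v) : ℝ) := by
  simp only [← hH.sy, Sys.sy, mul_sum, Complex.ofReal_mul, Fej.fej_eq, sum_mul]
  rw [sum_comm]
  refine sum_congr rfl fun j _ => sum_congr rfl fun w _ => ?_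
  simp only [Sys.ch, dot_add, mul_add, AddChar.map_add_eq_mul]
  ring

lemma ch_zero (w : S.G) : S.ch 0 w = 1 := by simp [Sys.ch, Sys.dot]

lemma rs_pos (s : ℝ) (b : S.B) (ξ : S.G) : 0 < S.rs s b ξ := Real.exp_pos _

lemma nrm_eq (hH : Heat S) (s : ℝ) (κ : ℕ) (i : S.ι) (b : S.B) : S.nrm s κ i b =
    ∑ j ∈ Ioo (-(κ : ℤ)) κ, (1 - |(j : ℝ)| / κ) * S.rs s b ((j : ZMod S.q) • S.nv i b) := by
  have h := key hH s b κ (S.nv i b) 0 0
  simp only [ch_zero, mul_one, zero_add, mul_zero, AddChar.map_zero_eq_one] at h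
  unfold Sys.nrm
  exact_mod_cast h

lemma cv_le (hB : Basic S) (hH : Heat S) (s : ℝ) (κ : ℕ) (i : S.ι) (b : S.B)
    (c : S.ι → ZMod S.q) (β : S.G) :
    S.cv (S.hk s b) (fun β => fej κ (S.y c i β)) β ≤ S.nrm s κ i b := by
  have e : S.cv (S.hk s b) (fun β => fej κ (S.y c i β)) β =
      ∑ w, S.hk s b w * fej κ (S.y c i β + S.dot (S.nv i b) w) := by
    refine sum_congr rfl fun w _ => ?_
    by_cases hw : S.hk s b w = 0
    · simp [hw]
    simp only [hB.y_add]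
    congr 3
    refine sum_congr rfl fun l _ => ?_
    by_cases hl : S.blk l = b
    · simp [Sys.nG, Sys.nv, hl]
    · simp [hH.supp s b w hw l hl]
  have h := congrArg Complex.re (key hH s b κ (S.nv i b) 0 (S.y c i β))
  simp only [ch_zero, mul_one, zero_add, Complex.re_sum, Complex.ofReal_re, Complex.re_mul_ofReal,
    Complex.re_ofReal_mul, ← R.cos_ang] at h
  rw [e, h, nrm_eq hH]
  refine sum_le_sum fun j hj => mul_le_mul_of_nonneg_right ?_ (rs_pos _ _ _).le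
  exact mul_le_of_le_one_right (Fej.coef_nonneg hj) (Real.cos_le_one _)

lemma rs_line (hT : TrigStmt) (hW : S.WF) (s : ℝ) (i : S.ι) (b : S.B) (j : ZMod S.q) :
    S.rs s b (j • S.nv i b) = Real.exp (-(s * (S.sq b (fun l => S.n i l) * dt j ^ 2))) := by
  unfold Sys.rs Sys.sq
  rw [sum_mul]
  congr 3
  refine sum_congr rfl fun l hl => ?_
  have h1 : S.blk l = b := (mem_filter.1 hl).2
  simp only [Sys.nv, Pi.smul_apply, if_pos h1, smul_eq_mul]
  rcases hW.ent i l with h | h | h <;> simp [h, (hT S.q).2.2.2.1]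
  simp [dt]

lemma nrm_le (hT : TrigStmt) (hH : Heat S) (hW : S.WF) {σ y ν : ℝ} {κ : ℕ} {i : S.ι} {b : S.B}
    (hν : 0 < ν) (hn : 3 / 4 * ν ≤ S.sq b fun l => S.n i l) (hy : 0 < y) (hσ : y ^ 2 ≤ σ)
    (hκ : 1 ≤ κ) (hq : 2 * (κ : ℝ) ≤ S.q) : S.nrm (σ / ν) κ i b ≤ 8 * (1 + 1 / y) := by
  rw [nrm_eq hH]
  have h := sum_gauss' (half_pos hy) hκ
  have e : 4 / (y / 2) = 8 * (1 / y) := by field_simp; norm_num
  refine le_trans (sum_le_sum fun j hj => ?_) (h.trans (by rw [e]; linarith))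
  refine (mul_le_of_le_one_left (rs_pos _ _ _).le (sub_le_self _ (by positivity))).trans ?_
  rw [rs_line hT hW]
  refine Real.exp_le_exp.2 (neg_le_neg ?_)
  have h1 : |(j : ℝ)| < κ := by exact_mod_cast abs_lt.2 (mem_Ioo.1 hj)
  have h2 := (hT S.q).1 (j : ZMod S.q)
  rw [(hT S.q).2.2.2.2.2.2.2.1 j (by linarith)] at h2
  have h3 : 0 ≤ σ := (sq_nonneg y).trans hσ
  have h4 : 3 / 4 * ν * (2 / 5 * (j : ℝ) ^ 2) ≤
      S.sq b (fun l => S.n i l) * dt (j : ZMod S.q) ^ 2 :=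
    mul_le_mul hn h2 (by positivity) (by linarith)
  have h5 := mul_le_mul_of_nonneg_left h4 (div_nonneg h3 hν.le)
  have e2 : σ / ν * (3 / 4 * ν * (2 / 5 * (j : ℝ) ^ 2)) = 3 / 10 * (σ * j ^ 2) := by
    field_simp
    ring
  have h6 := mul_le_mul_of_nonneg_right hσ (sq_nonneg (j : ℝ))
  have h7 : 0 ≤ σ * (j : ℝ) ^ 2 := by positivity
  rw [e2] at h5
  nlinarith

lemma le_nrm (hT : TrigStmt) (hH : Heat S) (hW : S.WF) {y ν : ℝ} {κ : ℕ} {i : S.ι} {b : S.B}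
    (hν : 0 < ν) (hn : (S.sq b fun l => S.n i l) ≤ 5 / 4 * ν) (hy : 0 < y)
    (hκ : 1 ≤ κ) (hk : 2 / y ≤ κ) : (1 + 1 / y) / 100 ≤ S.nrm (2 * y ^ 2 / ν) κ i b := by
  rw [nrm_eq hH]
  have hκ0 : (0 : ℝ) < κ := by exact_mod_cast hκ
  have hy2 : 2 / y = 2 * (1 / y) := by ring
  have hN : (⌊1 / y⌋₊ : ℝ) ≤ 1 / y := Nat.floor_le (by positivity)
  have hN' : 1 / y < ⌊1 / y⌋₊ + 1 := Nat.lt_floor_add_one _
  have hN0 : (0 : ℝ) ≤ ⌊1 / y⌋₊ := Nat.cast_nonneg _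
  have hj : ∀ j ∈ Icc (0 : ℤ) ⌊1 / y⌋₊, (0 : ℝ) ≤ j ∧ (j : ℝ) ≤ 1 / y := fun j hj => by
    have := mem_Icc.1 hj
    exact ⟨by exact_mod_cast this.1, le_trans (by exact_mod_cast this.2) hN⟩
  have hs : Icc (0 : ℤ) ⌊1 / y⌋₊ ⊆ Ioo (-(κ : ℤ)) κ := fun j h => by
    have h1 := hj j h
    have h2 : (j : ℝ) < κ := by linarith
    have h3 := (mem_Icc.1 h).1
    exact mem_Ioo.2 ⟨by omega, by exact_mod_cast h2⟩
  refine le_trans ?_ (sum_le_sum_of_subset_of_nonneg hs fun j h _ =>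
    mul_nonneg (Fej.coef_nonneg h) (rs_pos _ _ _).le)
  have h3 : Real.exp 3 ≤ 25 := by
    have e : Real.exp 3 = Real.exp 1 ^ 3 := by rw [← Real.exp_nat_mul]; norm_num
    have := pow_le_pow_left₀ (Real.exp_pos 1).le Real.exp_one_lt_d9.le 3
    rw [e]
    norm_num at this ⊢
    linarith
  refine le_trans ?_ (card_nsmul_le_sum _ _ (1 / 50) fun j h => ?_)
  · rw [Int.card_Icc, nsmul_eq_mul, sub_zero, Int.toNat_natCast_add_one]
    push_cast
    linarith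
  · obtain ⟨h1, h2⟩ := hj j h
    have c1 : 1 / 2 ≤ 1 - |(j : ℝ)| / κ := by
      have : |(j : ℝ)| / κ ≤ 1 / 2 := by
        rw [abs_of_nonneg h1, div_le_iff₀ hκ0]
        linarith
      linarith
    have c2 : 1 / 25 ≤ S.rs (2 * y ^ 2 / ν) b ((j : ZMod S.q) • S.nv i b) := by
      rw [rs_line hT hW]
      have h4 : S.sq b (fun l => S.n i l) * dt (j : ZMod S.q) ^ 2 ≤ 5 / 4 * ν * (j : ℝ) ^ 2 :=
        mul_le_mul hn ((hT S.q).2.1 j) (by positivity) (by positivity)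
      have h5 := mul_le_mul_of_nonneg_left h4 (by positivity : 0 ≤ 2 * y ^ 2 / ν)
      have e2 : 2 * y ^ 2 / ν * (5 / 4 * ν * (j : ℝ) ^ 2) = 5 / 2 * (j * y) ^ 2 := by
        field_simp
        ring
      have h6 : (j : ℝ) * y ≤ 1 := (le_div_iff₀ hy).1 h2
      have h7 : ((j : ℝ) * y) ^ 2 ≤ 1 := pow_le_one₀ (by positivity) h6
      refine le_trans (b := Real.exp (-3)) ?_ (Real.exp_le_exp.2 (by linarith))
      rw [Real.exp_neg, one_div]
      exact inv_anti₀ (Real.exp_pos _) h3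
    have := mul_le_mul c1 c2 (by norm_num) (by linarith)
    linarith

end Pk

open Pk

theorem pk_proof (hB : BasicStmt) (hT : TrigStmt) (hH : HeatStmt) (hR : RipStmt) : PkStmt := by
  refine ⟨640000, by norm_num, fun S δ a t P i hδ hδ4 hW hrip ha ht hq => ?_⟩
  have hF := fej_proof S.q
  have hν : 0 < S.ν P := lt_of_lt_of_le one_pos (hW.one_le_ν P)
  obtain ⟨n1, n2⟩ := (hR S δ hδ hδ4 hW hrip).norm _ i ((hB S).pb_mem hW P i).2
  rw [hW.own_pb] at n1 n2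
  replace n1 : 3 / 4 * S.ν P ≤ S.sq (S.pb P i) fun l => S.n i l := by nlinarith
  replace n2 : (S.sq (S.pb P i) fun l => S.n i l) ≤ 5 / 4 * S.ν P := by nlinarith
  have hr : 0 < √t := Real.sqrt_pos.2 ht
  have hrr : √t ^ 2 = t := Real.sq_sqrt ht.le
  have ha2 : 1 ≤ a ^ 2 := one_le_pow₀ ha
  have hy : 0 < a ^ 2 * √t := by positivity
  have hyy : (a ^ 2 * √t) ^ 2 = a ^ 4 * t := by rw [mul_pow, hrr]; ring
  have hκ : 1 ≤ kap t := by unfold kap; omega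
  have e8 : 8 / √t = 8 * (1 / √t) := by ring
  have k1 : 8 * (1 / √t) ≤ kap t := by
    have := Nat.le_ceil (8 / √t)
    unfold kap
    push_cast
    linarith
  have k2 : (kap t : ℝ) ≤ 8 * (1 / √t) + 5 := by
    have := Nat.ceil_lt_add_one (by positivity : 0 ≤ 8 / √t)
    unfold kap
    push_cast
    linarith
  have hq1 : (100 : ℝ) ≤ S.q := by exact_mod_cast hW.big
  have hq2 : 100 * (1 / √t) ≤ S.q := by
    rw [mul_one_div, div_le_iff₀ hr]
    linarith [hW.one_le_ν P]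
  have hq3 : 2 * (kap t : ℝ) ≤ S.q := by linarith
  have y1 : 1 / √t = a ^ 2 * (1 / (a ^ 2 * √t)) := by field_simp
  have y0 : 0 < 1 / (a ^ 2 * √t) := by positivity
  have y2 : 1 + 1 / √t ≤ a ^ 2 * (1 + 1 / (a ^ 2 * √t)) := by rw [mul_add, ← y1]; linarith
  have lo := le_nrm (i := i) (κ := kap t) hT (hH S) hW hν n2 hy hκ (by
    have : 2 / (a ^ 2 * √t) = 2 * (1 / (a ^ 2 * √t)) := by ring
    nlinarith)
  rw [hyy, ← mul_assoc] at lo
  have up := nrm_le (σ := 2 * a ^ 4 * t) hT (hH S) hW hν n1 hy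
    (by rw [hyy, mul_assoc]; linarith [mul_pos (pow_pos (by linarith : 0 < a) 4) ht]) hκ hq3
  have u1 := nrm_le hT (hH S) hW hν n1 hr hrr.le hκ hq3
  have u2 := nrm_le hT (hH S) hW hν n1 hy hyy.le hκ hq3
  set N := S.nrm (2 * a ^ 4 * t / S.ν P) (kap t) i (S.pb P i) with hN
  have hN0 : 0 < N := lt_of_lt_of_le (by positivity) lo
  have hk : (kap t : ℝ) ≤ 640000 * a ^ 2 * N := by nlinarith
  have hm := (hH S).mkv (2 * a ^ 4 * t / S.ν P) (S.pb P i) (by positivity)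
  have p0 : ∀ w, 0 ≤ S.pkt a t P i w := fun w =>
    div_nonneg (mul_nonneg (hm.1 w) (hF _ hκ _).1) hN0.le
  have mk : S.Mk (S.pkt a t P i) := by
    refine ⟨p0, ?_, fun w => ?_⟩
    · simp only [Sys.pkt, Sys.pk]
      rw [← sum_div]
      exact div_self hN0.ne'
    · simp only [Sys.pkt, Sys.pk]
      rw [hm.2.2, dot_neg, (hF _ hκ _).2.2.1]
  have sy : ∀ ξ, S.sy (S.pkt a t P i) ξ = (((∑ j ∈ Ioo (-(kap t : ℤ)) (kap t),
      (1 - |(j : ℝ)| / kap t) * S.rs (2 * a ^ 4 * t / S.ν P) (S.pb P i)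
        (ξ + (j : ZMod S.q) • S.nv i (S.pb P i))) / N : ℝ) : ℂ) := fun ξ => by
    have h := key (hH S) (2 * a ^ 4 * t / S.ν P) (S.pb P i) (kap t) (S.nv i (S.pb P i)) ξ 0
    simp only [mul_one, zero_add, mul_zero, AddChar.map_zero_eq_one] at h
    rw [Complex.ofReal_div, Complex.ofReal_sum]
    simp only [Complex.ofReal_mul] at h ⊢
    rw [← h, sum_div]
    refine sum_congr rfl fun w _ => ?_
    simp only [Sys.pkt, Sys.pk, Complex.ofReal_div, Complex.ofReal_mul, ← hN]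
    ring
  have pe : ∀ ξ, S.pis a t P i ξ = _ := fun ξ => (congrArg Complex.re (sy ξ)).trans
    (Complex.ofReal_re _)
  refine ⟨hN0, hk, by linarith, mk, fun w => ?_, fun ξ => by rw [pe, sy], fun ξ => ⟨?_, ?_⟩,
    fun ξ => ?_, 8 * (1 + 1 / √t), 8 * (1 + 1 / (a ^ 2 * √t)), by positivity, by positivity,
    fun c β => (cv_le (hB S) (hH S) _ _ _ _ c β).trans u1,
    fun c β => (cv_le (hB S) (hH S) _ _ _ _ c β).trans u2, ?_⟩
  · rw [abs_of_nonneg (p0 w)]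
    simp only [Sys.pkt, Sys.pk, ← hN]
    rw [div_le_iff₀ hN0]
    have := mul_le_mul_of_nonneg_left ((hF _ hκ (S.dot (S.nv i (S.pb P i)) w)).2.1.trans hk)
      (hm.1 w)
    linarith
  · rw [pe]
    exact div_nonneg (sum_nonneg fun j hj => mul_nonneg (Fej.coef_nonneg hj) (rs_pos _ _ _).le)
      hN0.le
  · rw [← mk.2.1]
    simp only [Sys.pis, Sys.sy, Complex.re_sum, Complex.re_ofReal_mul, Sys.ch, ← R.cos_ang]
    exact sum_le_sum fun w _ => mul_le_of_le_one_right (p0 w) (Real.cos_le_one _)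
  · rw [pe, div_mul_cancel₀ _ hN0.ne']
  · have h1 : (1 + 1 / (a ^ 2 * √t)) ^ 2 ≤ (100 * N) ^ 2 :=
      pow_le_pow_left₀ (by positivity) (by linarith) 2
    have h2 := mul_le_mul_of_nonneg_left h1 (sq_nonneg a)
    have h3 := mul_le_mul_of_nonneg_right y2 (by positivity : 0 ≤ 1 + 1 / (a ^ 2 * √t))
    nlinarith

end Vale.Agent.P318.D
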