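import Vale.Agent.P318.D.Stmt
import Mathlib.Analysis.Real.Pi.Bounds

/-!
Track D: pointwise bounds of the symbols.
-/

namespace Vale.Agent.P318.D

open Finset
open scoped BigOperators
open Vale.Agent.P318.R (ang)

namespace Pt

lemma pi_sq : Real.pi ^ 2 ≤ 10 := by
  have := Real.pi_lt_d2
  have := Real.pi_pos
  nlinarith

lemma young {δ : ℝ} (hδ : 0 < δ) (u v : ℝ) :
    (u + v) ^ 2 ≤ (1 + δ) * u ^ 2 + (1 + 1 / δ) * v ^ 2 := by
  have h : (1 + δ) * u ^ 2 + (1 + 1 / δ) * v ^ 2 - (u + v) ^ 2 = (δ * u - v) ^ 2 / δ := by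
    field_simp
    ring
  have : 0 ≤ (δ * u - v) ^ 2 / δ := by positivity
  linarith

lemma card_Lb (S : Sys) (b : S.B) : ((S.Lb b).card : ℝ) ≤ S.M :=
  Nat.cast_le.2 (card_le_univ _)

lemma abs_n {S : Sys} (h : S.WF) (i : S.ι) (l : S.Λ) : |(S.n i l : ℝ)| ≤ 1 := by
  rcases h.ent i l with e | e | e <;> simp [e]

lemma abs_dotb {S : Sys} (h : S.WF) (i : S.ι) (b : S.B) {x : S.Λ → ℝ} {r : ℝ} (hr : 0 ≤ r)
    (hx : ∀ l, |x l| ≤ r) : |S.dotb i b x| ≤ S.M * r := by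
  refine (abs_sum_le_sum_abs _ _).trans ((sum_le_card_nsmul _ _ r fun l _ => ?_).trans ?_)
  · rw [abs_mul]
    exact (mul_le_mul (abs_n h i l) (hx l) (abs_nonneg _) zero_le_one).trans_eq (one_mul r)
  · rw [nsmul_eq_mul]
    exact mul_le_mul_of_nonneg_right (card_Lb S b) hr

lemma cen_dot (hT : TrigStmt) {S : Sys} (h : S.WF) {Ξ : ℝ} (hΞ : 0 ≤ Ξ) (hw : 2 * S.M * Ξ < S.q)
    {ξ : S.G} (hl : S.low Ξ ξ) (i : S.ι) (b : S.B) :
    cen (S.dot (S.nv i b) ξ) = S.dotb i b (S.cv0 ξ) := by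
  have e : ((∑ l ∈ S.Lb b, S.n i l * (ξ l).valMinAbs : ℤ) : ℝ) = S.dotb i b (S.cv0 ξ) := by
    simp [Sys.dotb, Sys.cv0, cen]
  have e' : S.dot (S.nv i b) ξ = ((∑ l ∈ S.Lb b, S.n i l * (ξ l).valMinAbs : ℤ) : ZMod S.q) := by
    simp [Sys.dot, Sys.nv, Sys.Lb, sum_filter]
  rw [e', (hT S.q).2.2.2.2.2.2.2.1 _ ?_, e]
  have := abs_dotb h i b (x := S.cv0 ξ) hΞ hl
  rw [e]
  linarith

/-- The crude bound. -/
lemma crude (hT : TrigStmt) (hTe : TentStmt) {S : Sys} {δ t p : ℝ} (hδ : δ ≤ 1 / 4) (h : S.WF)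
    (hR : RipL S δ) (ht : 0 < t) (hp : 0 ≤ p) {b : S.B} (hD : p ≤ S.D (S.own b)) (ξ : S.G)
    {i : S.ι} (hi : i ∈ S.J b) : S.hw t p i b ξ ≤ 500 * S.rs (t / S.ν (S.own b)) b ξ := by
  have hν : 0 < S.ν (S.own b) := one_pos.trans_le (h.one_le_ν _)
  have hD0 : (0 : ℝ) < S.D (S.own b) := Nat.cast_pos.2 (h.one_le_D _)
  set K := t / S.ν (S.own b) * ∑ l ∈ S.Lb b, dt (ξ l) ^ 2 with hK
  have hs0 : 0 ≤ ∑ l ∈ S.Lb b, dt (ξ l) ^ 2 := sum_nonneg fun l _ => sq_nonneg _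
  have hK0 : 0 ≤ K := by positivity
  have h1 := hR.up b {i} (fun l => (S.q : ℝ) * Real.sin (ang (ξ l))) (by simpa using hi)
    (by simpa using h.one_le_D _)
  rw [sum_singleton] at h1
  have h2 : S.sq b (fun l => (S.q : ℝ) * Real.sin (ang (ξ l))) ≤
      40 * ∑ l ∈ S.Lb b, dt (ξ l) ^ 2 := by
    rw [mul_sum]
    refine sum_le_sum fun l _ => ((hT S.q).2.2.2.2.1 (ξ l)).trans ?_
    nlinarith [pi_sq, sq_nonneg (dt (ξ l))]
  have h3 : t * (S.dotb i b (fun l => (S.q : ℝ) * Real.sin (ang (ξ l))) / S.ν (S.own b)) ^ 2 ≤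
      50 * K := by
    have : (1 + δ) * S.ν (S.own b) * S.sq b (fun l => (S.q : ℝ) * Real.sin (ang (ξ l))) ≤
        5 / 4 * S.ν (S.own b) * (40 * ∑ l ∈ S.Lb b, dt (ξ l) ^ 2) :=
      mul_le_mul (mul_le_mul_of_nonneg_right (by linarith) hν.le) h2
        (sum_nonneg fun l _ => sq_nonneg _) (by positivity)
    rw [div_pow, hK, mul_div_assoc', div_le_iff₀ (by positivity)]
    calc _ ≤ t * (5 / 4 * S.ν (S.own b) * (40 * ∑ l ∈ S.Lb b, dt (ξ l) ^ 2)) :=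
          mul_le_mul_of_nonneg_left (h1.trans this) ht.le
      _ = _ := by field_simp; ring
  have h4 : t * tent (lam t p (S.D (S.own b)))
      (2 * Real.pi / S.ν (S.own b) * cen (S.dot (S.nv i b) ξ)) ^ 2 ≤ 200 := by
    have a := (hTe.1 (lam t p (S.D (S.own b)))
      (2 * Real.pi / S.ν (S.own b) * cen (S.dot (S.nv i b) ξ)) (Real.sqrt_nonneg _)).1
    have a' := pow_le_pow_left₀ (abs_nonneg _) a 2
    rw [sq_abs, lam, Real.sq_sqrt (by positivity)] at a'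
    refine (mul_le_mul_of_nonneg_left a' ht.le).trans ?_
    rw [mul_div_assoc', div_le_iff₀ (by positivity)]
    nlinarith
  have h5 : t * S.hs t p i b ξ ^ 2 ≤ 100 * K + 400 := by
    unfold Sys.hs
    generalize S.dotb i b (fun l => (S.q : ℝ) * Real.sin (ang (ξ l))) / S.ν (S.own b) = u at h3 ⊢
    generalize tent (lam t p (S.D (S.own b))) _ = v at h4 ⊢
    nlinarith [mul_nonneg ht.le (sq_nonneg (u + v))]
  have h6 : (100 * K + 400) * Real.exp (-K) ≤ 500 := by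
    have a := Real.add_one_le_exp K
    rw [Real.exp_neg, ← div_eq_mul_inv, div_le_iff₀ (Real.exp_pos K)]
    linarith
  have h7 := Real.exp_pos (-K)
  change t * Real.exp (-K) ^ 2 * S.hs t p i b ξ ^ 2 ≤ 500 * Real.exp (-K)
  calc _ = t * S.hs t p i b ξ ^ 2 * Real.exp (-K) * Real.exp (-K) := by ring
    _ ≤ (100 * K + 400) * Real.exp (-K) * Real.exp (-K) := by gcongr
    _ ≤ _ := by gcongr

lemma rs_le (S : Sys) {s : ℝ} (hs : 0 ≤ s) (b : S.B) (ξ : S.G) : S.rs s b ξ ≤ 1 :=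
  Real.exp_le_one_iff.2 (neg_nonpos.2 (mul_nonneg hs (sum_nonneg fun _ _ => sq_nonneg _)))

/-- The fine bound for one column. -/
lemma fine (hT : TrigStmt) (hTe : TentStmt) {S : Sys} {δ t p Ξ : ℝ} (hδ : 0 < δ) (h : S.WF)
    (hΞ : 0 ≤ Ξ) (hw : 2 * S.M * Ξ < S.q) {ξ : S.G} (hl : S.low Ξ ξ) (i : S.ι) (b : S.B) :
    S.hs t p i b ξ ^ 2 ≤ (1 + δ) * (4 * Real.pi ^ 2 / S.ν (S.own b) ^ 2) *
      (if lam t p (S.D (S.own b)) * S.ν (S.own b) / (2 * Real.pi) < |S.dotb i b (S.cv0 ξ)| then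
        S.dotb i b (S.cv0 ξ) ^ 2 else 0) +
      (1 + 1 / δ) * (1764 * (S.M ^ 2 * Ξ ^ 6 / (S.q : ℝ) ^ 4)) := by
  have hν1 := h.one_le_ν (S.own b)
  have hν : 0 < S.ν (S.own b) := one_pos.trans_le hν1
  have hπ := Real.pi_pos
  have hM : 0 ≤ S.M := Nat.cast_nonneg _
  set u := 2 * Real.pi / S.ν (S.own b) * S.dotb i b (S.cv0 ξ) with hu
  have a := hTe.1 (lam t p (S.D (S.own b))) u (Real.sqrt_nonneg _)
  have e : S.hs t p i b ξ = (u - tent (lam t p (S.D (S.own b))) u) + S.dotb i b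
      (fun l => (S.q : ℝ) * Real.sin (ang (ξ l)) - 2 * Real.pi * cen (ξ l)) / S.ν (S.own b) := by
    rw [Sys.hs, cen_dot hT h hΞ hw hl, ← hu]
    have : S.dotb i b (fun l => (S.q : ℝ) * Real.sin (ang (ξ l)) - 2 * Real.pi * cen (ξ l)) =
        S.dotb i b (fun l => (S.q : ℝ) * Real.sin (ang (ξ l))) -
          2 * Real.pi * S.dotb i b (S.cv0 ξ) := by
      simp only [Sys.dotb, Sys.cv0, mul_sum, ← sum_sub_distrib]
      exact sum_congr rfl fun l _ => by ring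
    rw [this, hu]
    ring
  rw [e, mul_assoc (1 + δ)]
  refine (young hδ _ _).trans (add_le_add (mul_le_mul_of_nonneg_left ?_ (by positivity))
    (mul_le_mul_of_nonneg_left ?_ (by positivity)))
  · split_ifs with c
    · refine (sq_le_sq.2 a.2.1).trans_eq ?_
      rw [hu]
      field_simp
      ring
    · rw [a.2.2 ?_, sub_self]
      · simp
      · rw [hu, abs_mul, abs_of_pos (by positivity), div_mul_eq_mul_div, div_le_iff₀ hν]
        rw [not_lt, le_div_iff₀ (by positivity)] at c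
        linarith
  · have b1 := abs_dotb h i b (r := 42 * Ξ ^ 3 / (S.q : ℝ) ^ 2) (by positivity)
      (x := fun l => (S.q : ℝ) * Real.sin (ang (ξ l)) - 2 * Real.pi * cen (ξ l)) fun l =>
        ((hT S.q).2.2.2.2.2.1 (ξ l)).trans (by
          have := hl l
          gcongr)
    have b2 := pow_le_pow_left₀ (abs_nonneg _) b1 2
    rw [sq_abs] at b2
    rw [div_pow]
    refine (div_le_self (sq_nonneg _) (one_le_pow₀ hν1)).trans (b2.trans_eq ?_)
    ring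

end Pt

open Pt in
theorem pt_proof (hT : TrigStmt) (hTe : TentStmt) (hR : RipStmt) : PtStmt := by
  refine ⟨4000, by norm_num, fun S δ T p Ξ Sh t b ξ hδ hδ' h hrip hn ht => ?_⟩
  have hR := hR S δ hδ hδ' h hrip
  have hν : 0 < S.ν (S.own b) := one_pos.trans_le (h.one_le_ν _)
  have hD0 : (0 : ℝ) < S.D (S.own b) := Nat.cast_pos.2 (h.one_le_D _)
  have hp : 0 < p := one_pos.trans_le hn.one_le_p
  have hΞ : 0 ≤ Ξ := zero_le_one.trans hn.one_le_Ξ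
  have hπ := Real.pi_pos
  have hM : 0 ≤ S.M := Nat.cast_nonneg _
  have cr := fun i => crude hT hTe hδ' h hR ht hp.le (hn.p_le_D (S.own b)) ξ (i := i)
  have r1 := rs_le S (div_pos ht hν).le b ξ
  have r0 : 0 < S.rs (t / S.ν (S.own b)) b ξ := Real.exp_pos _
  refine ⟨fun i hi => (cr i hi).trans (by linarith), fun hl w ψ hw hψ hA => ?_⟩
  have w2 : ∀ i, w i ^ 2 ≤ 1 := fun i => pow_le_one₀ (hw i).1 (hw i).2
  have g0 : 0 ≤ S.gs b ξ := div_nonneg (sum_nonneg fun _ _ => sq_nonneg _) hν.le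
  have x0 : 0 ≤ S.xw t b ξ := by unfold Sys.xw; positivity
  have c1 : (500 : ℝ) ≤ 4000 / δ := by
    rw [le_div_iff₀ hδ]
    linarith
  have c2 : (1 + 1 / δ) * 1764 ≤ 4000 / δ := by
    rw [le_div_iff₀ hδ]
    field_simp
    linarith
  have E0 := Real.exp_pos (-p)
  have Y0 : 0 ≤ t * S.M ^ 2 * Ξ ^ 6 / (S.q : ℝ) ^ 4 := by positivity
  by_cases hK : p ≤ t / S.ν (S.own b) * ∑ l ∈ S.Lb b, dt (ξ l) ^ 2
  · have a : ∀ i ∈ S.J b, w i ^ 2 * S.hw t p i b ξ ≤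
        4000 / δ * (Real.exp (-p) + t * S.M ^ 2 * Ξ ^ 6 / (S.q : ℝ) ^ 4) := fun i hi => by
      have h0 : 0 ≤ S.hw t p i b ξ := by unfold Sys.hw; positivity
      have h1 : S.rs (t / S.ν (S.own b)) b ξ ≤ Real.exp (-p) := Real.exp_le_exp.2 (neg_le_neg hK)
      refine (mul_le_of_le_one_left h0 (w2 i)).trans ((cr i hi).trans ?_)
      exact mul_le_mul c1 (by linarith) r0.le (by positivity)
    have := sum_le_card_nsmul _ _ _ a
    rw [nsmul_eq_mul] at this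
    have : 0 ≤ (1 + δ) ^ 3 * ψ * S.xw t b ξ := by positivity
    linarith
  have s0 : 0 ≤ S.sq b (S.cv0 ξ) := sum_nonneg fun _ _ => sq_nonneg _
  have s1 : 2 / 5 * S.sq b (S.cv0 ξ) ≤ ∑ l ∈ S.Lb b, dt (ξ l) ^ 2 := by
    rw [Sys.sq, mul_sum]
    exact sum_le_sum fun l _ => (hT S.q).1 (ξ l)
  have s2 : 4 * Real.pi ^ 2 * S.sq b (S.cv0 ξ) ≤ (1 + δ) * (S.gs b ξ * S.ν (S.own b)) := by
    rw [Sys.gs, div_mul_cancel₀ _ hν.ne', Sys.sq, mul_sum, mul_sum]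
    refine sum_le_sum fun l _ => (hT S.q).2.2.2.2.2.2.1 (ξ l) δ (by linarith) (le_trans ?_ hn.sinc)
    have := pow_le_pow_left₀ (abs_nonneg _) (hl l) 2
    rw [sq_abs] at this
    linarith
  have few := hR.few b (S.cv0 ξ) (lam t p (S.D (S.own b)) * S.ν (S.own b) / (2 * Real.pi))
    (by unfold lam; positivity) (by
      rw [not_le, div_mul_eq_mul_div, div_lt_iff₀ hν] at hK
      have a : t * S.sq b (S.cv0 ξ) ≤ 5 / 2 * (p * S.ν (S.own b)) := by nlinarith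
      have e : S.D (S.own b) * (lam t p (S.D (S.own b)) * S.ν (S.own b) / (2 * Real.pi)) ^ 2 =
          50 * (p * S.ν (S.own b)) * S.ν (S.own b) / (Real.pi ^ 2 * t) := by
        rw [div_pow, mul_pow, lam, Real.sq_sqrt (by positivity)]
        field_simp
        ring
      rw [e, le_div_iff₀ (by positivity)]
      calc _ = (1 + δ) * Real.pi ^ 2 * (t * S.sq b (S.cv0 ξ)) * S.ν (S.own b) := by ring
        _ ≤ 5 / 4 * 10 * (5 / 2 * (p * S.ν (S.own b))) * S.ν (S.own b) := by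
          have := pi_sq
          gcongr
          linarith
        _ ≤ _ := by nlinarith [mul_pos (mul_pos hp hν) hν])
  have hA := hA _ (filter_subset _ _) few
  rw [sum_filter] at hA
  have a : ∀ i ∈ S.J b, w i ^ 2 * S.hw t p i b ξ ≤
      t * S.rs (t / S.ν (S.own b)) b ξ ^ 2 * ((1 + δ) * (4 * Real.pi ^ 2 / S.ν (S.own b) ^ 2)) *
        (if lam t p (S.D (S.own b)) * S.ν (S.own b) / (2 * Real.pi) < |S.dotb i b (S.cv0 ξ)| then
          w i ^ 2 * S.dotb i b (S.cv0 ξ) ^ 2 else 0) +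
        4000 / δ * (Real.exp (-p) + t * S.M ^ 2 * Ξ ^ 6 / (S.q : ℝ) ^ 4) := fun i _ => by
    have f := mul_le_mul_of_nonneg_left (fine (t := t) (p := p) hT hTe hδ h hΞ hn.wrap hl i b)
      (by positivity : 0 ≤ w i ^ 2 * (t * S.rs (t / S.ν (S.own b)) b ξ ^ 2))
    have r2 : w i ^ 2 * S.rs (t / S.ν (S.own b)) b ξ ^ 2 ≤ 1 :=
      mul_le_one₀ (w2 i) (sq_nonneg _) (pow_le_one₀ r0.le r1)
    have f2 : w i ^ 2 * S.rs (t / S.ν (S.own b)) b ξ ^ 2 * ((1 + 1 / δ) * 1764) *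
        (t * S.M ^ 2 * Ξ ^ 6 / (S.q : ℝ) ^ 4) ≤
          4000 / δ * (Real.exp (-p) + t * S.M ^ 2 * Ξ ^ 6 / (S.q : ℝ) ^ 4) :=
      mul_le_mul ((mul_le_of_le_one_left (by positivity) r2).trans c2) (by linarith) Y0
        (by positivity)
    refine le_trans (le_of_eq ?_) (f.trans (le_trans (le_of_eq ?_) (add_le_add_right f2 _)))
    · rw [Sys.hw]
      ring
    · split_ifs <;> ring
  refine (sum_le_sum a).trans ?_
  rw [sum_add_distrib, ← mul_sum, sum_const, nsmul_eq_mul]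
  refine add_le_add ((mul_le_mul_of_nonneg_left hA (by positivity)).trans ?_) (le_of_eq (by ring))
  calc _ = t * S.rs (t / S.ν (S.own b)) b ξ ^ 2 * (1 + δ) ^ 2 * ψ / S.ν (S.own b) *
        (4 * Real.pi ^ 2 * S.sq b (S.cv0 ξ)) := by field_simp
    _ ≤ t * S.rs (t / S.ν (S.own b)) b ξ ^ 2 * (1 + δ) ^ 2 * ψ / S.ν (S.own b) *
        ((1 + δ) * (S.gs b ξ * S.ν (S.own b))) := by gcongr
    _ = _ := by
      rw [Sys.xw]
      field_simp

end Vale.Agent.P318.D
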