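import Vale.Agent.P318.D.SysStmt
import Vale.Agent.P318.RSparse

/-!
Track D: sharp restricted isometry of independent subgaussian rows with concentrated norms.
-/

namespace Vale.Agent.P318.D

open Finset
open scoped BigOperators
open Vale.Agent.P318.R

namespace RipEx

theorem gram {α κ : Type} [Fintype κ] [DecidableEq α] (b : α → κ → ℝ) (T : Finset α)
    (v : α → ℝ) : ∑ j, (∑ i ∈ T, v i * b i j) ^ 2 = ∑ i ∈ T, v i ^ 2 * ∑ j, b i j ^ 2 +
      ∑ i ∈ T, ∑ l ∈ T.erase i, v i * v l * ∑ j, b i j * b l j := by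
  simp only [sq, sum_mul_sum]
  rw [sum_comm, ← sum_add_distrib]
  refine sum_congr rfl fun i hi => ?_
  rw [sum_comm, ← add_sum_erase _ _ hi]
  simp only [mul_sum]
  congr 1
  · exact sum_congr rfl fun _ _ => by ring
  · exact sum_congr rfl fun _ _ => sum_congr rfl fun _ _ => by ring

theorem upper_of_offLe {α κ : Type} [Fintype κ] [DecidableEq α] {b : α → κ → ℝ} {T : Finset α}
    {K m : ℝ} (h : OffLe b T T K) (hm : ∀ i ∈ T, ∑ j, b i j ^ 2 ≤ m) (v : α → ℝ) :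
    ∑ j, (∑ i ∈ T, v i * b i j) ^ 2 ≤ (m + K) * ∑ i ∈ T, v i ^ 2 := by
  have h1 := (abs_le.1 (h v v)).2
  rw [mul_assoc, Real.mul_self_sqrt (sum_nonneg fun _ _ => sq_nonneg _)] at h1
  have h2 : ∑ i ∈ T, v i ^ 2 * ∑ j, b i j ^ 2 ≤ m * ∑ i ∈ T, v i ^ 2 := by
    rw [mul_sum]
    exact sum_le_sum fun i hi => by nlinarith [hm i hi, sq_nonneg (v i)]
  rw [gram]
  linarith

theorem pr_coord {α Ω : Type} [Fintype α] [DecidableEq α] [Fintype Ω] [Nonempty Ω] (i : α)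
    (X : Ω → ℝ) {δ M : ℝ} (hδ : 0 < δ)
    (h : 𝔼 ω, Real.exp (δ * X ω) ≤ 2 * Real.exp (δ ^ 2 * M / 8)) :
    pr (fun w : α → Ω => δ * M / 4 ≤ X (w i)) ≤ 2 * Real.exp (-(δ ^ 2 * M / 8)) := by
  refine (pr_ge_le_exp (fun w : α → Ω => X (w i)) (δ * M / 4) δ hδ.le).trans ?_
  have h1 := expect_exp_sum_le (Ω := fun _ : α => Ω) {i} (fun _ u => δ * X u)
    (fun _ => 2 * Real.exp (δ ^ 2 * M / 8)) (fun _ _ => h)
  simp only [sum_singleton, prod_singleton] at h1
  refine (mul_le_mul_of_nonneg_left h1 (Real.exp_pos _).le).trans (le_of_eq ?_)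
  rw [mul_left_comm, ← Real.exp_add]
  congr 2
  ring

end RipEx

theorem ripEx_proof : RipExStmt := by
  refine ⟨10 ^ 10, by norm_num, ?_⟩
  intro α Ω κ _ _ _ _ _ _ ρ J s δ hδ hδ4 hρ hnc hs
  set M : ℝ := (Fintype.card κ : ℝ) with hM
  set N : ℝ := (Fintype.card α : ℝ) with hN
  have hN0 : 0 ≤ N := Nat.cast_nonneg _
  have hs0 : (0 : ℝ) ≤ s := Nat.cast_nonneg _
  have hL : 1 / 2 ≤ Real.log (N + 2) := by
    have := Real.log_two_gt_d9
    have h2 : Real.log 2 ≤ Real.log (N + 2) := Real.log_le_log (by norm_num) (by linarith)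
    linarith
  set Lg := Real.log (N + 2) with hLg
  have hsL : s / 2 ≤ s * Lg := by nlinarith
  have hδ2 : δ ^ 2 ≤ 1 := by nlinarith
  have hM0' : 0 ≤ M := Nat.cast_nonneg _
  have hδM : δ ^ 2 * M ≤ M := by nlinarith
  have hU : 10 ^ 10 * (s * Lg + Lg) ≤ δ ^ 2 * M := by linarith
  have hM0 : 0 < M := by nlinarith
  have hx0 : 0 < 1 / (N + 2) := by positivity
  have hx1 : 1 / (N + 2) ≤ 1 := by rw [div_le_one (by positivity)]; linarith
  have hJ : (J.card : ℝ) ≤ N := by rw [hN]; exact_mod_cast card_le_univ J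
  have hxJ : 1 / (N + 2) * J.card ≤ 1 := by
    rw [one_div, inv_mul_le_iff₀ (by positivity)]; linarith
  have hlx : Real.log (1 / (N + 2)) = -Lg := by rw [one_div, Real.log_inv]
  have hK0 : 0 < √(2000 * M) := Real.sqrt_pos.2 (by positivity)
  have hK2 : √(2000 * M) ^ 2 = 2000 * M := Real.sq_sqrt (by positivity)
  have h1 := pr_not_opLe_sub (by norm_num) hρ s hx0 hx1 hK0.le
  have h2 := pr_not_offLe_sub (by norm_num) hρ s hx0 hx1 (K := δ * M / 16) (by positivity) hK0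
  have h3 : (2 : ℝ) ^ s ≤ Real.exp s := by
    rw [← mul_one (s : ℝ), Real.exp_nat_mul]
    exact pow_le_pow_left₀ (by norm_num) (by linarith [Real.add_one_le_exp (1 : ℝ)]) _
  have h4 : ∀ y : ℝ, s + y ≤ -(δ ^ 2 * M / 10 ^ 10) →
      2 * 2 ^ s * Real.exp y ≤ 2 * Real.exp (-(δ ^ 2 * M / 10 ^ 10)) := fun y hy => by
    rw [mul_assoc]
    refine mul_le_mul_of_nonneg_left ((mul_le_mul_of_nonneg_right h3 (by positivity)).trans ?_)
      (by norm_num)
    rw [← Real.exp_add]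
    exact Real.exp_le_exp.2 hy
  rw [hK2, hlx] at h1 h2
  have e : (δ * M / 16) ^ 2 / (196 * (2000 * M)) = δ ^ 2 * M / 100352000 := by
    field_simp
    norm_num
  rw [e] at h2
  have h5 := h1.trans (h4 _ (by rw [← hM]; linarith))
  have h6 := h2.trans (h4 _ (by linarith))
  have h7 : pr (fun w : α → Ω => ∃ i ∈ J, δ * M / 4 ≤ ∑ j, ρ i (w i) j ^ 2 - M / 2 ∨
      δ * M / 4 ≤ -(∑ j, ρ i (w i) j ^ 2 - M / 2)) ≤
      J.card * (4 * Real.exp (-(δ ^ 2 * M / 10 ^ 10))) := by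
    refine pr_exists_mem_le_card_mul J _ fun i hi => (pr_or_le _ _).trans ?_
    have a1 := RipEx.pr_coord i (fun ω => ∑ j, ρ i ω j ^ 2 - M / 2) (M := M) hδ
      (hnc i hi δ (by rw [abs_of_pos hδ]; linarith))
    have a2 := RipEx.pr_coord i (fun ω => -(∑ j, ρ i ω j ^ 2 - M / 2)) (M := M) hδ (by
      have := hnc i hi (-δ) (by rw [abs_neg, abs_of_pos hδ]; linarith)
      simpa only [neg_mul, mul_neg, neg_sq] using this)
    have a3 : Real.exp (-(δ ^ 2 * M / 8)) ≤ Real.exp (-(δ ^ 2 * M / 10 ^ 10)) := by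
      refine Real.exp_le_exp.2 ?_
      have : 0 ≤ δ ^ 2 * M := by positivity
      linarith
    linarith
  refine le_trans (pr_mono fun w hw => ?_) ((pr_or_le _ _).trans ((add_le_add h7
    ((pr_or_le _ _).trans (add_le_add h5 h6))).trans ?_))
  · by_contra hc
    rw [not_or, not_or] at hc
    obtain ⟨c0, c1, c2⟩ := hc
    push Not at c0 c1 c2
    refine hw fun T hTJ hT x => ?_
    have hoff := c2 c1 T hTJ T hTJ hT hT
    have l1 := lower_of_offLe hoff (m := M / 2 - δ * M / 4)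
      (fun i hi => by have := (c0 i (hTJ hi)).2; linarith) x
    have l2 := RipEx.upper_of_offLe hoff (m := M / 2 + δ * M / 4)
      (fun i hi => by have := (c0 i (hTJ hi)).1; linarith) x
    have e1 : M / 2 - δ * M / 4 - 4 * (δ * M / 16) = (1 - δ) * (M / 2) := by ring
    have e2 : M / 2 + δ * M / 4 + 4 * (δ * M / 16) = (1 + δ) * (M / 2) := by ring
    rw [e1] at l1
    rw [e2] at l2
    exact ⟨l1, l2⟩
  · have := Real.exp_pos (-(δ ^ 2 * M / 10 ^ 10))
    nlinarith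

end Vale.Agent.P318.D
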