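import Mathlib.Analysis.Real.Pi.Bounds
import Vale.Agent.P318.D.Stmt

/-!
Track D: sums over the shells and consequences of the expansion.
-/

namespace Vale.Agent.P318.D

open Finset
open scoped BigOperators
open Vale.Agent.P318.R (ang)

namespace Shell

theorem ind_pos {p : Prop} (h : p) : ind p = 1 := by simp [ind, h]

theorem ind_neg {p : Prop} (h : ¬ p) : ind p = 0 := by simp [ind, h]

theorem ind_nonneg (p : Prop) : 0 ≤ ind p := by
  by_cases h : p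
  · rw [ind_pos h]; norm_num
  · rw [ind_neg h]

/-- The telescoping bound. -/
theorem tele (x : ℝ) (hx : 0 ≤ x) :
    x * Real.exp (-x) ^ 2 ≤ 4 / 3 * (1 / (1 + x / 4) - 1 / (1 + x)) := by
  have h1 : Real.exp (-x) ≤ 1 / (1 + x) := by
    rw [Real.exp_neg, one_div]
    exact inv_anti₀ (by linarith) (by linarith [Real.add_one_le_exp x])
  have h2 : 1 / (1 + x) ≤ 1 / (1 + x / 4) :=
    one_div_le_one_div_of_le (by linarith) (by linarith)
  have h0 : 0 ≤ Real.exp (-x) := (Real.exp_pos _).le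
  have h3 : Real.exp (-x) ^ 2 ≤ 1 / (1 + x) * (1 / (1 + x / 4)) := by
    rw [sq]
    exact mul_le_mul h1 (h1.trans h2) h0 (by positivity)
  have h4 : 4 / 3 * (1 / (1 + x / 4) - 1 / (1 + x)) = x * (1 / (1 + x) * (1 / (1 + x / 4))) := by
    have : (1 + x) ≠ 0 := by linarith
    have : (1 + x / 4) ≠ 0 := by linarith
    field_simp
    ring
  rw [h4]
  exact mul_le_mul_of_nonneg_left h3 hx

theorem sum_tele (K : ℝ) (hK : 0 ≤ K) (k : ℕ) :
    ∑ j ∈ range k, K / 4 ^ j * Real.exp (-(K / 4 ^ j)) ^ 2 ≤ 4 / 3 := by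
  have h : ∀ k : ℕ, ∑ j ∈ range k, K / 4 ^ j * Real.exp (-(K / 4 ^ j)) ^ 2 ≤
      4 / 3 * (1 / (1 + K / 4 ^ k) - 1 / (1 + K)) := by
    intro k
    induction k with
    | zero => simp
    | succ k ih =>
      rw [sum_range_succ]
      have h1 := tele (K / 4 ^ k) (by positivity)
      have h2 : K / 4 ^ (k + 1) = K / 4 ^ k / 4 := by rw [pow_succ, div_div]
      rw [h2]
      linarith
  have h1 : 1 / (1 + K / 4 ^ k) ≤ 1 := by
    have : 0 ≤ K / 4 ^ k := by positivity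
    rw [div_le_one (by linarith)]
    linarith
  have h2 : 0 ≤ 1 / (1 + K) := by positivity
  linarith [h k]

variable (S : Sys)

theorem gs_nonneg (hW : S.WF) (b : S.B) (ξ : S.G) : 0 ≤ S.gs b ξ := by
  have := hW.one_le_ν (S.own b)
  unfold Sys.gs
  exact div_nonneg (sum_nonneg fun _ _ => sq_nonneg _) (by linarith)

theorem xw_nonneg (hW : S.WF) (b : S.B) (ξ : S.G) (t : ℝ) (ht : 0 ≤ t) : 0 ≤ S.xw t b ξ := by
  unfold Sys.xw
  exact mul_nonneg (mul_nonneg ht (sq_nonneg _)) (gs_nonneg S hW b ξ)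

theorem gs_zero (b : S.B) (ξ : S.G) (h : ¬ S.act b ξ) : S.gs b ξ = 0 := by
  unfold Sys.gs
  rw [sum_eq_zero, zero_div]
  intro l hl
  have h0 : ξ l = 0 := by
    by_contra h1
    exact h ⟨l, (mem_filter.mp hl).2, h1⟩
  simp [h0, ang]

theorem xw_le (hT : TrigStmt) (hW : S.WF) (b : S.B) (ξ : S.G) (t : ℝ) (ht : 0 ≤ t) :
    S.xw t b ξ ≤ 40 * (t * ((∑ l ∈ S.Lb b, dt (ξ l) ^ 2) / S.ν (S.own b)) *
      Real.exp (-(t * ((∑ l ∈ S.Lb b, dt (ξ l) ^ 2) / S.ν (S.own b)))) ^ 2) := by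
  have hν := hW.one_le_ν (S.own b)
  have hpi : 4 * Real.pi ^ 2 ≤ 40 := by nlinarith [Real.pi_lt_d2, Real.pi_pos]
  have h1 : S.gs b ξ ≤ 40 * ((∑ l ∈ S.Lb b, dt (ξ l) ^ 2) / S.ν (S.own b)) := by
    unfold Sys.gs
    rw [← mul_div_assoc, mul_sum]
    refine div_le_div_of_nonneg_right (sum_le_sum fun l _ => ?_) (by linarith)
    exact ((hT S.q).2.2.2.2.1 (ξ l)).trans (mul_le_mul_of_nonneg_right hpi (sq_nonneg _))
  have h2 : S.rs (t / S.ν (S.own b)) b ξ =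
      Real.exp (-(t * ((∑ l ∈ S.Lb b, dt (ξ l) ^ 2) / S.ν (S.own b)))) := by
    unfold Sys.rs
    congr 2
    ring
  unfold Sys.xw
  rw [h2]
  refine (mul_le_mul_of_nonneg_left h1 (mul_nonneg ht (sq_nonneg _))).trans (le_of_eq ?_)
  ring

theorem sum_xw (hT : TrigStmt) (hW : S.WF) (b : S.B) (ξ : S.G) (T : ℝ) (k : ℕ) (hT0 : 0 < T) :
    ∑ j ∈ range k, S.xw (T / 4 ^ j) b ξ ≤ 60 * ind (S.act b ξ) := by
  have hν := hW.one_le_ν (S.own b)
  by_cases h : S.act b ξ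
  · rw [ind_pos h]
    set K0 := (∑ l ∈ S.Lb b, dt (ξ l) ^ 2) / S.ν (S.own b) with hK0
    have hK : 0 ≤ K0 := div_nonneg (sum_nonneg fun _ _ => sq_nonneg _) (by linarith)
    have h1 := sum_tele (T * K0) (by positivity) k
    have h2 : ∑ j ∈ range k, S.xw (T / 4 ^ j) b ξ ≤
        ∑ j ∈ range k, 40 * (T * K0 / 4 ^ j * Real.exp (-(T * K0 / 4 ^ j)) ^ 2) := by
      refine sum_le_sum fun j _ => ?_
      have h3 := xw_le S hT hW b ξ (T / 4 ^ j) (by positivity)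
      have h4 : T / 4 ^ j * K0 = T * K0 / 4 ^ j := by ring
      rw [← hK0, h4] at h3
      exact h3
    rw [← mul_sum] at h2
    linarith
  · rw [ind_neg h, mul_zero]
    refine le_of_eq (sum_eq_zero fun j _ => ?_)
    unfold Sys.xw
    rw [gs_zero S b ξ h, mul_zero]

theorem half_le (hT : TrigStmt) (hW : S.WF) (b : S.B) (ξ : S.G) (t Ξ : ℝ) (ht : 0 ≤ t)
    (hΞ : 40 * Ξ ^ 2 ≤ 1 / 4 * (S.q : ℝ) ^ 2) (hl : S.low Ξ ξ)
    (h1 : t * S.sq b (S.cv0 ξ) ≤ S.ν (S.own b)) (h2 : S.ν (S.own b) ≤ 4 * (t * S.sq b (S.cv0 ξ))) :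
    1 / 2 ≤ S.xw t b ξ := by
  have hν := hW.one_le_ν (S.own b)
  have hν0 : 0 < S.ν (S.own b) := by linarith
  have hpi : 9 ≤ Real.pi ^ 2 := by nlinarith [Real.pi_gt_three]
  have h3 : ∑ l ∈ S.Lb b, dt (ξ l) ^ 2 ≤ S.sq b (S.cv0 ξ) :=
    sum_le_sum fun l _ => (hT S.q).2.2.1 (ξ l)
  have h4 : Real.exp (-1) ≤ S.rs (t / S.ν (S.own b)) b ξ := by
    unfold Sys.rs
    refine Real.exp_le_exp.mpr (neg_le_neg ?_)
    rw [div_mul_eq_mul_div, div_le_one hν0]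
    exact (mul_le_mul_of_nonneg_left h3 ht).trans h1
  have h5 : (1 / 3 : ℝ) ≤ Real.exp (-1) := by
    rw [Real.exp_neg, one_div]
    exact inv_anti₀ (Real.exp_pos _) (by linarith [Real.exp_one_lt_d9])
  have h6 : (1 / 3 : ℝ) ^ 2 ≤ S.rs (t / S.ν (S.own b)) b ξ ^ 2 :=
    pow_le_pow_left₀ (by norm_num) (h5.trans h4) 2
  have h7 : 36 * S.sq b (S.cv0 ξ) ≤
      5 / 4 * ∑ l ∈ S.Lb b, ((S.q : ℝ) * Real.sin (ang (ξ l))) ^ 2 := by
    unfold Sys.sq
    rw [mul_sum, mul_sum]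
    refine sum_le_sum fun l _ => ?_
    have h8 : cen (ξ l) ^ 2 ≤ Ξ ^ 2 := by
      rw [← sq_abs]
      exact pow_le_pow_left₀ (abs_nonneg _) (hl l) 2
    have h9 := (hT S.q).2.2.2.2.2.2.1 (ξ l) (1 / 4) (by norm_num) (by linarith)
    have h10 : 36 * cen (ξ l) ^ 2 ≤ 4 * Real.pi ^ 2 * cen (ξ l) ^ 2 :=
      mul_le_mul_of_nonneg_right (by linarith) (sq_nonneg _)
    show 36 * cen (ξ l) ^ 2 ≤ _
    linarith
  have h8 : 7 ≤ t * S.gs b ξ := by
    unfold Sys.gs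
    rw [← mul_div_assoc, le_div_iff₀ hν0]
    have := mul_le_mul_of_nonneg_left h7 ht
    nlinarith
  have h9 : S.xw t b ξ = S.rs (t / S.ν (S.own b)) b ξ ^ 2 * (t * S.gs b ξ) := by
    unfold Sys.xw
    ring
  rw [h9]
  have := mul_le_mul h6 h8 (by norm_num) (sq_nonneg _)
  linarith

theorem ex_shell (hT : TrigStmt) (hW : S.WF) (b : S.B) (ξ : S.G) (δ T p Ξ : ℝ) (Sh : ℕ)
    (hδ : δ ≤ 1 / 4) (hN : S.Num δ T p Ξ Sh) (hl : S.low Ξ ξ)
    (hd : S.ν (S.own b) ≤ T * S.sq b (S.cv0 ξ)) :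
    ∃ j ≤ Sh, T / 4 ^ j * S.sq b (S.cv0 ξ) ≤ S.ν (S.own b) ∧ 1 / 2 ≤ S.xw (T / 4 ^ j) b ξ := by
  have hν := hW.one_le_ν (S.own b)
  have hT1 := hN.one_le_T
  have h1 : S.sq b (S.cv0 ξ) ≤ S.M * Ξ ^ 2 := by
    unfold Sys.sq Sys.M
    calc ∑ l ∈ S.Lb b, S.cv0 ξ l ^ 2 ≤ ∑ l, S.cv0 ξ l ^ 2 :=
          sum_le_sum_of_subset_of_nonneg (subset_univ _) fun _ _ _ => sq_nonneg _
      _ ≤ ∑ _l : S.Λ, Ξ ^ 2 := by
          refine sum_le_sum fun l _ => ?_
          rw [← sq_abs]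
          exact pow_le_pow_left₀ (abs_nonneg _) (hl l) 2
      _ = _ := by rw [sum_const, card_univ, nsmul_eq_mul]
  have h2 : T / 4 ^ Sh * S.sq b (S.cv0 ξ) ≤ S.ν (S.own b) := by
    refine le_trans ?_ hν
    rw [div_mul_eq_mul_div, div_le_one (by positivity)]
    have := mul_le_mul_of_nonneg_left h1 (by linarith : 0 ≤ T)
    linarith [hN.last]
  have hex : ∃ j : ℕ, T / 4 ^ j * S.sq b (S.cv0 ξ) ≤ S.ν (S.own b) := ⟨Sh, h2⟩
  classical
  refine ⟨Nat.find hex, Nat.find_min' hex h2, Nat.find_spec hex, ?_⟩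
  refine half_le S hT hW b ξ _ Ξ (by positivity) ?_ hl (Nat.find_spec hex) ?_
  · exact hN.sinc.trans (mul_le_mul_of_nonneg_right hδ (sq_nonneg _))
  · rcases Nat.eq_zero_or_pos (Nat.find hex) with h | h
    · rw [h, pow_zero, div_one]
      linarith
    · obtain ⟨m, hm⟩ : ∃ m, Nat.find hex = m + 1 := ⟨Nat.find hex - 1, by omega⟩
      have h3 := Nat.find_min hex (m := m) (by omega)
      rw [hm, pow_succ]
      have h4 : 4 * (T / (4 ^ m * 4) * S.sq b (S.cv0 ξ)) = T / 4 ^ m * S.sq b (S.cv0 ξ) := by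
        field_simp
      rw [h4]
      exact (not_le.mp h3).le

theorem mem_J {P : S.P} {b : S.B} (hb : b ∈ S.Bl P) (i : S.ι) : i ∈ S.J b ↔ S.pb P i = b := by
  have h : S.own b = P := (mem_filter.mp hb).2
  simp [Sys.J, h]

theorem pb_mem (hW : S.WF) (P : S.P) (i : S.ι) : S.pb P i ∈ S.Bl P := by
  simp [Sys.Bl, hW.own_pb]

theorem sum_fib (hW : S.WF) (P : S.P) (T : Finset S.ι) (g : S.B → ℝ) :
    ∑ i ∈ T, g (S.pb P i) = ∑ b ∈ S.Bl P, ((T ∩ S.J b).card : ℝ) * g b := by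
  rw [← sum_fiberwise_of_maps_to (s := T) (t := S.Bl P) (g := S.pb P)
    (fun i _ => pb_mem S hW P i)]
  refine sum_congr rfl fun b hb => ?_
  have h : T.filter (fun i => S.pb P i = b) = T ∩ S.J b := by
    ext i
    rw [mem_filter, mem_inter, mem_J S hb]
  rw [sum_congr rfl (g := fun _ => g b) (fun i hi => by rw [(mem_filter.mp hi).2]), h, sum_const,
    nsmul_eq_mul]

theorem sum_card (hW : S.WF) (P : S.P) (T : Finset S.ι) :
    ∑ b ∈ S.Bl P, ((T ∩ S.J b).card : ℝ) = T.card := by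
  have h := sum_fib S hW P T (fun _ => 1)
  simp only [mul_one, sum_const, nsmul_eq_mul] at h
  exact h.symm

theorem sum_ne (hW : S.WF) (P : S.P) (T : Finset S.ι) :
    ∑ b ∈ S.Bl P, ind (T ∩ S.J b).Nonempty = (T.image (S.pb P)).card := by
  have h : T.image (S.pb P) = (S.Bl P).filter fun b => (T ∩ S.J b).Nonempty := by
    ext b
    rw [mem_image, mem_filter]
    constructor
    · rintro ⟨i, hi, rfl⟩
      exact ⟨pb_mem S hW P i, i, mem_inter.mpr ⟨hi, (mem_J S (pb_mem S hW P i) i).mpr rfl⟩⟩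
    · rintro ⟨hb, i, hi⟩
      exact ⟨i, (mem_inter.mp hi).1, (mem_J S hb i).mp (mem_inter.mp hi).2⟩
  rw [h, card_filter, Nat.cast_sum]
  refine sum_congr rfl fun b _ => ?_
  by_cases h1 : (T ∩ S.J b).Nonempty
  · rw [ind_pos h1, if_pos h1, Nat.cast_one]
  · rw [ind_neg h1, if_neg h1, Nat.cast_zero]

theorem ne_le {α : Type} (A : Finset α) : ind A.Nonempty ≤ A.card := by
  by_cases h : A.Nonempty
  · rw [ind_pos h]
    exact_mod_cast h.card_pos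
  · rw [ind_neg h]
    positivity

theorem two_le {α : Type} (A : Finset α) : ind (2 ≤ A.card) ≤ A.card - ind A.Nonempty := by
  by_cases h : 2 ≤ A.card
  · rw [ind_pos h, ind_pos (card_pos.mp (by omega))]
    have : (2 : ℝ) ≤ A.card := by exact_mod_cast h
    linarith
  · rw [ind_neg h]
    linarith [ne_le A]

theorem act_le (hW : S.WF) (P : S.P) (T : Finset S.ι) (ξ : S.G) :
    ∑ i ∈ T, ind (S.act (S.pb P i) ξ) ≤
      ∑ b ∈ S.Bl P, ind (S.act b ξ) + (T.card - (T.image (S.pb P)).card) := by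
  rw [sum_fib S hW P T (fun b => ind (S.act b ξ)), ← sum_card S hW P T, ← sum_ne S hW P T,
    ← sum_sub_distrib, ← sum_add_distrib]
  refine sum_le_sum fun b _ => ?_
  by_cases h : S.act b ξ
  · rw [ind_pos h]
    by_cases h1 : (T ∩ S.J b).Nonempty
    · rw [ind_pos h1]; linarith
    · rw [ind_neg h1]; linarith
  · rw [ind_neg h]
    linarith [ne_le (T ∩ S.J b)]

theorem loss (R : Finset S.P) (s η : ℝ) (hE : S.EXP R s η) (T : Finset S.ι)
    (hT : (T.card : ℝ) ≤ s) :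
    ∑ P ∈ R, ((T.card : ℝ) - (T.image (S.pb P)).card) ≤ η * R.card * T.card := by
  rw [sum_sub_distrib, sum_const, nsmul_eq_mul]
  linarith [hE T hT]

theorem sub_le (hW : S.WF) (R : Finset S.P) (s η ε : ℝ) (ξ : S.G) (hR : R.Nonempty)
    (hE : S.EXP R s η) (hε : 0 < ε) (hη : η ≤ ε / 2) (T : Finset S.ι) (hT : T ⊆ S.Om R ε ξ)
    (hs : (T.card : ℝ) ≤ s) : (T.card : ℝ) ≤ 2 * S.cnt R ξ / ε := by
  have hR0 : (0 : ℝ) < R.card := by exact_mod_cast hR.card_pos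
  have h1 : ε * R.card * T.card ≤ ∑ i ∈ T, ∑ P ∈ R, ind (S.act (S.pb P i) ξ) := by
    rw [mul_comm, ← nsmul_eq_mul, ← sum_const]
    refine sum_le_sum fun i hi => ?_
    have h2 : ε ≤ S.om R i ξ := by
      have := hT hi
      unfold Sys.Om at this
      exact (mem_filter.mp this).2
    unfold Sys.om at h2
    rwa [le_div_iff₀ hR0] at h2
  rw [sum_comm] at h1
  have h2 := sum_le_sum (s := R) fun P _ => act_le S hW P T ξ
  rw [sum_add_distrib] at h2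
  have h3 := loss S R s η hE T hs
  have h4 : ∑ P ∈ R, ∑ b ∈ S.Bl P, ind (S.act b ξ) = S.cnt R ξ * R.card := by
    unfold Sys.cnt
    field_simp
  have h5 : η * R.card * T.card ≤ ε / 2 * R.card * T.card :=
    mul_le_mul_of_nonneg_right (mul_le_mul_of_nonneg_right hη hR0.le) (by positivity)
  rw [le_div_iff₀ hε]
  refine le_of_mul_le_mul_right ?_ hR0
  nlinarith

theorem om_le (hW : S.WF) (R : Finset S.P) (s η ε : ℝ) (ξ : S.G) (hR : R.Nonempty)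
    (hE : S.EXP R s η) (hε : 0 < ε) (hη : η ≤ ε / 2) (hs : 2 * S.cnt R ξ / ε + 1 ≤ s) :
    ((S.Om R ε ξ).card : ℝ) ≤ 2 * S.cnt R ξ / ε := by
  have h0 : 0 ≤ 2 * S.cnt R ξ / ε := by
    have hc : 0 ≤ S.cnt R ξ :=
      div_nonneg (sum_nonneg fun _ _ => sum_nonneg fun _ _ => ind_nonneg _) (by positivity)
    positivity
  by_contra h
  have h1 : ⌊2 * S.cnt R ξ / ε⌋₊ + 1 ≤ (S.Om R ε ξ).card :=
    (Nat.floor_lt h0).mpr (not_le.mp h)
  obtain ⟨T, hT, hc⟩ := exists_subset_card_eq h1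
  have h2 : (T.card : ℝ) = ⌊2 * S.cnt R ξ / ε⌋₊ + 1 := by rw [hc]; push_cast; ring
  have h3 := sub_le S hW R s η ε ξ hR hE hε hη T hT (by linarith [Nat.floor_le h0])
  linarith [Nat.lt_floor_add_one (2 * S.cnt R ξ / ε)]

end Shell

theorem shell_proof (hT : TrigStmt) : ShellStmt :=
  ⟨60, by norm_num, fun S b ξ hW => ⟨fun t ht => Shell.xw_nonneg S hW b ξ t ht,
    fun T k hT0 => Shell.sum_xw S hT hW b ξ T k hT0,
    fun δ T p Ξ Sh hδ hN hl hd => Shell.ex_shell S hT hW b ξ δ T p Ξ Sh hδ hN hl hd⟩⟩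

theorem exp_proof' : ExpStmt := by
  intro S R s η ε ξ hW hR hE hε _ hη hs
  have h1 := Shell.om_le S hW R s η ε ξ hR hE hε hη hs
  refine ⟨h1, ?_, fun P => ?_⟩
  · refine le_trans (sum_le_sum fun P _ => ?_) (Shell.loss S R s η hE (S.Om R ε ξ) (by linarith))
    rw [← Shell.sum_card S hW P, ← Shell.sum_ne S hW P, ← sum_sub_distrib]
    exact sum_le_sum fun b _ => Shell.two_le _
  · rw [← Shell.sum_card S hW P]
    exact sum_le_sum fun b _ => Shell.ne_le _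

theorem exp_proof (_hB : BasicStmt) : ExpStmt := exp_proof'

end Vale.Agent.P318.D
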