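import Vale.Agent.P318.D.SysStmt
import Vale.Agent.P318.RSparse
import Mathlib.Analysis.SpecialFunctions.Trigonometric.Bounds
import Mathlib.Analysis.Real.Pi.Bounds

/-!
Track D: the increments are spread over many columns.
-/

namespace Vale.Agent.P318.D

open Finset
open scoped BigOperators
open Vale.Agent.P318.R

namespace SpreadEx

variable {q : ℕ}

lemma abs_cen (x : ZMod q) : |cen x| = (x.valMinAbs.natAbs : ℝ) := by
  rw [cen, Nat.cast_natAbs, Int.cast_abs]

lemma cen_add (x y : ZMod q) : |cen (x + y)| ≤ |cen x| + |cen y| := by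
  rw [abs_cen, abs_cen, abs_cen]
  exact_mod_cast (ZMod.natAbs_valMinAbs_add_le x y).trans (Int.natAbs_add_le _ _)

lemma cen_sum {Λ : Type} (s : Finset Λ) (f : Λ → ZMod q) :
    |cen (∑ l ∈ s, f l)| ≤ ∑ l ∈ s, |cen (f l)| := by
  classical
  induction s using Finset.induction_on with
  | empty => simp [cen]
  | insert a s ha ih =>
    rw [sum_insert ha, sum_insert ha]
    exact (cen_add _ _).trans (by linarith)

lemma cen_mul {a : ℤ} (h : a = 0 ∨ a = 1 ∨ a = -1) (x : ZMod q) :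
    |cen ((a : ZMod q) * x)| ≤ |cen x| := by
  rcases h with rfl | rfl | rfl
  · simp [cen]
  · simp
  · rw [abs_cen, abs_cen]
    simp [ZMod.natAbs_valMinAbs_neg]

lemma one_sub_cos [NeZero q] (x : ZMod q) : 1 - Real.cos (ang x) ≤ 20 * (cen x / q) ^ 2 := by
  have hq : (0 : ℝ) < q := Nat.cast_pos.2 (NeZero.pos q)
  have e : Real.cos (ang x) = Real.cos (2 * Real.pi * (cen x / q)) := by
    rw [ang, cen, ZMod.valMinAbs_def_pos]
    split_ifs
    · rw [mul_div_assoc, Int.cast_natCast]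
    · rw [← Real.cos_sub_two_pi]
      congr 1
      push_cast
      field_simp
  have h1 := Real.one_sub_sq_div_two_le_cos (x := 2 * Real.pi * (cen x / q))
  have h2 : Real.pi ^ 2 ≤ 10 := by nlinarith [Real.pi_lt_d2, Real.pi_pos]
  rw [e]
  nlinarith [sq_nonneg (cen x / q)]

lemma exp_neg_le {z : ℝ} (h0 : 0 ≤ z) (h1 : z ≤ 1) : Real.exp (-z) ≤ 1 - 63 / 100 * z := by
  have := convexOn_exp.2 (Set.mem_univ 0) (Set.mem_univ (-1)) (sub_nonneg.2 h1) h0
    (sub_add_cancel 1 z)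
  simp only [smul_eq_mul, mul_zero, zero_add, mul_neg, mul_one, Real.exp_zero] at this
  nlinarith [Real.exp_neg_one_lt_d9]

/-- Lower tail for independent terms in `[0, 1]`. -/
lemma low_tail {ι Ω : Type} [Fintype ι] [DecidableEq ι] [Fintype Ω] [Nonempty Ω] (s : Finset ι)
    (Z : ι → Ω → ℝ) {μ : ℝ} (h0 : ∀ i ω, 0 ≤ Z i ω) (h1 : ∀ i ω, Z i ω ≤ 1)
    (h : ∀ i ∈ s, μ ≤ 𝔼 ω, Z i ω) :
    pr (fun x : ι → Ω => ∑ i ∈ s, Z i (x i) ≤ μ * s.card / 2) ≤
      Real.exp (-(13 / 100 * μ * s.card)) := by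
  have a := pr_ge_le_exp (fun x : ι → Ω => ∑ i ∈ s, -Z i (x i)) (-(μ * s.card / 2)) 1 zero_le_one
  have b := expect_exp_sum_le (Ω := fun _ : ι => Ω) s (fun i u => -Z i u)
    (fun _ => Real.exp (-(63 / 100 * μ))) fun i hi => by
      refine (expect_le_expect fun u _ => exp_neg_le (h0 i u) (h1 i u)).trans ?_
      rw [expect_sub_distrib, Fintype.expect_const, ← mul_expect]
      linarith [Real.add_one_le_exp (-(63 / 100 * μ)), h i hi]
  simp only [one_mul] at a
  refine (pr_mono fun x hx => ?_).trans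
    (a.trans ((mul_le_mul_of_nonneg_left b (Real.exp_pos _).le).trans (le_of_eq ?_)))
  · rw [sum_neg_distrib]; linarith
  · rw [prod_const, ← Real.exp_nat_mul, ← Real.exp_add]
    congr 1
    ring

/-- One frequency. -/
lemma one {ι Ω : Type} [Fintype ι] [DecidableEq ι] [Fintype Ω] [Nonempty Ω] (s : Finset ι)
    (e : ι → Ω → ℝ) {M θ n0 Ne : ℝ} (hM : 0 < M) (hθ : 0 ≤ θ) (h1 : ∀ i ω, |e i ω| ≤ M * θ)
    (h2 : ∀ i ∈ s, 3 * θ ^ 2 ≤ 𝔼 ω, 20 * e i ω ^ 2) (hs : n0 ≤ s.card)
    (hN : 14 * Ne * M ^ 2 ≤ n0) :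
    pr (fun x : ι → Ω => ¬∀ i, Ne * |e i (x i)| ≤ ∑ j, |e j (x j)|) ≤
      Real.exp (-(n0 / (60 * M ^ 2))) := by
  rcases le_or_gt Ne 0 with hNe | hNe
  · exact pr_false_le (Real.exp_pos _).le fun x hx => hx fun i =>
      (mul_nonpos_of_nonpos_of_nonneg hNe (abs_nonneg _)).trans (sum_nonneg fun _ _ => abs_nonneg _)
  rcases hθ.eq_or_lt with rfl | hθ
  · refine pr_false_le (Real.exp_pos _).le fun x hx => hx fun i => ?_
    rw [show |e i (x i)| = 0 from le_antisymm (by simpa using h1 i (x i)) (abs_nonneg _), mul_zero]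
    exact sum_nonneg fun _ _ => abs_nonneg _
  have hp : 0 < M * θ := mul_pos hM hθ
  have hn : 0 ≤ n0 := le_trans (by positivity) hN
  have a := low_tail s (fun i ω => |e i ω| / (M * θ)) (μ := 3 / (20 * M ^ 2))
    (fun _ _ => by positivity) (fun i ω => (div_le_one hp).2 (h1 i ω)) fun i hi => by
      have b : 𝔼 ω, 20 * e i ω ^ 2 ≤ 𝔼 ω, 20 * (M * θ) ^ 2 * (|e i ω| / (M * θ)) :=
        expect_le_expect fun ω _ => by
          have c : 20 * (M * θ) ^ 2 * (|e i ω| / (M * θ)) = 20 * (|e i ω| * (M * θ)) := by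
            field_simp
          rw [c, ← sq_abs, sq]
          have := mul_le_mul_of_nonneg_left (h1 i ω) (abs_nonneg (e i ω))
          linarith
      rw [← mul_expect (a := 20 * (M * θ) ^ 2)] at b
      rw [div_le_iff₀ (by positivity)]
      refine le_of_mul_le_mul_right ?_ (pow_pos hθ 2)
      nlinarith [h2 i hi]
  refine le_trans (pr_mono fun x hx => ?_) (a.trans (Real.exp_le_exp.2 ?_))
  · refine le_of_not_gt fun c => hx fun i => ?_
    rw [← sum_div, lt_div_iff₀ hp] at c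
    have d : ∑ j ∈ s, |e j (x j)| ≤ ∑ j, |e j (x j)| :=
      sum_le_sum_of_subset_of_nonneg (subset_univ _) fun _ _ _ => abs_nonneg _
    have f : Ne ≤ 3 / (20 * M ^ 2) * s.card / 2 := by
      rw [div_mul_eq_mul_div, div_div, le_div_iff₀ (by positivity)]
      nlinarith
    have g := mul_le_mul f (h1 i (x i)) (abs_nonneg _) (hNe.le.trans f)
    linarith
  · rw [neg_le_neg_iff, div_le_iff₀ (by positivity)]
    have : 13 / 100 * (3 / (20 * M ^ 2)) * s.card * (60 * M ^ 2) = 117 / 100 * (s.card : ℝ) := by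
      field_simp
      ring
    rw [this]
    linarith

end SpreadEx

open SpreadEx in
theorem spreadEx_proof : SpreadExStmt := by
  intro q _ ι A _ _ _ _ m Md π Ω _ _ ρ D n0 Ne hent hlaw hn hN h60
  have hq : (0 : ℝ) < q := Nat.cast_pos.2 (NeZero.pos q)
  show pr (fun x : ι → Ω => ¬∀ (γ : Co m Md → ZMod q) (i : ι),
    Ne * |cen (cdot π i (ρ i (x i)) γ) / q| ≤ ∑ j, |cen (cdot π j (ρ j (x j)) γ) / q|) ≤ 1 / 4
  rcases isEmpty_or_nonempty (Co m Md) with h0 | h0
  · exact pr_false_le (by norm_num) fun x hx => hx fun γ i => by simp [cdot, cen]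
  have hM : (0 : ℝ) < Fintype.card (Co m Md) := Nat.cast_pos.2 Fintype.card_pos
  have key : ∀ γ : Co m Md → ZMod q, pr (fun x : ι → Ω => ¬∀ i,
      Ne * |cen (cdot π i (ρ i (x i)) γ) / q| ≤ ∑ j, |cen (cdot π j (ρ j (x j)) γ) / q|) ≤
      Real.exp (-(n0 / (60 * (Fintype.card (Co m Md) : ℝ) ^ 2))) := fun γ => by
    obtain ⟨γ', a, b⟩ := hlaw γ
    obtain ⟨l, -, hl⟩ := exists_max_image univ (fun l => |cen (γ' l)|) univ_nonempty
    simp only [a]
    refine one (univ.filter fun i => π l.1.1 i = l.1.2)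
      (fun i ω => cen (cdot π i (ρ i ω) γ') / q) (θ := |cen (γ' l)| / q) hM (by positivity)
      (fun i ω => ?_) (fun i hi => ?_) (hn _ _) hN
    · rw [abs_div, abs_of_pos hq, ← mul_div_assoc]
      refine div_le_div_of_nonneg_right ((cen_sum _ _).trans ?_) hq.le
      refine (sum_le_card_nsmul _ _ _ fun k _ => (cen_mul ?_ _).trans (hl k (mem_univ _))).trans
        (by rw [card_univ, nsmul_eq_mul])
      unfold col
      split_ifs
      exacts [hent _ _ _ _, .inl rfl]
    · rw [div_pow, sq_abs, ← div_pow]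
      exact (b l i (mem_filter.1 hi).2).trans (expect_le_expect fun ω _ => one_sub_cos _)
  refine (pr_mono fun x hx => ?_).trans
    ((pr_exists_mem_le_card_mul univ _ fun γ _ => key γ).trans ?_)
  · obtain ⟨γ, hγ⟩ := not_forall.1 hx
    exact ⟨γ, mem_univ _, hγ⟩
  · have e : ((univ : Finset (Co m Md → ZMod q)).card : ℝ) =
        Real.exp (Fintype.card (Co m Md) * Real.log q) := by
      rw [Real.exp_nat_mul, Real.exp_log hq, card_univ, Fintype.card_fun, ZMod.card, Nat.cast_pow]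
    rw [e, ← Real.exp_add]
    have a : Fintype.card (Co m Md) * Real.log q + 2 ≤
        n0 / (60 * (Fintype.card (Co m Md) : ℝ) ^ 2) := by
      rw [le_div_iff₀ (by positivity)]
      linarith
    refine (Real.exp_le_exp.2 (show _ ≤ -1 + -1 by linarith)).trans ?_
    rw [Real.exp_add]
    nlinarith [Real.exp_neg_one_lt_d9, Real.exp_pos (-1)]

end Vale.Agent.P318.D
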