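import Vale.Agent.P318.D.Stmt

/-!
Track D: the energies of the test objects in terms of the spectral weights.
-/

namespace Vale.Agent.P318.D

open Finset
open scoped BigOperators
open Vale.Agent.P318.R (ang)

namespace SymP

variable {S : Sys}

theorem W_eq {Y f : S.G → ℝ} {ξ : S.G} {r : ℝ}
    (h : S.hat Y ξ = Complex.I * (r : ℂ) * S.hat f ξ) : S.W Y ξ = r ^ 2 * S.W f ξ := by
  rw [Sys.W, h, norm_mul, norm_mul, Complex.norm_I, one_mul, Complex.norm_real, mul_pow,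
    Real.norm_eq_abs, sq_abs, Sys.W]

variable (hB : Basic S) (hH : Heat S) (hN : Noise S) (F : Fn S) (τ : S.B → ℝ) (t p : ℝ)

include hB hH hN

theorem hat_g (b : S.B) (ξ : S.G) : S.hat (F.g τ t b) ξ =
    ((S.rs (t / S.ν (S.own b)) b ξ * S.mu τ ξ : ℝ) : ℂ) * S.hat F.f ξ := by
  rw [Fn.g, hB.hat_cv, hB.hat_cv, hH.sy, hN.sy_nz]
  push_cast
  ring

theorem hat_V (l : S.Λ) (ξ : S.G) : S.hat (F.V τ t l) ξ =
    Complex.I * (((S.q : ℝ) * Real.sin (ang (ξ l)) / √(S.ν (S.own (S.blk l))) *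
      (S.rs (t / S.ν (S.own (S.blk l))) (S.blk l) ξ * S.mu τ ξ) : ℝ) : ℂ) * S.hat F.f ξ := by
  have e : F.V τ t l = fun β => (√(S.ν (S.own (S.blk l))))⁻¹ * S.Dl l (F.g τ t (S.blk l)) β :=
    funext fun β => by rw [Fn.V, div_eq_inv_mul]
  rw [e, hB.hat_mul, hB.hat_Dl, hat_g hB hH hN]
  push_cast
  ring

theorem hat_U (hW : S.WF) (P : S.P) (i : S.ι) (ξ : S.G) : S.hat (F.U τ t P i) ξ =
    Complex.I * ((S.dotb i (S.pb P i) (fun l => (S.q : ℝ) * Real.sin (ang (ξ l))) / S.ν P *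
      (S.rs (t / S.ν P) (S.pb P i) ξ * S.mu τ ξ) : ℝ) : ℂ) * S.hat F.f ξ := by
  have e : F.U τ t P i = fun β => (√(S.ν P))⁻¹ *
      ∑ l ∈ S.Lb (S.pb P i), (S.n i l : ℝ) * F.V τ t l β :=
    funext fun β => by rw [Fn.U, div_eq_inv_mul, Sys.dotb]
  have h0 : 0 ≤ S.ν P := zero_le_one.trans (hW.one_le_ν P)
  have h1 : (S.ν P)⁻¹ = (√(S.ν P))⁻¹ * (√(S.ν P))⁻¹ := by rw [← mul_inv, Real.mul_self_sqrt h0]
  rw [e, hB.hat_mul, hB.hat_sum, Sys.dotb, div_eq_mul_inv, h1, sum_mul, sum_mul,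
    Complex.ofReal_sum, mul_sum, mul_sum, sum_mul]
  refine sum_congr rfl fun l hl => ?_
  rw [hB.hat_mul, hat_V hB hH hN, (mem_filter.1 hl).2, hW.own_pb]
  push_cast
  ring

theorem hat_UH (hT : TentStmt) (hW : S.WF) (P : S.P) (i : S.ι) (ξ : S.G) :
    S.hat (F.UH τ t p P i) ξ = Complex.I * ((S.hs t p i (S.pb P i) ξ *
      (S.rs (t / S.ν P) (S.pb P i) ξ * S.mu τ ξ) : ℝ) : ℂ) * S.hat F.f ξ := by
  have hq : Odd S.q := S.hq.out.odd_of_ne_two (by have := hW.big; omega)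
  have h0 : 0 < S.ν P := one_pos.trans_le (hW.one_le_ν P)
  have h1 := (hT.2 S.q hq (2 * Real.pi / S.ν P) (lam t p (S.D P)) (by positivity)
    (Real.sqrt_nonneg _)).1 (S.dot (S.nv i (S.pb P i)) ξ)
  have e : F.UH τ t p P i = fun β => F.U τ t P i β - F.UL τ t p P i β := rfl
  rw [e, hB.hat_sub, hat_U hB hH hN F τ t hW, Fn.UL, hB.hat_ln, h1, hat_g hB hH hN, Sys.hs,
    hW.own_pb]
  push_cast
  ring

theorem hat_X (hT : TentStmt) (hW : S.WF) (P : S.P) {R : Finset S.P} (hR : R.Nonempty) (i : S.ι)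
    (ξ : S.G) : S.hat (F.X τ t p P R i) ξ = Complex.I * ((S.om R i ξ * (S.hs t p i (S.pb P i) ξ *
      (S.rs (t / S.ν P) (S.pb P i) ξ * S.mu τ ξ)) : ℝ) : ℂ) * S.hat F.f ξ := by
  have e : F.X τ t p P R i =
      fun β => F.UH τ t p P i β - S.cv (S.zk R i) (F.UH τ t p P i) β := rfl
  rw [e, hB.hat_sub, hB.hat_cv, hN.sy_zk R i ξ hR, hat_UH hB hH hN F τ t p hT hW]
  push_cast
  ring

omit hH hN in
theorem nsq_eq (hW : S.WF) (P : S.P) (Y : S.ι → S.G → ℝ) (c : S.ι → S.G → ℝ)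
    (h : ∀ i ξ, S.hat (Y i) ξ = Complex.I * ((c i ξ * (S.hs t p i (S.pb P i) ξ *
      (S.rs (t / S.ν P) (S.pb P i) ξ * S.mu τ ξ)) : ℝ) : ℂ) * S.hat F.f ξ) :
    t * nsq Y = ∑ ξ, F.Wm τ ξ * ∑ b ∈ S.Bl P, ∑ i ∈ S.J b, c i ξ ^ 2 * S.hw t p i b ξ := by
  simp only [nsq, hB.parseval]
  rw [sum_comm, mul_sum]
  refine sum_congr rfl fun ξ _ => ?_
  rw [← hB.sum_J hW P, mul_sum, mul_sum]
  refine sum_congr rfl fun b hb => ?_
  rw [mul_sum, mul_sum]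
  refine sum_congr rfl fun i hi => ?_
  rw [W_eq (h i ξ), (hB.mem_J hW P i b hb).1 hi, Fn.Wm, Sys.hw, (mem_filter.1 hb).2]
  ring

theorem Bt_eq (hW : S.WF) (P : S.P) :
    t * F.Bt τ t P = ∑ ξ, F.Wm τ ξ * ∑ b ∈ S.Bl P, S.xw t b ξ := by
  simp only [Fn.Bt, hB.parseval]
  rw [sum_comm, mul_sum]
  refine sum_congr rfl fun ξ _ => ?_
  rw [← hB.sum_Lb P, mul_sum, mul_sum]
  refine sum_congr rfl fun b _ => ?_
  rw [Sys.xw, Sys.gs, sum_div, mul_sum, mul_sum, mul_sum]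
  refine sum_congr rfl fun l hl => ?_
  rw [W_eq (hat_V hB hH hN F τ t l ξ), (mem_filter.1 hl).2, Fn.Wm, mul_pow, div_pow,
    Real.sq_sqrt (zero_le_one.trans (hW.one_le_ν _))]
  ring

end SymP

open SymP in
theorem sym_proof (hB : BasicStmt) (hH : HeatStmt) (hN : NoiseStmt) (hT : TentStmt) : SymStmt := by
  intro S F τ t p P hW _ _
  refine ⟨Bt_eq (hB S) (hH S) (hN S) F τ t hW P, fun R hR => ⟨nsq_eq (hB S) F τ t p hW P _ _
    (hat_X (hB S) (hH S) (hN S) F τ t p hT hW P hR), fun a ha => ?_⟩⟩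
  refine nsq_eq (hB S) F τ t p hW P _ (fun i ξ => (1 - S.pis a t P i ξ) * S.om R i ξ) fun i ξ => ?_
  have e : F.X1 a τ t p P R i =
      fun β => F.X τ t p P R i β - S.cv (S.pkt a t P i) (F.X τ t p P R i) β := rfl
  rw [e, (hB S).hat_sub, (hB S).hat_cv, ha, hat_X (hB S) (hH S) (hN S) F τ t p hT hW P hR]
  push_cast
  ring

end Vale.Agent.P318.D
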