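import Vale.Agent.P318.D.Stmt
import Mathlib.Analysis.SpecialFunctions.Trigonometric.Bounds
import Mathlib.Analysis.Real.Pi.Bounds

/-!
Track D: elementary trigonometric facts on `ZMod q`, the tent multiplier.
-/

namespace Vale.Agent.P318.D

open Finset
open scoped BigOperators
open Vale.Agent.P318.R (ang)

namespace TentP

section trig

variable {q : ℕ} [NeZero q]

theorem q_pos : (0 : ℝ) < q := Nat.cast_pos.2 (NeZero.pos q)

theorem exists_val (z : ℤ) : ∃ k : ℤ, (((z : ZMod q).val : ℕ) : ℝ) = z + k * q := by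
  refine ⟨-(z / q), ?_⟩
  have h1 : (((z : ZMod q).val : ℕ) : ℤ) = z + -(z / q) * q := by
    rw [ZMod.val_intCast, Int.emod_def]; ring
  exact_mod_cast h1

theorem dt_int (z : ℤ) :
    dt (z : ZMod q) ^ 2 = (q / Real.pi) ^ 2 * Real.sin (Real.pi * z / q) ^ 2 := by
  obtain ⟨k, hk⟩ := exists_val (q := q) z
  have e : Real.pi * (z + k * q) / q = Real.pi * z / q + k * Real.pi := by
    have := q_pos (q := q)
    field_simp
  have e2 : ((-1 : ℝ) ^ k) ^ 2 = 1 := by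
    rw [sq, ← mul_zpow]; norm_num
  rw [dt, hk, e, Real.sin_add_int_mul_pi, mul_pow, mul_pow, e2, one_mul]

theorem sin_ang_int (z : ℤ) : Real.sin (ang (z : ZMod q)) = Real.sin (2 * Real.pi * z / q) := by
  obtain ⟨k, hk⟩ := exists_val (q := q) z
  have e : 2 * Real.pi * (z + k * q) / q = 2 * Real.pi * z / q + k * (2 * Real.pi) := by
    have := q_pos (q := q)
    field_simp
  rw [ang, hk, e, Real.sin_add_int_mul_two_pi]

theorem dt_cen (x : ZMod q) :
    dt x ^ 2 = (q / Real.pi) ^ 2 * Real.sin (Real.pi * cen x / q) ^ 2 := by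
  rw [cen, ← dt_int, ZMod.coe_valMinAbs]

theorem sin_ang_cen (x : ZMod q) : Real.sin (ang x) = Real.sin (2 * Real.pi * cen x / q) := by
  rw [cen, ← sin_ang_int, ZMod.coe_valMinAbs]

theorem abs_cen_le (x : ZMod q) : 2 * |cen x| ≤ q := by
  obtain ⟨h1, h2⟩ := x.valMinAbs_mem_Ioc
  have h3 : -(q : ℝ) < cen x * 2 := by rw [cen]; exact_mod_cast h1
  have h4 : cen x * 2 ≤ q := by rw [cen]; exact_mod_cast h2
  rcases abs_cases (cen x) with h | h <;> linarith [h.1]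

theorem dt_low (x : ZMod q) : 4 * cen x ^ 2 ≤ Real.pi ^ 2 * dt x ^ 2 := by
  have hq := q_pos (q := q)
  have hp := Real.pi_pos
  have e : |Real.pi * cen x / q| = Real.pi * |cen x| / q := by
    rw [abs_div, abs_mul, abs_of_pos hp, abs_of_pos hq]
  have h1 : |Real.pi * cen x / q| ≤ Real.pi / 2 := by
    rw [e, div_le_div_iff₀ hq two_pos]
    nlinarith [abs_cen_le x]
  have h2 := Real.mul_abs_le_abs_sin h1
  have e2 : 2 / Real.pi * |Real.pi * cen x / q| = 2 * |cen x| / q := by rw [e]; field_simp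
  rw [e2, div_le_iff₀ hq] at h2
  have h3 := pow_le_pow_left₀ (by positivity) h2 2
  rw [mul_pow, mul_pow, sq_abs, sq_abs] at h3
  have e3 : Real.pi ^ 2 * dt x ^ 2 = Real.sin (Real.pi * cen x / q) ^ 2 * (q : ℝ) ^ 2 := by
    rw [dt_cen]; field_simp
  linarith

theorem dt_le (z : ℤ) : dt (z : ZMod q) ^ 2 ≤ (z : ℝ) ^ 2 := by
  have hq := q_pos (q := q)
  have hp := Real.pi_pos
  rw [dt_int]
  refine (mul_le_mul_of_nonneg_left Real.sin_sq_le_sq (sq_nonneg _)).trans_eq ?_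
  field_simp

theorem one_sub_cos (x : ZMod q) :
    1 - Real.cos (ang x) = 2 * Real.pi ^ 2 * dt x ^ 2 / (q : ℝ) ^ 2 := by
  have hq := q_pos (q := q)
  have hp := Real.pi_pos
  have e : ang x = 2 * (Real.pi * x.val / q) := by rw [ang]; ring
  rw [e, Real.cos_two_mul, dt, Real.cos_sq']
  field_simp
  ring

omit [NeZero q] in
theorem sin_sq_le (x : ZMod q) :
    ((q : ℝ) * Real.sin (ang x)) ^ 2 ≤ 4 * Real.pi ^ 2 * dt x ^ 2 := by
  have hp := Real.pi_pos
  have e : ang x = 2 * (Real.pi * x.val / q) := by rw [ang]; ring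
  have e2 : 4 * Real.pi ^ 2 * dt x ^ 2 = (2 * q * Real.sin (Real.pi * x.val / q)) ^ 2 := by
    rw [dt]; field_simp; ring
  rw [e, e2, Real.sin_two_mul]
  have := mul_le_mul_of_nonneg_left (Real.cos_sq_le_one (Real.pi * x.val / q))
    (sq_nonneg (2 * q * Real.sin (Real.pi * x.val / q)))
  linarith

theorem sin_err (x : ZMod q) : |(q : ℝ) * Real.sin (ang x) - 2 * Real.pi * cen x| ≤
    42 * |cen x| ^ 3 / (q : ℝ) ^ 2 := by
  have hq := q_pos (q := q)
  have hp := Real.pi_pos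
  have e : (q : ℝ) * Real.sin (ang x) - 2 * Real.pi * cen x =
      -(q * (2 * Real.pi * cen x / q - Real.sin (2 * Real.pi * cen x / q))) := by
    rw [sin_ang_cen]; field_simp; ring
  have e2 : |2 * Real.pi * cen x / q| = 2 * Real.pi * |cen x| / q := by
    rw [abs_div, abs_mul, abs_of_pos (by positivity : 0 < 2 * Real.pi), abs_of_pos hq]
  have h1 : (2 * Real.pi) ^ 3 ≤ 252 := by
    have := pow_le_pow_left₀ (by positivity : 0 ≤ 2 * Real.pi)
      (by linarith [Real.pi_lt_d2] : 2 * Real.pi ≤ 6.3) 3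
    linarith
  rw [e, abs_neg, abs_mul, abs_of_pos hq]
  refine (mul_le_mul_of_nonneg_left (Real.abs_sub_sin_le _) hq.le).trans ?_
  have e3 : (q : ℝ) * (|2 * Real.pi * cen x / q| ^ 3 / 6) =
      (2 * Real.pi) ^ 3 / 6 * |cen x| ^ 3 / (q : ℝ) ^ 2 := by rw [e2]; field_simp
  rw [e3]
  gcongr
  linarith

omit [NeZero q] in
theorem sq_le_sin {v δ : ℝ} (h1 : δ ≤ 1) (h : v ^ 2 ≤ δ) : v ^ 2 ≤ (1 + δ) * Real.sin v ^ 2 := by
  have h0 : 0 ≤ δ := (sq_nonneg v).trans h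
  have h2 := Real.abs_sub_sin_le v
  have h3 : |v| - |Real.sin v| ≤ |v - Real.sin v| := abs_sub_abs_le_abs_sub _ _
  have h4 : |v| ^ 3 ≤ δ * |v| := by
    rw [pow_succ, sq_abs]; exact mul_le_mul_of_nonneg_right h (abs_nonneg v)
  have h5 : (1 - δ / 6) * |v| ≤ |Real.sin v| := by linarith
  have h6 := pow_le_pow_left₀ (mul_nonneg (by linarith) (abs_nonneg v)) h5 2
  rw [mul_pow, sq_abs, sq_abs] at h6
  have h7 : 1 ≤ (1 + δ) * (1 - δ / 6) ^ 2 := by nlinarith [mul_nonneg h0 h0]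
  nlinarith [mul_le_mul_of_nonneg_left h6 (by linarith : 0 ≤ 1 + δ),
    mul_le_mul_of_nonneg_right h7 (sq_nonneg v)]

theorem sin_low (x : ZMod q) (δ : ℝ) (h1 : δ ≤ 1) (h : 40 * cen x ^ 2 ≤ δ * (q : ℝ) ^ 2) :
    4 * Real.pi ^ 2 * cen x ^ 2 ≤ (1 + δ) * ((q : ℝ) * Real.sin (ang x)) ^ 2 := by
  have hq := q_pos (q := q)
  have hp : Real.pi ^ 2 ≤ 10 := by nlinarith [Real.pi_lt_d2, Real.pi_pos]
  have e : (2 * Real.pi * cen x / q) ^ 2 = 4 * Real.pi ^ 2 * cen x ^ 2 / (q : ℝ) ^ 2 := by ring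
  have h2 : (2 * Real.pi * cen x / q) ^ 2 ≤ δ := by
    rw [e, div_le_iff₀ (by positivity)]
    nlinarith [sq_nonneg (cen x)]
  have h3 := sq_le_sin h1 h2
  rw [e, div_le_iff₀ (by positivity)] at h3
  rw [sin_ang_cen]
  linarith

theorem cen_int (z : ℤ) (h : 2 * |(z : ℝ)| < q) : cen (z : ZMod q) = z := by
  have h1 : 2 * |z| < q := by exact_mod_cast h
  have h2 := le_abs_self z
  have h3 := neg_abs_le z
  rw [cen, (ZMod.valMinAbs_spec _ z).2 ⟨rfl, by linarith, by linarith⟩]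

end trig

/-! ### The tent -/

theorem tent_neg (Λ v : ℝ) (h : 0 ≤ Λ) : tent Λ (-v) = -tent Λ v := by
  simp only [tent, cl, max_def, min_def]
  split_ifs <;> linarith

theorem tent_zero {Λ v : ℝ} (h : 0 ≤ Λ) (hv : 2 * Λ ≤ |v|) : tent Λ v = 0 := by
  rcases abs_cases v with h1 | h1 <;> simp only [tent, cl, max_def, min_def] <;>
    split_ifs <;> linarith [h1.1, h1.2]

theorem abs_tent_le {Λ : ℝ} (h : 0 ≤ Λ) (v : ℝ) : |tent Λ v| ≤ Λ := by
  rw [abs_le]
  simp only [tent, cl, max_def, min_def]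
  split_ifs <;> constructor <;> linarith

theorem tent_eq {Λ v : ℝ} (hv : |v| ≤ Λ) : tent Λ v = v := by
  obtain ⟨h1, h2⟩ := abs_le.1 hv
  simp only [tent, cl, max_def, min_def]
  split_ifs <;> linarith

theorem tent_step {Λ a : ℝ} (h : 0 ≤ Λ) (ha : 0 ≤ a) (v : ℝ) :
    |tent Λ (v + a) - tent Λ v| ≤ a := by
  rw [abs_le]
  simp only [tent, cl, max_def, min_def]
  split_ifs <;> constructor <;> linarith

theorem abs_sub_tent {Λ : ℝ} (h : 0 ≤ Λ) (v : ℝ) : |v - tent Λ v| ≤ |v| := by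
  rw [abs_le]
  rcases abs_cases v with h1 | h1 <;> simp only [tent, cl, max_def, min_def] <;>
    split_ifs <;> constructor <;> linarith [h1.1, h1.2]

/-! ### Fourier analysis on `ZMod q` -/

variable {q : ℕ} [NeZero q]

theorem orth (b : ZMod q) :
    ∑ z : ZMod q, (ZMod.stdAddChar (z * b) : ℂ) = if b = 0 then (q : ℂ) else 0 := by
  rw [AddChar.sum_mulShift b (ZMod.isPrimitive_stdAddChar q), ZMod.card]
  split_ifs <;> simp

theorem parseval (k : ZMod q → ℂ) :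
    ∑ x, ‖∑ z, k z * ZMod.stdAddChar (z * x)‖ ^ 2 = q * ∑ z, ‖k z‖ ^ 2 := by
  have e : ∀ x : ZMod q, ((‖∑ z, k z * ZMod.stdAddChar (z * x)‖ ^ 2 : ℝ) : ℂ) =
      ∑ z, ∑ z', k z * (starRingEnd ℂ) (k z') * ZMod.stdAddChar (x * (z - z')) := fun x => by
    rw [Complex.ofReal_pow, ← Complex.mul_conj', map_sum, sum_mul_sum]
    refine sum_congr rfl fun z _ => sum_congr rfl fun z' _ => ?_
    rw [map_mul (starRingEnd ℂ), ← AddChar.map_neg_eq_conj, show x * (z - z') = z * x + -(z' * x) by ring,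
      AddChar.map_add_eq_mul]
    ring
  apply Complex.ofReal_injective
  rw [Complex.ofReal_sum, sum_congr rfl fun x _ => e x, sum_comm, Complex.ofReal_mul,
    Complex.ofReal_sum, mul_sum]
  refine sum_congr rfl fun z _ => ?_
  rw [sum_comm, sum_eq_single z]
  · rw [← mul_sum, orth, if_pos (sub_self z), Complex.mul_conj', mul_comm]
    push_cast
    rfl
  · intro z' _ h
    rw [← mul_sum, orth, if_neg (sub_ne_zero.2 h.symm), mul_zero]
  · simp

theorem sin_ang_eq (u : ZMod q) : ((Real.sin (ang u) : ℝ) : ℂ) =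
    (ZMod.stdAddChar (-u) - ZMod.stdAddChar u) * Complex.I / 2 := by
  rw [AddChar.map_neg_eq_inv, R.stdAddChar_eq, ← Complex.exp_neg, Complex.ofReal_sin, Complex.sin,
    neg_mul]

omit [NeZero q] in
theorem cen_neg (hq : Odd q) (x : ZMod q) : cen (-x) = -cen x := by
  rw [cen, cen, ZMod.valMinAbs_neg_of_ne_half, Int.cast_neg]
  obtain ⟨k, hk⟩ := hq
  omega

theorem symbol (φ : ZMod q → ℝ) (hφ : ∀ x, φ (-x) = -φ x) (x : ZMod q) :
    ∑ z : ZMod q, ((𝔼 y : ZMod q, φ y * Real.sin (ang (y * z)) : ℝ) : ℂ) *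
      ZMod.stdAddChar (z * x) = Complex.I * φ x := by
  have hq : (q : ℂ) ≠ 0 := Nat.cast_ne_zero.2 (NeZero.ne q)
  have e : ∀ z : ZMod q, ((𝔼 y : ZMod q, φ y * Real.sin (ang (y * z)) : ℝ) : ℂ) *
      ZMod.stdAddChar (z * x) = ∑ y : ZMod q, (φ y * Complex.I / (2 * q)) *
        (ZMod.stdAddChar (z * (x - y)) - ZMod.stdAddChar (z * (x + y))) := fun z => by
    rw [Fintype.expect_eq_sum_div_card, ZMod.card, Complex.ofReal_div, Complex.ofReal_sum, sum_div,
      sum_mul]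
    refine sum_congr rfl fun y _ => ?_
    rw [Complex.ofReal_mul, sin_ang_eq, show z * (x - y) = -(y * z) + z * x by ring,
      show z * (x + y) = y * z + z * x by ring, AddChar.map_add_eq_mul, AddChar.map_add_eq_mul]
    push_cast
    ring
  rw [sum_congr rfl fun z _ => e z, sum_comm]
  simp only [← mul_sum, sum_sub_distrib, orth]
  simp only [mul_sub, sum_sub_distrib, mul_ite, mul_zero, sub_eq_zero,
    add_eq_zero_iff_neg_eq, sum_ite_eq, mem_univ, if_true, hφ]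
  push_cast
  field_simp
  ring

theorem card_le {R : ℝ} (hR : 0 ≤ R) :
    ((univ.filter fun x : ZMod q => |cen x| ≤ R).card : ℝ) ≤ 2 * R + 1 := by
  have h1 : (univ.filter fun x : ZMod q => |cen x| ≤ R).card ≤
      (Icc (-(⌊R⌋₊ : ℤ)) ⌊R⌋₊).card := by
    refine card_le_card_of_injOn ZMod.valMinAbs (fun x hx => ?_) ZMod.injective_valMinAbs.injOn
    have h2 : ((|x.valMinAbs| : ℤ) : ℝ) ≤ R := by
      rw [Int.cast_abs]; exact (mem_filter.1 hx).2
    have h3 := Int.le_floor.2 h2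
    rw [← Int.natCast_floor_eq_floor hR] at h3
    exact mem_coe.2 (mem_Icc.2 (abs_le.1 h3))
  have h2 : (Icc (-(⌊R⌋₊ : ℤ)) ⌊R⌋₊).card = 2 * ⌊R⌋₊ + 1 := by rw [Int.card_Icc]; omega
  have h3 : ((univ.filter fun x : ZMod q => |cen x| ≤ R).card : ℝ) ≤ 2 * ⌊R⌋₊ + 1 := by
    rw [h2] at h1; exact_mod_cast h1
  linarith [Nat.floor_le hR]

theorem sum_sq_le {g : ZMod q → ℝ} {b R : ℝ} (hR : 0 ≤ R) (h : ∀ x, |g x| ≤ b)
    (h0 : ∀ x, R < |cen x| → g x = 0) : ∑ x, g x ^ 2 ≤ (2 * R + 1) * b ^ 2 := by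
  rw [← sum_subset (subset_univ (univ.filter fun x : ZMod q => |cen x| ≤ R)) fun x _ hx => by
    rw [h0 x (not_le.1 fun h1 => hx (mem_filter.2 ⟨mem_univ _, h1⟩))]; simp]
  refine (sum_le_card_nsmul _ _ (b ^ 2) fun x _ => ?_).trans ?_
  · rw [← sq_abs]; exact pow_le_pow_left₀ (abs_nonneg _) (h x) 2
  · rw [nsmul_eq_mul]; exact mul_le_mul_of_nonneg_right (card_le hR) (sq_nonneg _)

omit [NeZero q] in
theorem sum_Icc_le {K : ℝ} (hK : 0 < K) (n : ℕ) :
    ∑ k ∈ Icc (-(n : ℤ)) n, K ^ 2 / (K ^ 2 + (k : ℝ) ^ 2) ≤ 1 + 4 * K - 4 * K ^ 2 / (K + n) := by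
  induction n with
  | zero =>
    have e : 4 * K ^ 2 / K = 4 * K := by field_simp
    simp [hK.ne', e]
  | succ n ih =>
    have e : Icc (-((n + 1 : ℕ) : ℤ)) ((n + 1 : ℕ) : ℤ) =
        insert ((n + 1 : ℕ) : ℤ) (insert (-((n + 1 : ℕ) : ℤ)) (Icc (-(n : ℤ)) n)) := by
      ext k
      simp only [mem_Icc, mem_insert]
      push_cast
      omega
    rw [e, sum_insert, sum_insert]
    · have hn : (0 : ℝ) ≤ n := Nat.cast_nonneg n
      have h1 : 2 * (K ^ 2 / (K ^ 2 + ((n : ℝ) + 1) ^ 2)) ≤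
          4 * K ^ 2 / (K + n) - 4 * K ^ 2 / (K + (n + 1)) := by
        have e1 : 4 * K ^ 2 / (K + n) - 4 * K ^ 2 / (K + (n + 1)) =
            2 * (K ^ 2 / ((K + n) * (K + (n + 1)) / 2)) := by field_simp; ring
        rw [e1]
        gcongr
        nlinarith [sq_nonneg (K - (n + 1))]
      push_cast
      rw [neg_sq]
      linarith
    · simp only [mem_Icc]; push_cast; omega
    · simp only [mem_Icc, mem_insert]; push_cast; omega

theorem sum_inv_le {K : ℝ} (hK : 0 < K) :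
    ∑ z : ZMod q, K ^ 2 / (K ^ 2 + cen z ^ 2) ≤ 1 + 4 * K := by
  have h1 : ∑ z : ZMod q, K ^ 2 / (K ^ 2 + cen z ^ 2) =
      ∑ k ∈ univ.image (ZMod.valMinAbs (n := q)), K ^ 2 / (K ^ 2 + (k : ℝ) ^ 2) :=
    (sum_image (f := fun k : ℤ => K ^ 2 / (K ^ 2 + (k : ℝ) ^ 2))
      ZMod.injective_valMinAbs.injOn).symm
  have h2 : univ.image (ZMod.valMinAbs (n := q)) ⊆ Icc (-(q : ℤ)) q := fun k hk => by
    obtain ⟨x, -, rfl⟩ := mem_image.1 hk
    obtain ⟨h3, h4⟩ := x.valMinAbs_mem_Ioc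
    rw [mem_Icc]
    omega
  rw [h1]
  refine (sum_le_sum_of_subset_of_nonneg h2 fun _ _ _ => by positivity).trans
    ((sum_Icc_le hK q).trans ?_)
  have : 0 ≤ 4 * K ^ 2 / (K + q) := by positivity
  linarith

theorem cen_succ (x : ZMod q) (h : 2 * |cen x| + 2 < q) : cen (x + 1) = cen x + 1 := by
  have h1 := cen_int (q := q) (x.valMinAbs + 1) (by
    push_cast
    have := abs_add_le (cen x) 1
    rw [abs_one] at this
    unfold cen at this h
    linarith)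
  push_cast at h1
  exact h1

theorem norm_char_sub (z : ZMod q) :
    16 * cen z ^ 2 / (q : ℝ) ^ 2 ≤ ‖(ZMod.stdAddChar z : ℂ) - 1‖ ^ 2 := by
  have h1 : ‖(ZMod.stdAddChar z : ℂ) - 1‖ ^ 2 = 2 * (1 - Real.cos (ang z)) := by
    rw [R.stdAddChar_eq, ← Complex.normSq_eq_norm_sq, Complex.normSq_apply, Complex.sub_re,
      Complex.sub_im, Complex.exp_ofReal_mul_I_re, Complex.exp_ofReal_mul_I_im, Complex.one_re,
      Complex.one_im]
    nlinarith [Real.sin_sq_add_cos_sq (ang z)]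
  rw [h1, one_sub_cos, ← mul_div_assoc]
  exact div_le_div_of_nonneg_right (by linarith [dt_low z]) (by positivity)

theorem wiener (hq : Odd q) {a Λ : ℝ} (ha : 0 < a) (hΛ : 0 ≤ Λ) (h : 4 * Λ / a + 4 ≤ q) :
    ∑ z : ZMod q, |tk a Λ z| ≤ 6 * Λ := by
  have hq0 := q_pos (q := q)
  obtain ⟨J, hJ⟩ : ∃ J, Λ = a * J := ⟨Λ / a, by field_simp⟩
  have hJq : 4 * J + 4 ≤ q := by rwa [hJ, mul_div_assoc, mul_div_cancel_left₀ _ ha.ne'] at h
  set φ : ZMod q → ℝ := fun x => tent Λ (a * cen x) with hφ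
  have h0 : ∀ x, 2 * J ≤ |cen x| → φ x = 0 := fun x hx => tent_zero hΛ (by
    rw [abs_mul, abs_of_pos ha, hJ]; nlinarith)
  by_cases hs : J < 1 / 2
  · have e : ∀ x, φ x = 0 := fun x => by
      by_cases hx : x.valMinAbs = 0
      · rw [hφ]; simp only [cen, hx, Int.cast_zero, mul_zero]; exact tent_eq (by simpa using hΛ)
      · have h1 : (1 : ℝ) ≤ |cen x| := by rw [cen]; exact_mod_cast Int.one_le_abs hx
        exact h0 x (by linarith)
    have e2 : ∀ z : ZMod q, tk a Λ z = 0 := fun z =>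
      expect_eq_zero fun x _ => by rw [show tent Λ (a * cen x) = 0 from e x, zero_mul]
    simp only [e2, abs_zero, sum_const_zero]
    positivity
  have hJ0 : 0 < J := by linarith
  have hodd : ∀ x, φ (-x) = -φ x := fun x => by
    simp only [hφ, cen_neg hq, mul_neg, tent_neg _ _ hΛ]
  have hsy : ∀ x, ∑ z : ZMod q, (tk a Λ z : ℂ) * ZMod.stdAddChar (z * x) = Complex.I * φ x :=
    symbol φ hodd
  have p1 := parseval fun z : ZMod q => (tk a Λ z : ℂ)
  have p2 := parseval fun z : ZMod q => (tk a Λ z : ℂ) * (ZMod.stdAddChar z - 1)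
  have e1 : ∀ x : ZMod q, ∑ z : ZMod q, (tk a Λ z : ℂ) * (ZMod.stdAddChar z - 1) *
      ZMod.stdAddChar (z * x) = Complex.I * ((φ (x + 1) - φ x : ℝ) : ℂ) := fun x => by
    rw [Complex.ofReal_sub, mul_sub, ← hsy, ← hsy, ← sum_sub_distrib]
    refine sum_congr rfl fun z _ => ?_
    rw [mul_add, mul_one, AddChar.map_add_eq_mul]
    ring
  simp only [hsy, e1, norm_mul, Complex.norm_I, one_mul, Complex.norm_real, Real.norm_eq_abs,
    sq_abs, mul_pow] at p1 p2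
  have b1 : ∑ x, φ x ^ 2 ≤ (2 * (2 * J + 1) + 1) * Λ ^ 2 :=
    sum_sq_le (by linarith) (fun x => abs_tent_le hΛ _) fun x hx => h0 x (by linarith)
  have b2 : ∑ x, (φ (x + 1) - φ x) ^ 2 ≤ (2 * (2 * J + 1) + 1) * a ^ 2 := by
    have z0 : ∀ x, 2 * J + 1 ≤ |cen x| → φ (x + 1) - φ x = 0 := fun x hx => by
      rw [h0 x (by linarith), h0 (x + 1) (not_lt.1 fun h1 => ?_), sub_self]
      have h2 := cen_succ (-(x + 1)) (by rw [cen_neg hq, abs_neg]; linarith)
      rw [show -(x + 1) + 1 = -x by ring, cen_neg hq, cen_neg hq] at h2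
      have h3 := abs_sub (cen (x + 1)) 1
      rw [abs_one, show cen (x + 1) - 1 = cen x by linarith] at h3
      linarith
    refine sum_sq_le (by linarith) (fun x => ?_) fun x hx => z0 x hx.le
    by_cases hx : 2 * J + 1 ≤ |cen x|
    · rw [z0 x hx, abs_zero]; exact ha.le
    · simp only [hφ]
      rw [cen_succ x (by linarith), mul_add, mul_one]
      exact tent_step hΛ ha.le _
  set K : ℝ := q / (4 * J) with hK
  have hK1 : 1 ≤ K := by rw [hK, le_div_iff₀ (by positivity)]; linarith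
  have hK0 : 0 < K := by linarith
  have c1 : ∑ z : ZMod q, tk a Λ z ^ 2 * ((K ^ 2 + cen z ^ 2) / K ^ 2) ≤ 20 * J * Λ ^ 2 / q := by
    have h1 : ∑ z : ZMod q, tk a Λ z ^ 2 * ((K ^ 2 + cen z ^ 2) / K ^ 2) ≤
        ∑ z : ZMod q, tk a Λ z ^ 2 +
          J ^ 2 * ∑ z : ZMod q, tk a Λ z ^ 2 * ‖(ZMod.stdAddChar z : ℂ) - 1‖ ^ 2 := by
      rw [mul_sum, ← sum_add_distrib]
      refine sum_le_sum fun z _ => ?_
      have e2 : (K ^ 2 + cen z ^ 2) / K ^ 2 = 1 + J ^ 2 * (16 * cen z ^ 2 / (q : ℝ) ^ 2) := by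
        rw [hK]; field_simp; ring
      have h2 := mul_le_mul_of_nonneg_left (norm_char_sub z)
        (mul_nonneg (sq_nonneg J) (sq_nonneg (tk a Λ z)))
      rw [e2]
      linarith
    rw [le_div_iff₀ hq0]
    have h2 := mul_le_mul_of_nonneg_right h1 hq0.le
    have h3 := mul_le_mul_of_nonneg_left b2 (sq_nonneg J)
    have h4 : J ^ 2 * ((2 * (2 * J + 1) + 1) * a ^ 2) = (2 * (2 * J + 1) + 1) * Λ ^ 2 := by
      rw [hJ]; ring
    have h5 : (2 * (2 * J + 1) + 1) * Λ ^ 2 ≤ 10 * J * Λ ^ 2 :=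
      mul_le_mul_of_nonneg_right (by linarith) (sq_nonneg _)
    rw [p2] at h3
    linarith
  have c2 := sum_sq_le_sum_mul_sum_of_sq_le_mul univ (r := fun z : ZMod q => |tk a Λ z|)
    (f := fun z => tk a Λ z ^ 2 * ((K ^ 2 + cen z ^ 2) / K ^ 2))
    (g := fun z => K ^ 2 / (K ^ 2 + cen z ^ 2)) (fun _ _ => by positivity)
    (fun _ _ => by positivity) fun z _ => le_of_eq (by rw [sq_abs]; field_simp)
  have c3 : ∑ z : ZMod q, K ^ 2 / (K ^ 2 + cen z ^ 2) ≤ 5 * K := (sum_inv_le hK0).trans (by linarith)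
  have c4 := mul_le_mul c1 c3 (sum_nonneg fun _ _ => by positivity) (by positivity)
  have e3 : 20 * J * Λ ^ 2 / q * (5 * K) = (5 * Λ) ^ 2 := by rw [hK]; field_simp; ring
  have c5 := (pow_le_pow_iff_left₀ (sum_nonneg fun _ _ => abs_nonneg _) (by positivity)
    two_ne_zero).1 (c2.trans (c4.trans_eq e3))
  linarith

end TentP

open TentP in
theorem trig_proof : TrigStmt := by
  intro q _
  refine ⟨fun x => ?_, dt_le, fun x => ?_, fun x => ?_, sin_sq_le, sin_err, sin_low, cen_int,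
    one_sub_cos⟩
  · have hp : Real.pi ^ 2 ≤ 10 := by nlinarith [Real.pi_lt_d2, Real.pi_pos]
    nlinarith [dt_low x, sq_nonneg (dt x)]
  · have := dt_le (q := q) x.valMinAbs
    rwa [ZMod.coe_valMinAbs] at this
  · have := dt_int (q := q) (-x.valMinAbs)
    rw [Int.cast_neg, ZMod.coe_valMinAbs, Int.cast_neg, mul_neg, neg_div, Real.sin_neg,
      neg_sq] at this
    rw [this, dt_cen, cen]

open TentP in
theorem tent_proof : TentStmt :=
  ⟨fun _ v h => ⟨abs_tent_le h v, abs_sub_tent h v, tent_eq⟩, fun _ _ hq a Λ ha hΛ =>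
    ⟨symbol (fun x => tent Λ (a * cen x)) fun x => by
      simp only [cen_neg hq, mul_neg, tent_neg _ _ hΛ], wiener hq ha hΛ⟩⟩

end Vale.Agent.P318.D
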