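import Vale.Agent.P318.D.Stmt
import Mathlib.Analysis.Real.Pi.Bounds

/-!
Track D: the gradient identity and the bounds for the test vectors.
-/

namespace Vale.Agent.P318.D

open Finset
open scoped BigOperators

namespace VX

variable {S : Sys}

lemma blk_of {b : S.B} {l : S.Λ} (h : l ∈ S.Lb b) : S.blk l = b := by
  simpa [Sys.Lb] using h

lemma own_of {P : S.P} {b : S.B} (h : b ∈ S.Bl P) : S.own b = P := by
  simpa [Sys.Bl] using h

lemma pb_of {b : S.B} {i : S.ι} (h : i ∈ S.J b) : S.pb (S.own b) i = b := by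
  simpa [Sys.J] using h

lemma nu_pos (hW : S.WF) (P : S.P) : 0 < S.ν P := lt_of_lt_of_le one_pos (hW.one_le_ν P)

lemma sq_nonneg' (b : S.B) (x : S.Λ → ℝ) : 0 ≤ S.sq b x :=
  sum_nonneg fun _ _ => sq_nonneg _

lemma ex2 (hB : Basic S) {k k' : S.G → ℝ} (hk : S.Mk k) (hk' : S.Mk k') (f : S.G → ℝ) :
    𝔼 β, |S.cv k (S.cv k' f) β| ≤ 𝔼 β, |f β| :=
  (hB.ex_abs k _ hk.1 hk.2.1.le).trans (hB.ex_abs k' f hk'.1 hk'.2.1.le)

lemma abs_le_c0 {t v : ℝ} (ht : 0 < t) (h : v ^ 2 ≤ 25 / t) : |v| ≤ c0 t := by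
  have hs : 0 < √t := Real.sqrt_pos.2 ht
  apply abs_le_of_sq_le_sq' _ (by unfold c0; positivity) |> abs_le.2
  unfold c0
  rw [div_pow, Real.sq_sqrt ht.le]
  norm_num
  exact h

lemma sq_V (hB : Basic S) (hH : Heat S) (hN : Noise S) (F : Fn S) {τ : S.B → ℝ} {t : ℝ}
    (hW : S.WF) (hF : F.OK) (hτ : S.Rate τ) (ht : 0 < t) (b : S.B) (β : S.G) :
    S.sq b (fun l => F.V τ t l β) ≤ 20 / t := by
  have hν := nu_pos hW (S.own b)
  have h0 : ∀ β, 0 ≤ S.cv (S.nz τ) F.f β := hB.le_cv _ _ 0 (hN.mk_nz τ hτ) hF.nonneg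
  have h1 : ∀ β, S.cv (S.nz τ) F.f β ≤ 1 := hB.cv_le _ _ 1 (hN.mk_nz τ hτ) hF.le_one
  have hg := hH.grad (t / S.ν (S.own b)) b _ (div_pos ht hν) h0 h1 β
  have e : S.sq b (fun l => F.V τ t l β) =
      S.sq b (fun l => S.Dl l (F.g τ t b) β) / S.ν (S.own b) := by
    unfold Sys.sq
    rw [sum_div]
    refine sum_congr rfl fun l hl => ?_
    simp only [Fn.V, blk_of hl, div_pow, Real.sq_sqrt hν.le]
  rw [e, div_le_iff₀ hν]
  refine hg.trans (le_of_eq ?_)
  field_simp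

lemma grad_id (hB : Basic S) (F : Fn S) (τ : S.B → ℝ) (t : ℝ) {P : S.P}
    (hW : S.WF) {b : S.B} (hb : b ∈ S.Bl P) {l : S.Λ} (hl : l ∈ S.Lb b) (β : S.G) :
    √(S.ν (S.own b)) * F.V τ t l β = ∑ i ∈ S.J b, (S.n i l : ℝ) * F.al τ t P i β +
      S.cv (S.hk (t / S.ν P) b) (S.cv (S.nz τ) (F.er l)) β := by
  have hν := nu_pos hW (S.own b)
  have hs : √(S.ν (S.own b)) ≠ 0 := (Real.sqrt_pos.2 hν).ne'
  have hP := own_of hb
  have e1 : √(S.ν (S.own b)) * F.V τ t l β = S.Dl l (F.g τ t b) β := by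
    simp only [Fn.V, blk_of hl]
    field_simp
  have e2 : S.Dl l F.f = fun β => ∑ i ∈ S.J b, (S.n i l : ℝ) * F.a i β + F.er l β := by
    funext β
    have := hB.sum_n hW l (fun i => F.a i β)
    rw [blk_of hl] at this
    rw [← this, Fn.er]
    ring
  have e3 : S.cv (S.nz τ) (S.Dl l F.f) = fun β =>
      ∑ i ∈ S.J b, (S.n i l : ℝ) * S.cv (S.nz τ) (F.a i) β + S.cv (S.nz τ) (F.er l) β := by
    funext β
    rw [e2, hB.cv_add, hB.cv_sum]
    congr 1
    exact sum_congr rfl fun i _ => hB.cv_mul _ _ _ _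
  rw [e1, Fn.g, hB.Dl_cv, hB.Dl_cv, e3, hB.cv_add, hB.cv_sum, hP]
  congr 1
  refine sum_congr rfl fun i hi => ?_
  have hi' := pb_of hi
  rw [hP] at hi'
  rw [hB.cv_mul, Fn.al, hi']

lemma U_eq (F : Fn S) (τ : S.B → ℝ) (t : ℝ) {P : S.P} {b : S.B} (hb : b ∈ S.Bl P) {i : S.ι}
    (hi : i ∈ S.J b) (β : S.G) :
    F.U τ t P i β = S.dotb i b (fun l => F.V τ t l β) / √(S.ν (S.own b)) := by
  have hP := own_of hb
  have hi' := pb_of hi
  rw [hP] at hi'
  rw [Fn.U, hi', hP]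

end VX

open VX

theorem v_proof (hB : BasicStmt) (hH : HeatStmt) (hN : NoiseStmt) : VStmt := by
  intro S F τ t P hW hF hτ ht
  have hB := hB S
  have hH := hH S
  have hN := hN S
  have hk : ∀ b, S.Mk (S.hk (t / S.ν P) b) := fun b =>
    hH.mkv _ b (div_pos ht (nu_pos hW P)).le
  have hz := hN.mk_nz τ hτ
  have h3 : ∀ i, 𝔼 β, |F.al τ t P i β| ≤ 𝔼 β, |F.a i β| := fun i => ex2 hB (hk _) hz _
  refine ⟨sq_V hB hH hN F hW hF hτ ht, fun b hb l hl β => grad_id hB F τ t hW hb hl β, h3, ?_, ?_⟩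
  · intro b _
    exact add_le_add (div_le_div_of_nonneg_right (sum_le_sum fun i _ => h3 i) (Real.sqrt_nonneg _))
      (sum_le_sum fun l _ => ex2 hB (hk _) hz _)
  · set e : S.B → S.Λ → S.G → ℝ := fun b l =>
      S.cv (S.hk (t / S.ν P) b) (S.cv (S.nz τ) (F.er l)) with he
    have key : ∀ b ∈ S.Bl P, ∑ l ∈ S.Lb b, 𝔼 β, F.V τ t l β ^ 2 -
        ∑ i ∈ S.J b, 𝔼 β, F.al τ t P i β * F.U τ t P i β =
        ∑ l ∈ S.Lb b, 𝔼 β, F.V τ t l β * e b l β / √(S.ν (S.own b)) := by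
      intro b hb
      have hν := nu_pos hW (S.own b)
      have hs : √(S.ν (S.own b)) ≠ 0 := (Real.sqrt_pos.2 hν).ne'
      rw [← expect_sum_comm, ← expect_sum_comm, ← expect_sum_comm, ← expect_sub_distrib]
      refine expect_congr rfl fun β _ => ?_
      have a1 : ∑ i ∈ S.J b, F.al τ t P i β * F.U τ t P i β =
          ∑ l ∈ S.Lb b, F.V τ t l β * (∑ i ∈ S.J b, (S.n i l : ℝ) * F.al τ t P i β) /
            √(S.ν (S.own b)) := by
        rw [sum_congr rfl fun i hi => by rw [U_eq F τ t hb hi β]]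
        simp only [Sys.dotb, mul_sum, sum_div]
        rw [sum_comm]
        refine sum_congr rfl fun l _ => sum_congr rfl fun i _ => by ring
      rw [a1, ← sum_sub_distrib]
      refine sum_congr rfl fun l hl => ?_
      have g := grad_id hB F τ t hW hb hl β
      have g' : ∑ i ∈ S.J b, (S.n i l : ℝ) * F.al τ t P i β =
          √(S.ν (S.own b)) * F.V τ t l β - e b l β := by rw [g, he]; ring
      rw [g']
      field_simp
      ring
    have hc : 0 ≤ c0 t := by unfold c0; positivity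
    rw [Fn.Bt, ← hB.sum_Lb, ← hB.sum_J hW P, ← sum_sub_distrib, sum_congr rfl key]
    calc |∑ b ∈ S.Bl P, ∑ l ∈ S.Lb b, 𝔼 β, F.V τ t l β * e b l β / √(S.ν (S.own b))|
        ≤ ∑ b ∈ S.Bl P, ∑ l ∈ S.Lb b, c0 t * 𝔼 β, |F.er l β| := by
          refine (abs_sum_le_sum_abs _ _).trans (sum_le_sum fun b _ => ?_)
          refine (abs_sum_le_sum_abs _ _).trans (sum_le_sum fun l hl => ?_)
          have h1 : 1 ≤ √(S.ν (S.own b)) := Real.one_le_sqrt.2 (hW.one_le_ν _)
          have h2 : ∀ β, |F.V τ t l β * e b l β / √(S.ν (S.own b))| ≤ c0 t * |e b l β| := by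
            intro β
            have hv : |F.V τ t l β| ≤ c0 t := by
              apply abs_le_c0 ht
              have := sq_V hB hH hN F hW hF hτ ht b β
              have h5 : F.V τ t l β ^ 2 ≤ S.sq b (fun l => F.V τ t l β) :=
                single_le_sum (f := fun l => F.V τ t l β ^ 2) (fun _ _ => sq_nonneg _) hl
              have h6 : 20 / t ≤ 25 / t := by gcongr; norm_num
              linarith
            rw [abs_div, abs_mul, abs_of_pos (lt_of_lt_of_le one_pos h1)]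
            refine (div_le_self (by positivity) h1).trans ?_
            gcongr
          calc |𝔼 β, F.V τ t l β * e b l β / √(S.ν (S.own b))|
              ≤ 𝔼 β, |F.V τ t l β * e b l β / √(S.ν (S.own b))| := abs_expect_le _ _
            _ ≤ 𝔼 β, c0 t * |e b l β| := expect_le_expect fun β _ => h2 β
            _ = c0 t * 𝔼 β, |e b l β| := (mul_expect _ _ _).symm
            _ ≤ c0 t * 𝔼 β, |F.er l β| := mul_le_mul_of_nonneg_left (ex2 hB (hk _) hz _) hc
      _ = c0 t * ∑ l ∈ S.LP P, 𝔼 β, |F.er l β| := by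
          rw [hB.sum_Lb P fun l => c0 t * 𝔼 β, |F.er l β|, mul_sum]
      _ ≤ c0 t * F.Ee := by
          gcongr
          exact sum_le_sum_of_subset_of_nonneg (subset_univ _)
            fun l _ _ => expect_nonneg fun _ _ => abs_nonneg _

namespace VX

variable {S : Sys}

lemma lam_le {t p D : ℝ} : 6 * lam t p D ≤ 85 * √(p / (t * D)) := by
  unfold lam
  rw [mul_div_assoc, Real.sqrt_mul (by norm_num)]
  have h : √200 ≤ 85 / 6 := Real.sqrt_le_iff.2 ⟨by norm_num, by norm_num⟩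
  have := Real.sqrt_nonneg (p / (t * D))
  nlinarith

lemma lam_q {t p D ν q : ℝ} (ht : 0 < t) (hp : 1 ≤ p) (hD : p ≤ D) (hν : 0 < ν)
    (hf : 100 * ν ≤ q * √t) (hq : 100 ≤ q) : 4 * lam t p D / (2 * Real.pi / ν) + 4 ≤ q := by
  have hs : 0 < √t := Real.sqrt_pos.2 ht
  have hD0 : 0 < D := by linarith
  have h1 : lam t p D ≤ 15 / √t := by
    unfold lam
    apply Real.sqrt_le_iff.2 ⟨by positivity, ?_⟩
    rw [div_pow, Real.sq_sqrt ht.le, div_le_div_iff₀ (by positivity) ht]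
    nlinarith [mul_le_mul_of_nonneg_left hD ht.le]
  have h2 : ν / √t ≤ q / 100 := by
    rw [div_le_div_iff₀ hs (by norm_num)]
    linarith
  have hpi := Real.pi_gt_three
  have h3 : 4 * lam t p D / (2 * Real.pi / ν) ≤ 10 * (ν / √t) := by
    rw [div_div_eq_mul_div, div_le_iff₀ (by positivity)]
    have h4 : lam t p D * ν ≤ 15 * (ν / √t) := by
      calc lam t p D * ν ≤ 15 / √t * ν := by gcongr
        _ = 15 * (ν / √t) := by ring
    have h5 : 0 ≤ ν / √t := by positivity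
    nlinarith
  linarith

lemma root_le {δ ν s t : ℝ} (ht : 0 < t) (hδ : δ ≤ 1 / 4) (hν : 0 < ν) (hs0 : 0 ≤ s)
    (hs : s ≤ 20 / t) : √((1 + δ) * ν * s) ≤ c0 t * √ν := by
  have h0 : 0 < √t := Real.sqrt_pos.2 ht
  apply Real.sqrt_le_iff.2 ⟨by unfold c0; positivity, ?_⟩
  unfold c0
  rw [mul_pow, div_pow, Real.sq_sqrt ht.le, Real.sq_sqrt hν.le]
  calc (1 + δ) * ν * s ≤ (5 / 4) * ν * (20 / t) := by gcongr; linarith
    _ = 5 ^ 2 / t * ν := by ring

end VX

theorem x_proof (hB : BasicStmt) (hD : DBStmt) (hR : RipStmt) (hH : HeatStmt) (hN : NoiseStmt)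
    (hT : TentStmt) (hV : VStmt) : XStmt := by
  intro S F δ τ t p P R m m' E' h
  have hB := hB S
  have hD := hD S
  have hH := hH S
  have hN := hN S
  have hW := h.wf
  have ht := h.t_pos
  have hR := hR S δ h.δ_pos h.δ_le hW h.rip
  have hV := (hV S F τ t P hW h.ok h.rate ht).1
  have hc : 0 ≤ c0 t := by unfold c0; positivity
  have hD1 : (1 : ℝ) ≤ S.D P := by exact_mod_cast hW.one_le_D P
  have hUL : ∀ i β, |F.UL τ t p P i β| ≤ 85 * √(p / (t * S.D P)) := by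
    intro i β
    have hν := nu_pos hW P
    have hq : (100 : ℝ) ≤ S.q := by exact_mod_cast hW.big
    have hodd : Odd S.q := S.hq.out.odd_of_ne_two (by have := hW.big; omega)
    have hl : 0 ≤ lam t p (S.D P) := Real.sqrt_nonneg _
    have ha : 0 < 2 * Real.pi / S.ν P := by have := Real.pi_pos; positivity
    have h6 := (hT.2 S.q hodd _ _ ha hl).2 (lam_q ht h.one_le_p h.p_le hν h.fine hq)
    have hg : ∀ β, |F.g τ t (S.pb P i) β| ≤ 1 := by
      refine hB.abs_cv _ _ 1 (hH.mkv _ _ (div_pos ht (nu_pos hW _)).le) ?_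
      refine hB.abs_cv _ _ 1 (hN.mk_nz τ h.rate) fun β => ?_
      rw [abs_of_nonneg (h.ok.nonneg β)]
      exact h.ok.le_one β
    refine le_trans ?_ (h6.trans lam_le)
    unfold Fn.UL Sys.ln
    refine (abs_sum_le_sum_abs _ _).trans (sum_le_sum fun z _ => ?_)
    rw [abs_mul]
    exact mul_le_of_le_one_right (abs_nonneg _) (hg _)
  have hsq : 0 ≤ √(p / (t * S.D P)) := Real.sqrt_nonneg _
  have hU : ∀ b ∈ S.Bl P, S.DB (S.J b) (F.U τ t P) (5 * √(p / (t * S.D P))) (c0 t) := by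
    intro b hb β x
    have hν := nu_pos hW (S.own b)
    have hs : 0 < √(S.ν (S.own b)) := Real.sqrt_pos.2 hν
    have e : ∑ i ∈ S.J b, x i * F.U τ t P i β =
        (∑ i ∈ S.J b, x i * S.dotb i b (fun l => F.V τ t l β)) / √(S.ν (S.own b)) := by
      rw [sum_div]
      exact sum_congr rfl fun i hi => by rw [U_eq F τ t hb hi β, mul_div_assoc]
    have d := hR.dual b (fun l => F.V τ t l β) x
    have r := root_le ht h.δ_le hν (sq_nonneg' b _) (hV b β)
    have hx : 0 ≤ ∑ i ∈ S.J b, |x i| := sum_nonneg fun _ _ => abs_nonneg _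
    have h5 : c0 t / √(S.D (S.own b)) ≤ 5 * √(p / (t * S.D P)) := by
      rw [own_of hb, c0, div_div, ← Real.sqrt_mul ht.le, Real.sqrt_div' _ (by positivity),
        ← mul_div_assoc]
      have : 1 ≤ √p := Real.one_le_sqrt.2 h.one_le_p
      gcongr
      linarith
    rw [e, abs_div, abs_of_pos hs, div_le_iff₀ hs]
    refine d.trans ?_
    calc _ ≤ c0 t * √(S.ν (S.own b)) *
          ((∑ i ∈ S.J b, |x i|) / √(S.D (S.own b)) + √(∑ i ∈ S.J b, x i ^ 2)) := by gcongr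
      _ = (c0 t / √(S.D (S.own b)) * ∑ i ∈ S.J b, |x i| + c0 t * √(∑ i ∈ S.J b, x i ^ 2)) *
          √(S.ν (S.own b)) := by ring
      _ ≤ _ := by gcongr
  have hUH : ∀ b ∈ S.Bl P, S.DB (S.J b) (F.UH τ t p P) (l0 t p (S.D P)) (c0 t) := by
    intro b hb
    have a := hD.sub _ _ _ _ _ _ _ (hU b hb)
      (hD.of_abs (S.J b) (F.UL τ t p P) _ fun i _ β => hUL i β)
    exact hD.mono _ _ _ _ _ _ a (by unfold l0; linarith) (by linarith)
  refine ⟨fun i β => ?_, fun i β => (hUL i β).trans (by unfold l0; linarith), hUH, ?_⟩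
  · have hν := nu_pos hW P
    obtain ⟨hb, hi⟩ := hB.pb_mem hW P i
    apply abs_le_c0 ht
    have n := (hR.norm _ i hi).2
    rw [hW.own_pb] at n
    have cs : S.dotb i (S.pb P i) (fun l => F.V τ t l β) ^ 2 ≤
        S.sq (S.pb P i) (fun l => S.n i l) * S.sq (S.pb P i) (fun l => F.V τ t l β) :=
      sum_mul_sq_le_sq_mul_sq _ _ _
    rw [Fn.U, div_pow, Real.sq_sqrt hν.le, div_le_iff₀ hν]
    refine cs.trans ?_
    have hd := h.δ_le
    calc _ ≤ (5 / 4 * S.ν P) * (20 / t) := by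
          gcongr
          · exact sq_nonneg' _ _
          · refine n.trans ?_
            gcongr
            linarith
          · exact hV _ _
      _ = 25 / t * S.ν P := by ring
  · intro b hb
    have z := hD.zk hW hN.mk_eA _ _ _ _ R m' h.fam.ne hc h.fam.blocks (hUH b hb)
    have a := hD.sub _ _ _ _ _ _ _ (hUH b hb) z
    have h1 : 1 ≤ √m' := Real.one_le_sqrt.2 h.fam.one_le
    exact hD.mono _ _ _ _ _ _ a (by linarith) (by nlinarith)

end Vale.Agent.P318.D
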