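import Vale.Agent.P318.D.Stmt

/-!
Track D: pairings with the parts that are averaged over a block of the column.
-/

namespace Vale.Agent.P318.D

open Finset
open scoped BigOperators

namespace ZTouch

theorem ind_pos {p : Prop} (h : p) : ind p = 1 := by simp [ind, h]

theorem ind_neg {p : Prop} (h : ¬ p) : ind p = 0 := by simp [ind, h]

variable {S : Sys}

/-- The pairing inside one block. -/
theorem key (hB : Basic S) (hD : DBL S) (hN : Noise S) {δ : ℝ} (F : Fn S) (b : S.B)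
    (hS : 𝔼 β, √(∑ i ∈ S.J b, S.cv (S.eA {b}) (F.a i) β ^ 2) ≤ 9 / δ * F.Eb b)
    {Y : S.ι → S.G → ℝ} {ℓ c : ℝ} (hℓ : 0 ≤ ℓ) (hc : 0 ≤ c) (hY : S.DB univ Y ℓ c)
    {T : Finset S.ι} (hT : T ⊆ S.J b) :
    |∑ i ∈ T, 𝔼 β, S.cv (S.eA {b}) (F.a i) β * Y i β| ≤
      ℓ * ∑ i ∈ T, 𝔼 β, |F.a i β| + 9 / δ * c * F.Eb b := by
  have h1 := hD.pair T Y ℓ c (fun i => S.cv (S.eA {b}) (F.a i))
    (hD.subset univ T Y ℓ c hY (subset_univ _))
  have h2 : ∑ i ∈ T, 𝔼 β, |S.cv (S.eA {b}) (F.a i) β| ≤ ∑ i ∈ T, 𝔼 β, |F.a i β| :=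
    Finset.sum_le_sum fun i _ => hB.ex_abs _ _ (hN.mk_eA _).1 (hN.mk_eA _).2.1.le
  have h3 : 𝔼 β, √(∑ i ∈ T, S.cv (S.eA {b}) (F.a i) β ^ 2) ≤
      𝔼 β, √(∑ i ∈ S.J b, S.cv (S.eA {b}) (F.a i) β ^ 2) :=
    Finset.expect_le_expect fun β _ => Real.sqrt_le_sqrt
      (Finset.sum_le_sum_of_subset_of_nonneg hT fun i _ _ => sq_nonneg _)
  have h4 := mul_le_mul_of_nonneg_left h2 hℓ
  have h5 := mul_le_mul_of_nonneg_left (h3.trans hS) hc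
  calc _ ≤ _ := h1
    _ ≤ ℓ * ∑ i ∈ T, 𝔼 β, |F.a i β| + c * (9 / δ * F.Eb b) := add_le_add h4 h5
    _ = _ := by ring

theorem cv_kernel {κ : Type} (s : Finset κ) (r : κ → ℝ) (k : κ → S.G → ℝ) (f : S.G → ℝ)
    (β : S.G) : S.cv (fun w => ∑ j ∈ s, r j * k j w) f β = ∑ j ∈ s, r j * S.cv (k j) f β := by
  unfold Sys.cv
  simp only [Finset.sum_mul, Finset.mul_sum, mul_assoc]
  exact Finset.sum_comm

theorem ex_kernel {κ : Type} (s : Finset κ) (r : κ → ℝ) (k : κ → S.G → ℝ) (f g : S.G → ℝ) :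
    𝔼 β, S.cv (fun w => ∑ j ∈ s, r j * k j w) f β * g β =
      ∑ j ∈ s, r j * 𝔼 β, S.cv (k j) f β * g β := by
  simp only [cv_kernel, Finset.sum_mul, mul_assoc]
  rw [Finset.expect_sum_comm]
  exact Finset.sum_congr rfl fun j _ => (Finset.mul_expect _ _ _).symm

/-- One partition. -/
theorem part (hB : Basic S) (hD : DBL S) (hN : Noise S) {δ : ℝ} (hδ : 0 < δ) (hW : S.WF)
    (F : Fn S)
    (hS : ∀ b, 𝔼 β, √(∑ i ∈ S.J b, S.cv (S.eA {b}) (F.a i) β ^ 2) ≤ 9 / δ * F.Eb b)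
    {Y : S.ι → S.G → ℝ} {ℓ c : ℝ} (hℓ : 0 ≤ ℓ) (hc : 0 ≤ c) (hY : S.DB univ Y ℓ c) (P : S.P) :
    |∑ i, 𝔼 β, S.cv (S.eA {S.pb P i}) (F.a i) β * Y i β| ≤ ℓ * F.I + 9 / δ * c * F.EP P := by
  rw [← hB.sum_J hW P]
  have h1 : ∑ b ∈ S.Bl P, ∑ i ∈ S.J b, 𝔼 β, S.cv (S.eA {S.pb P i}) (F.a i) β * Y i β =
      ∑ b ∈ S.Bl P, ∑ i ∈ S.J b, 𝔼 β, S.cv (S.eA {b}) (F.a i) β * Y i β :=
    Finset.sum_congr rfl fun b hb => Finset.sum_congr rfl fun i hi => by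
      rw [(hB.mem_J hW P i b hb).mp hi]
  rw [h1]
  have h2 : 0 ≤ 9 / δ * c := by positivity
  calc _ ≤ ∑ b ∈ S.Bl P, |∑ i ∈ S.J b, 𝔼 β, S.cv (S.eA {b}) (F.a i) β * Y i β| :=
        Finset.abs_sum_le_sum_abs _ _
    _ ≤ ∑ b ∈ S.Bl P, (ℓ * ∑ i ∈ S.J b, 𝔼 β, |F.a i β| + 9 / δ * c * F.Eb b) :=
        Finset.sum_le_sum fun b _ => key hB hD hN F b (hS b) hℓ hc hY subset_rfl
    _ = ℓ * F.I + 9 / δ * c * ∑ b ∈ S.Bl P, F.Eb b := by
        rw [Finset.sum_add_distrib, ← Finset.mul_sum, ← Finset.mul_sum, hB.sum_J hW P]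
        rfl
    _ ≤ _ := add_le_add le_rfl (mul_le_mul_of_nonneg_left (hB.sum_Eb hW F P) h2)

/-- One set of blocks. -/
theorem one_set (hB : Basic S) (hD : DBL S) (hN : Noise S) {δ : ℝ} (hW : S.WF) (F : Fn S)
    (hS : ∀ b, 𝔼 β, √(∑ i ∈ S.J b, S.cv (S.eA {b}) (F.a i) β ^ 2) ≤ 9 / δ * F.Eb b)
    {Y : S.ι → S.G → ℝ} {ℓ c : ℝ} (hℓ : 0 ≤ ℓ) (hc : 0 ≤ c) (hY : S.DB univ Y ℓ c)
    (A : Finset S.B) :
    |∑ i, ind (S.touch i A) * 𝔼 β, S.cv (S.eA A) (F.a i) β * Y i β| ≤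
      ℓ * F.I + 9 / δ * c * ∑ b, ind (b ∈ A) * F.Eb b := by
  classical
  have hg : ∀ i, ∃ b, S.touch i A → b ∈ A ∧ i ∈ S.J b := fun i => by
    by_cases h : S.touch i A
    · obtain ⟨P, hP⟩ := h
      exact ⟨S.pb P i, fun _ => ⟨hP, (hB.pb_mem hW P i).2⟩⟩
    · exact ⟨S.blk (hW.nz i).choose, fun h' => absurd h' h⟩
  choose g hg using hg
  set T : Finset S.ι := univ.filter fun i => S.touch i A with hT
  have hm : ∀ i ∈ T, g i ∈ A := fun i hi => (hg i (mem_filter.mp hi).2).1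
  have h1 : ∑ i, ind (S.touch i A) * 𝔼 β, S.cv (S.eA A) (F.a i) β * Y i β =
      ∑ i ∈ T, 𝔼 β, S.cv (S.eA A) (F.a i) β * Y i β := by
    rw [hT, Finset.sum_filter]
    refine Finset.sum_congr rfl fun i _ => ?_
    by_cases h : S.touch i A
    · rw [ind_pos h, if_pos h, one_mul]
    · rw [ind_neg h, if_neg h, zero_mul]
  have h2 : ∑ b, ind (b ∈ A) * F.Eb b = ∑ b ∈ A, F.Eb b := by
    rw [← Finset.sum_subset (subset_univ A) fun b _ hb => by rw [ind_neg hb, zero_mul]]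
    exact Finset.sum_congr rfl fun b hb => by rw [ind_pos hb, one_mul]
  have h3 : ∑ b ∈ A, ∑ i ∈ T with g i = b, 𝔼 β, S.cv (S.eA A) (F.a i) β * Y i β =
      ∑ b ∈ A, ∑ i ∈ T with g i = b,
        𝔼 β, S.cv (S.eA {b}) (F.a i) β * S.cv (S.eA A) (Y i) β :=
    Finset.sum_congr rfl fun b hb => Finset.sum_congr rfl fun i _ => by
      rw [← hB.cv_adj _ _ _ (hN.mk_eA A).2.2, hN.idem A b _ hb]
  have h4 : ∑ i ∈ T, 𝔼 β, |F.a i β| ≤ F.I :=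
    Finset.sum_le_sum_of_subset_of_nonneg (subset_univ _) fun i _ _ =>
      Finset.expect_nonneg fun β _ => abs_nonneg _
  rw [h1, h2, ← Finset.sum_fiberwise_of_maps_to hm, h3]
  calc _ ≤ ∑ b ∈ A, |∑ i ∈ T with g i = b,
          𝔼 β, S.cv (S.eA {b}) (F.a i) β * S.cv (S.eA A) (Y i) β| :=
        Finset.abs_sum_le_sum_abs _ _
    _ ≤ ∑ b ∈ A, (ℓ * ∑ i ∈ T with g i = b, 𝔼 β, |F.a i β| + 9 / δ * c * F.Eb b) := by
        refine Finset.sum_le_sum fun b _ =>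
          key hB hD hN F b (hS b) hℓ hc (hD.cv _ _ _ _ _ (hN.mk_eA A) hY) fun i hi => ?_
        obtain ⟨hi1, hi2⟩ := mem_filter.mp hi
        exact hi2 ▸ (hg i (mem_filter.mp hi1).2).2
    _ = ℓ * ∑ i ∈ T, 𝔼 β, |F.a i β| + 9 / δ * c * ∑ b ∈ A, F.Eb b := by
        rw [Finset.sum_add_distrib, ← Finset.mul_sum, ← Finset.mul_sum,
          Finset.sum_fiberwise_of_maps_to hm]
    _ ≤ _ := add_le_add (mul_le_mul_of_nonneg_left h4 hℓ) le_rfl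

end ZTouch

open ZTouch

theorem z_proof (hB : BasicStmt) (hD : DBStmt) (hN : NoiseStmt) (hS : SpStmt) : ZStmt := by
  intro S δ hδ hδ' hW hR F R Y m E ℓ c hF hℓ hc hY
  have hc' : (0 : ℝ) < R.card := by exact_mod_cast hF.ne.card_pos
  have h0 : 0 ≤ 9 / δ * c := by positivity
  have h1 : ∀ i, 𝔼 β, F.a i β * S.cv (S.zk R i) (Y i) β =
      ∑ P ∈ R, (R.card : ℝ)⁻¹ * 𝔼 β, S.cv (S.eA {S.pb P i}) (F.a i) β * Y i β := fun i => by
    rw [← (hB S).cv_adj _ _ _ ((hN S).mk_zk R i hF.ne).2.2, ← ex_kernel]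
    have : S.zk R i = fun w => ∑ P ∈ R, (R.card : ℝ)⁻¹ * S.eA {S.pb P i} w := by
      funext w
      unfold Sys.zk
      rw [← Finset.mul_sum, div_eq_inv_mul]
    rw [this]
  simp only [h1]
  rw [Finset.sum_comm]
  calc _ ≤ ∑ P ∈ R, |∑ i, (R.card : ℝ)⁻¹ * 𝔼 β, S.cv (S.eA {S.pb P i}) (F.a i) β * Y i β| :=
        Finset.abs_sum_le_sum_abs _ _
    _ ≤ ∑ P ∈ R, (R.card : ℝ)⁻¹ * (ℓ * F.I + 9 / δ * c * E) := by
        refine Finset.sum_le_sum fun P hP => ?_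
        rw [← Finset.mul_sum, abs_mul, abs_of_pos (inv_pos.mpr hc')]
        refine mul_le_mul_of_nonneg_left ?_ (inv_pos.mpr hc').le
        exact (part (hB S) (hD S) (hN S) hδ hW F (hS S δ hδ hδ' hW hR F) hℓ hc hY P).trans
          (add_le_add le_rfl (mul_le_mul_of_nonneg_left (hF.err P hP) h0))
    _ = _ := by
        rw [Finset.sum_const, nsmul_eq_mul, ← mul_assoc, mul_inv_cancel₀ hc'.ne', one_mul]

theorem touch_proof (hB : BasicStmt) (hD : DBStmt) (hN : NoiseStmt) (hS : SpStmt) :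
    TouchStmt := by
  intro S δ hδ hδ' hW hR F τ Y ℓ c hτ hℓ hc hY
  have h1 : ∀ i, 𝔼 β, S.cv (S.nzT τ i) (F.a i) β * Y i β =
      ∑ A, S.pA τ A * (ind (S.touch i A) * 𝔼 β, S.cv (S.eA A) (F.a i) β * Y i β) := fun i => by
    have h := ex_kernel univ (fun A => ind (S.touch i A) * S.pA τ A) S.eA (F.a i) (Y i)
    refine Eq.trans h (Finset.sum_congr rfl fun A _ => by ring)
  simp only [h1]
  rw [Finset.sum_comm]
  calc _ ≤ ∑ A, |∑ i, S.pA τ A * (ind (S.touch i A) * 𝔼 β, S.cv (S.eA A) (F.a i) β * Y i β)| :=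
        Finset.abs_sum_le_sum_abs _ _
    _ ≤ ∑ A, S.pA τ A * (ℓ * F.I + 9 / δ * c * ∑ b, ind (b ∈ A) * F.Eb b) := by
        refine Finset.sum_le_sum fun A _ => ?_
        rw [← Finset.mul_sum, abs_mul, abs_of_nonneg ((hN S).pA_nonneg τ A hτ)]
        exact mul_le_mul_of_nonneg_left
          (one_set (hB S) (hD S) (hN S) hW F (hS S δ hδ hδ' hW hR F) hℓ hc hY A)
          ((hN S).pA_nonneg τ A hτ)
    _ = (∑ A, S.pA τ A) * (ℓ * F.I) +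
          9 / δ * c * ∑ b, (∑ A, ind (b ∈ A) * S.pA τ A) * F.Eb b := by
        simp only [mul_add, Finset.sum_add_distrib, Finset.sum_mul, Finset.mul_sum]
        congr 1
        rw [Finset.sum_comm]
        exact Finset.sum_congr rfl fun b _ => Finset.sum_congr rfl fun A _ => by ring
    _ = _ := by simp only [(hN S).sum_pA, (hN S).sum_mem, one_mul]

end Vale.Agent.P318.D
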