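import Vale.Agent.P318.D.Basic
import Vale.Agent.P318.D.Chk
import Vale.Agent.P318.D.Col
import Vale.Agent.P318.D.Cross
import Vale.Agent.P318.D.DBRip
import Vale.Agent.P318.D.Fej
import Vale.Agent.P318.D.Gap
import Vale.Agent.P318.D.Gen
import Vale.Agent.P318.D.Geo
import Vale.Agent.P318.D.Heat
import Vale.Agent.P318.D.Inst
import Vale.Agent.P318.D.Iso
import Vale.Agent.P318.D.Law1
import Vale.Agent.P318.D.Law2
import Vale.Agent.P318.D.Level
import Vale.Agent.P318.D.Main
import Vale.Agent.P318.D.Metric
import Vale.Agent.P318.D.Model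
import Vale.Agent.P318.D.Near
import Vale.Agent.P318.D.Noise
import Vale.Agent.P318.D.Off
import Vale.Agent.P318.D.Pair
import Vale.Agent.P318.D.Pi
import Vale.Agent.P318.D.Pk
import Vale.Agent.P318.D.Pt
import Vale.Agent.P318.D.RipEx
import Vale.Agent.P318.D.Shell
import Vale.Agent.P318.D.SpreadEx
import Vale.Agent.P318.D.Sym
import Vale.Agent.P318.D.Tent
import Vale.Agent.P318.D.VX
import Vale.Agent.P318.D.ZTouch

/-!
Track D: wiring of the parts.
-/

namespace Vale.Agent.P318.D

theorem colD : ColStmt := col_proof chk_proof law1_proof law2_proof ripEx_proof spreadEx_proof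

theorem isoD : IsoStmt :=
  have hB := basic_proof
  have hT := trig_proof
  have hTe := tent_proof
  have hD := db_proof
  have hR := rip_proof
  have hH := heat_proof hB hT
  have hN := noise_proof hB
  have hPk := pk_proof hB hT hH hR
  have hPi := pi_proof hB hT hR hPk
  have hP := pair_proof hR
  have hSp := sp_proof hB hR hN
  have hZ := z_proof hB hD hN hSp
  have hTo := touch_proof hB hD hN hSp
  have hV := v_proof hB hH hN
  have hX := x_proof hB hD hR hH hN hTe hV
  have hG := gen_proof hB hD hH hN hP hZ hV hX
  have hC0 := core0_proof hG hV hX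
  have hNe := near_proof hB hD hH hN fej_proof hPk hP hTo hV hX
  have hC1 := core1_proof hB hD hH hPk hX hG hNe
  have hS := sym_proof hB hH hN hTe
  have hPt := pt_proof hT hTe hR
  have hSh := shell_proof hT
  have hE := exp_proof hB
  iso_proof hB (main_proof hB hN hR hC0 hC1 hS hPt hSh hE hPk hPi)
    (cross_proof hB hN hC0 hS hPt hSh hE hR) (top_proof hB hN hC0 hS hSh) level_proof

theorem finalD_of (hS : SysStmt) : FinalStmt :=
  final_proof (inst_proof isoD hS off_proof geo_proof metric_proof
    (model_proof basic_proof trig_proof) (gapD_proof basic_proof))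

end Vale.Agent.P318.D
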