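import Vale.Agent.P318.D.Stmt

/-!
Track D: finite Fourier analysis, convolutions and bookkeeping of blocks.
-/

namespace Vale.Agent.P318.D

open Finset
open scoped BigOperators
open Vale.Agent.P318.R (ang)

namespace BasicF

variable (S : Sys)

lemma dot_comm (ξ β : S.G) : S.dot ξ β = S.dot β ξ :=
  sum_congr rfl fun _ _ => mul_comm _ _

lemma dot_add (ξ β w : S.G) : S.dot ξ (β + w) = S.dot ξ β + S.dot ξ w := by
  simp only [Sys.dot, Pi.add_apply, mul_add, sum_add_distrib]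

lemma dot_neg (ξ w : S.G) : S.dot ξ (-w) = -S.dot ξ w := by
  simp only [Sys.dot, Pi.neg_apply, mul_neg, sum_neg_distrib]

lemma dot_smul (ξ v : S.G) (z : ZMod S.q) : S.dot ξ (z • v) = z * S.dot v ξ := by
  simp only [Sys.dot, Pi.smul_apply, smul_eq_mul, mul_sum]
  exact sum_congr rfl fun _ _ => by ring

lemma dot_single (ξ : S.G) (l : S.Λ) : S.dot ξ (Pi.single l 1) = ξ l := by
  unfold Sys.dot
  rw [sum_eq_single l]
  · simp
  · intro b _ hb
    simp [Pi.single_eq_of_ne hb]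
  · simp

lemma zero_dot (β : S.G) : S.dot 0 β = 0 := by simp [Sys.dot]

lemma ch_comm (ξ β : S.G) : S.ch ξ β = S.ch β ξ := by rw [Sys.ch, Sys.ch, dot_comm]

lemma ch_add (ξ β w : S.G) : S.ch ξ (β + w) = S.ch ξ β * S.ch ξ w := by
  rw [Sys.ch, Sys.ch, Sys.ch, dot_add, AddChar.map_add_eq_mul]

lemma ch_neg (ξ w : S.G) : S.ch ξ (-w) = (starRingEnd ℂ) (S.ch ξ w) := by
  rw [Sys.ch, Sys.ch, dot_neg, AddChar.map_neg_eq_conj]

lemma zero_ch (β : S.G) : S.ch 0 β = 1 := by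
  rw [Sys.ch, zero_dot, AddChar.map_zero_eq_one]

lemma ch_zero (ξ : S.G) : S.ch ξ 0 = 1 := by rw [ch_comm, zero_ch]

lemma ch_mul_conj (ξ w : S.G) : S.ch ξ w * (starRingEnd ℂ) (S.ch ξ w) = 1 := by
  rw [← ch_neg, ← ch_add, add_neg_cancel, ch_zero]

lemma card_ne : (Fintype.card S.G : ℂ) ≠ 0 := Nat.cast_ne_zero.2 Fintype.card_ne_zero

lemma sum_ch (ξ : S.G) : ∑ w, S.ch ξ w = if ξ = 0 then (Fintype.card S.G : ℂ) else 0 := by
  split_ifs with h
  · subst h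
    simp only [zero_ch, sum_const, card_univ, nsmul_eq_mul, mul_one]
  · have h1 := Vale.Agent.P318.R.expect_dot h (fun u => (ZMod.stdAddChar u : ℂ))
    have h2 : (ZMod.stdAddChar (N := S.q)) ≠ 1 := by
      intro h
      have h1 : ZMod.stdAddChar (N := S.q) 1 = ZMod.stdAddChar (N := S.q) 0 := by rw [h]; rfl
      exact one_ne_zero (ZMod.injective_stdAddChar h1)
    rw [Fintype.expect_eq_sum_div_card, Fintype.expect_eq_sum_div_card,
      AddChar.sum_eq_zero_of_ne_one h2, zero_div, div_eq_zero_iff] at h1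
    rcases h1 with h1 | h1
    · rw [← h1]
      exact sum_congr rfl fun w _ => by rw [ch_comm]; rfl
    · exact absurd h1 (card_ne S)

lemma hat_eq (f : S.G → ℝ) (ξ : S.G) :
    S.hat f ξ = (∑ β, (f β : ℂ) * (starRingEnd ℂ) (S.ch ξ β)) / (Fintype.card S.G : ℂ) :=
  Fintype.expect_eq_sum_div_card _

lemma ex_eq (f : S.G → ℝ) : 𝔼 β, f β = (∑ β, f β) / (Fintype.card S.G : ℝ) :=
  Fintype.expect_eq_sum_div_card _

lemma hat_shift (f : S.G → ℝ) (w ξ : S.G) :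
    S.hat (fun β => f (β + w)) ξ = S.ch ξ w * S.hat f ξ := by
  rw [hat_eq, hat_eq, mul_div_assoc', mul_sum]
  congr 1
  refine Fintype.sum_equiv (Equiv.addRight w) _ _ fun β => ?_
  simp only [Equiv.coe_addRight, ch_add, map_mul]
  linear_combination (-((f (β + w) : ℂ) * (starRingEnd ℂ) (S.ch ξ β))) * ch_mul_conj S ξ w

lemma hat_sub (f g : S.G → ℝ) (ξ : S.G) :
    S.hat (fun β => f β - g β) ξ = S.hat f ξ - S.hat g ξ := by
  simp only [hat_eq, ← sub_div, ← sum_sub_distrib, Complex.ofReal_sub, sub_mul]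

lemma hat_mul (r : ℝ) (f : S.G → ℝ) (ξ : S.G) :
    S.hat (fun β => r * f β) ξ = (r : ℂ) * S.hat f ξ := by
  simp only [hat_eq, mul_div_assoc', mul_sum, Complex.ofReal_mul, mul_assoc]

lemma hat_sum {κ : Type} (s : Finset κ) (f : κ → S.G → ℝ) (ξ : S.G) :
    S.hat (fun β => ∑ j ∈ s, f j β) ξ = ∑ j ∈ s, S.hat (f j) ξ := by
  simp only [hat_eq, ← sum_div, Complex.ofReal_sum, sum_mul]
  rw [sum_comm]

lemma hat_cv (k f : S.G → ℝ) (ξ : S.G) : S.hat (S.cv k f) ξ = S.sy k ξ * S.hat f ξ := by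
  have h := hat_sum S univ (fun w β => k w * f (β + w)) ξ
  refine h.trans ?_
  rw [Sys.sy, sum_mul]
  refine sum_congr rfl fun w _ => ?_
  rw [hat_mul S (k w) (fun β => f (β + w)), hat_shift, mul_assoc]

lemma hat_ln (φ : ZMod S.q → ℝ) (v : S.G) (f : S.G → ℝ) (ξ : S.G) : S.hat (S.ln φ v f) ξ =
    (∑ z, (φ z : ℂ) * ZMod.stdAddChar (z * S.dot v ξ)) * S.hat f ξ := by
  have h := hat_sum S univ (fun z β => φ z * f (β + z • v)) ξ
  refine h.trans ?_
  rw [sum_mul]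
  refine sum_congr rfl fun z _ => ?_
  rw [hat_mul S (φ z) (fun β => f (β + z • v)), hat_shift, mul_assoc, Sys.ch, dot_smul]

lemma hat_Dl (l : S.Λ) (f : S.G → ℝ) (ξ : S.G) : S.hat (S.Dl l f) ξ =
    Complex.I * (((S.q : ℝ) * Real.sin (ang (ξ l)) : ℝ) : ℂ) * S.hat f ξ := by
  obtain ⟨e, he⟩ : ∃ e : S.G, e = Pi.single l 1 := ⟨_, rfl⟩
  have h0 : S.Dl l f = fun β => (S.q : ℝ) / 2 * (f (β + e) - f (β + -e)) := by
    funext β
    rw [Sys.Dl, sub_eq_add_neg β, he]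
  rw [h0, hat_mul S _ (fun β => f (β + e) - f (β + -e)),
    hat_sub S (fun β => f (β + e)) (fun β => f (β + -e)),
    hat_shift, hat_shift, ch_neg, ← sub_mul, Complex.sub_conj, Sys.ch, he, dot_single,
    Vale.Agent.P318.R.stdAddChar_eq, Complex.exp_ofReal_mul_I_im]
  push_cast
  ring

lemma hat_zero (f : S.G → ℝ) : S.hat f 0 = ((𝔼 β, f β : ℝ) : ℂ) := by
  rw [hat_eq, ex_eq]
  simp only [zero_ch, map_one, mul_one]
  push_cast
  rfl

/-- Fourier inversion. -/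
lemma inversion (f : S.G → ℝ) (β : S.G) : ∑ ξ, S.hat f ξ * S.ch ξ β = f β := by
  have h1 : ∀ ξ, S.hat f ξ * S.ch ξ β =
      (∑ γ, (f γ : ℂ) * S.ch (β - γ) ξ) / (Fintype.card S.G : ℂ) := by
    intro ξ
    rw [hat_eq, div_mul_eq_mul_div, sum_mul]
    congr 1
    refine sum_congr rfl fun γ _ => ?_
    rw [ch_comm S (β - γ), sub_eq_add_neg, ch_add, ch_neg]
    ring
  simp only [h1]
  rw [← sum_div, sum_comm]
  simp only [← mul_sum, sum_ch, sub_eq_zero]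
  rw [sum_eq_single β]
  · rw [if_pos rfl, mul_div_cancel_right₀ _ (card_ne S)]
  · intro γ _ hγ
    rw [if_neg (Ne.symm hγ), mul_zero]
  · simp

lemma conj_hat (f : S.G → ℝ) (ξ : S.G) :
    (starRingEnd ℂ) (S.hat f ξ) = (∑ β, (f β : ℂ) * S.ch ξ β) / (Fintype.card S.G : ℂ) := by
  rw [hat_eq, map_div₀, map_sum, map_natCast]
  simp only [map_mul, Complex.conj_ofReal, Complex.conj_conj]

lemma parseval (f : S.G → ℝ) : 𝔼 β, f β ^ 2 = ∑ ξ, S.W f ξ := by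
  have h1 : ∀ ξ, ((S.W f ξ : ℝ) : ℂ) =
      (∑ β, (f β : ℂ) * (S.hat f ξ * S.ch ξ β)) / (Fintype.card S.G : ℂ) := by
    intro ξ
    rw [Sys.W, Complex.ofReal_pow, ← Complex.mul_conj', conj_hat, mul_div_assoc', mul_sum]
    congr 1
    exact sum_congr rfl fun β _ => by ring
  apply Complex.ofReal_injective
  rw [Complex.ofReal_sum, ex_eq]
  simp only [h1]
  rw [← sum_div, sum_comm]
  simp only [← mul_sum, inversion]
  push_cast
  congr 1
  exact sum_congr rfl fun β _ => sq _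

lemma var_eq (f : S.G → ℝ) : S.var f = ∑ ξ, S.W f ξ * ind (ξ ≠ 0) := by
  have h0 : S.W f 0 = (𝔼 β, f β) ^ 2 := by
    rw [Sys.W, hat_zero, Complex.norm_real, Real.norm_eq_abs, sq_abs]
  rw [Sys.var, parseval, ← h0, ← add_sum_erase univ _ (mem_univ (0 : S.G)),
    ← add_sum_erase univ _ (mem_univ (0 : S.G))]
  have h1 : ind ((0 : S.G) ≠ 0) = 0 := by simp [ind]
  rw [h1, mul_zero, zero_add, add_sub_cancel_left]
  refine sum_congr rfl fun ξ hξ => ?_
  have h2 : ind (ξ ≠ 0) = 1 := by simp [ind, ne_of_mem_erase hξ]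
  rw [h2, mul_one]

lemma hat_inj (f g : S.G → ℝ) (h : ∀ ξ, S.hat f ξ = S.hat g ξ) : f = g := by
  funext β
  apply Complex.ofReal_injective
  rw [← inversion, ← inversion]
  simp only [h]

lemma sy_inj (k k' : S.G → ℝ) (h : ∀ ξ, S.sy k ξ = S.sy k' ξ) : k = k' := by
  refine hat_inj S k k' fun ξ => ?_
  apply (starRingEnd ℂ).injective
  rw [conj_hat, conj_hat]
  exact congrArg (· / (Fintype.card S.G : ℂ)) (h ξ)

lemma shift (f : S.G → ℝ) (w : S.G) : 𝔼 β, f (β + w) = 𝔼 β, f β :=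
  Fintype.expect_equiv (Equiv.addRight w) _ _ fun _ => rfl

lemma cv_comm (k k' f : S.G → ℝ) : S.cv k (S.cv k' f) = S.cv k' (S.cv k f) := by
  funext β
  simp only [Sys.cv, mul_sum]
  rw [sum_comm]
  refine sum_congr rfl fun w _ => sum_congr rfl fun w' _ => ?_
  rw [add_right_comm β w w']
  ring

lemma ex_sum {κ : Type} (s : Finset κ) (f : κ → S.G → ℝ) :
    𝔼 β, ∑ j ∈ s, f j β = ∑ j ∈ s, 𝔼 β, f j β := expect_sum_comm _ _ _

lemma ex_mul (r : ℝ) (f : S.G → ℝ) : 𝔼 β, r * f β = r * 𝔼 β, f β := (mul_expect _ _ _).symm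

lemma cv_adj (k f g : S.G → ℝ) (hk : ∀ w, k (-w) = k w) :
    𝔼 β, S.cv k f β * g β = 𝔼 β, f β * S.cv k g β := by
  simp only [Sys.cv, sum_mul, mul_sum]
  rw [ex_sum S univ (fun w β => k w * f (β + w) * g β),
    ex_sum S univ (fun w β => f β * (k w * g (β + w)))]
  refine Fintype.sum_equiv (Equiv.neg _) _ _ fun w => ?_
  rw [← shift S (fun β => f β * (k (Equiv.neg _ w) * g (β + Equiv.neg _ w))) w]
  refine expect_congr rfl fun β _ => ?_
  simp only [Equiv.neg_apply, hk, add_neg_cancel_right]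
  ring

lemma cv_sub (k f g : S.G → ℝ) (β : S.G) :
    S.cv k (fun β => f β - g β) β = S.cv k f β - S.cv k g β := by
  simp only [Sys.cv, mul_sub, sum_sub_distrib]

lemma cv_add (k f g : S.G → ℝ) (β : S.G) :
    S.cv k (fun β => f β + g β) β = S.cv k f β + S.cv k g β := by
  simp only [Sys.cv, mul_add, sum_add_distrib]

lemma cv_mul (k : S.G → ℝ) (r : ℝ) (f : S.G → ℝ) (β : S.G) :
    S.cv k (fun β => r * f β) β = r * S.cv k f β := by
  simp only [Sys.cv, mul_sum]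
  exact sum_congr rfl fun _ _ => by ring

lemma cv_sum {κ : Type} (s : Finset κ) (k : S.G → ℝ) (f : κ → S.G → ℝ) (β : S.G) :
    S.cv k (fun β => ∑ j ∈ s, f j β) β = ∑ j ∈ s, S.cv k (f j) β := by
  simp only [Sys.cv, mul_sum]
  rw [sum_comm]

lemma Dl_cv (l : S.Λ) (k f : S.G → ℝ) : S.Dl l (S.cv k f) = S.cv k (S.Dl l f) := by
  funext β
  simp only [Sys.cv, Sys.Dl, ← sum_sub_distrib, mul_sum]
  refine sum_congr rfl fun w _ => ?_
  rw [add_right_comm β (Pi.single l 1) w, sub_add_eq_add_sub β (Pi.single l 1) w]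
  ring

lemma ex_cv' (k f : S.G → ℝ) : 𝔼 β, S.cv k f β = (∑ w, k w) * 𝔼 β, f β := by
  simp only [Sys.cv]
  rw [ex_sum S univ (fun w β => k w * f (β + w)), sum_mul]
  exact sum_congr rfl fun w _ => by rw [ex_mul S (k w) (fun β => f (β + w)), shift]

lemma ex_cv (k f : S.G → ℝ) (hk : S.Mk k) : 𝔼 β, S.cv k f β = 𝔼 β, f β := by
  rw [ex_cv', hk.2.1, one_mul]

lemma abs_cv_le (k f : S.G → ℝ) (hk : ∀ w, 0 ≤ k w) (β : S.G) :
    |S.cv k f β| ≤ S.cv k (fun β => |f β|) β := by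
  refine (abs_sum_le_sum_abs _ _).trans (le_of_eq ?_)
  exact sum_congr rfl fun w _ => by rw [abs_mul, abs_of_nonneg (hk w)]

lemma ex_abs (k f : S.G → ℝ) (hk : ∀ w, 0 ≤ k w) (h1 : ∑ w, k w ≤ 1) :
    𝔼 β, |S.cv k f β| ≤ 𝔼 β, |f β| := by
  refine (expect_le_expect fun β _ => abs_cv_le S k f hk β).trans ?_
  rw [ex_cv']
  exact mul_le_of_le_one_left (expect_nonneg fun β _ => abs_nonneg _) h1

lemma cv_le (k f : S.G → ℝ) (r : ℝ) (hk : S.Mk k) (h : ∀ β, f β ≤ r) (β : S.G) :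
    S.cv k f β ≤ r := by
  calc S.cv k f β ≤ ∑ w, k w * r :=
        sum_le_sum fun w _ => mul_le_mul_of_nonneg_left (h _) (hk.1 w)
    _ = r := by rw [← sum_mul, hk.2.1, one_mul]

lemma le_cv (k f : S.G → ℝ) (r : ℝ) (hk : S.Mk k) (h : ∀ β, r ≤ f β) (β : S.G) :
    r ≤ S.cv k f β := by
  calc r = ∑ w, k w * r := by rw [← sum_mul, hk.2.1, one_mul]
    _ ≤ S.cv k f β := sum_le_sum fun w _ => mul_le_mul_of_nonneg_left (h _) (hk.1 w)

lemma abs_cv (k f : S.G → ℝ) (r : ℝ) (hk : S.Mk k) (h : ∀ β, |f β| ≤ r) (β : S.G) :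
    |S.cv k f β| ≤ r :=
  (abs_cv_le S k f hk.1 β).trans (cv_le S k _ r hk h β)

lemma cv_cs (k θ g : S.G → ℝ) (hk : S.Mk k) (hθ : ∀ β, 0 ≤ θ β) (β : S.G) :
    S.cv k (fun β => θ β * g β) β ^ 2 ≤ S.cv k θ β * S.cv k (fun β => θ β * g β ^ 2) β :=
  sum_sq_le_sum_mul_sum_of_sq_le_mul univ (fun w _ => mul_nonneg (hk.1 w) (hθ _))
    (fun w _ => mul_nonneg (hk.1 w) (mul_nonneg (hθ _) (sq_nonneg _))) fun w _ => le_of_eq (by ring)

lemma cv_sq (k g : S.G → ℝ) (hk : S.Mk k) (β : S.G) :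
    S.cv k g β ^ 2 ≤ S.cv k (fun β => g β ^ 2) β := by
  have h := cv_cs S k (fun _ => 1) g hk (fun _ => zero_le_one) β
  have h1 : S.cv k (fun _ => 1) β = 1 := by simp only [Sys.cv, mul_one, hk.2.1]
  simpa only [one_mul, h1] using h

lemma y_add (c : S.ι → ZMod S.q) (i : S.ι) (β w : S.G) :
    S.y c i (β + w) = S.y c i β + S.dot (S.nG i) w := by
  rw [Sys.y, Sys.y, dot_add, add_assoc]

lemma nG_ne (hS : S.WF) (i : S.ι) : S.nG i ≠ 0 := by
  obtain ⟨l, hl⟩ := hS.nz i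
  intro h
  have h1 : ((S.n i l : ℤ) : ZMod S.q) = 0 := congrFun h l
  rcases hS.ent i l with h2 | h2 | h2
  · exact hl h2
  · rw [h2, Int.cast_one] at h1
    exact one_ne_zero h1
  · rw [h2, Int.cast_neg, Int.cast_one, neg_eq_zero] at h1
    exact one_ne_zero h1

lemma y_unif (hS : S.WF) (c : S.ι → ZMod S.q) (i : S.ι) (φ : ZMod S.q → ℝ) :
    𝔼 β, φ (S.y c i β) = 𝔼 z, φ z := by
  have h := Vale.Agent.P318.R.expect_dot (nG_ne S hS i) (fun u => φ (c i + u))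
  have h2 : 𝔼 z, φ (c i + z) = 𝔼 z, φ z :=
    Fintype.expect_equiv (Equiv.addLeft (c i)) _ _ fun _ => rfl
  rw [← h2, ← h]
  exact expect_congr rfl fun β _ => by rw [Sys.y, dot_comm]; rfl

lemma mem_J (P : S.P) (i : S.ι) (b : S.B) (hb : b ∈ S.Bl P) : i ∈ S.J b ↔ S.pb P i = b := by
  have h : S.own b = P := (mem_filter.1 hb).2
  simp only [Sys.J, mem_filter, mem_univ, true_and, h]

lemma pb_mem (hS : S.WF) (P : S.P) (i : S.ι) : S.pb P i ∈ S.Bl P ∧ i ∈ S.J (S.pb P i) := by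
  have h : S.pb P i ∈ S.Bl P := mem_filter.2 ⟨mem_univ _, hS.own_pb P i⟩
  exact ⟨h, (mem_J S P i _ h).2 rfl⟩

lemma sum_J (hS : S.WF) (P : S.P) (g : S.ι → ℝ) :
    ∑ b ∈ S.Bl P, ∑ i ∈ S.J b, g i = ∑ i, g i := by
  rw [← sum_fiberwise_of_maps_to (s := univ) (t := S.Bl P) (g := S.pb P)
    (fun i _ => (pb_mem S hS P i).1) g]
  refine sum_congr rfl fun b hb => sum_congr ?_ fun _ _ => rfl
  ext i
  rw [mem_J S P i b hb]
  simp

lemma sum_Lb (P : S.P) (g : S.Λ → ℝ) :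
    ∑ b ∈ S.Bl P, ∑ l ∈ S.Lb b, g l = ∑ l ∈ S.LP P, g l := by
  rw [← sum_fiberwise_of_maps_to (s := S.LP P) (t := S.Bl P) (g := S.blk)
    (fun l hl => mem_filter.2 ⟨mem_univ _, (mem_filter.1 hl).2⟩) g]
  refine sum_congr rfl fun b hb => sum_congr ?_ fun _ _ => rfl
  have h : S.own b = P := (mem_filter.1 hb).2
  ext l
  simp only [Sys.Lb, Sys.LP, mem_filter, mem_univ, true_and]
  exact ⟨fun h1 => ⟨by rw [h1, h], h1⟩, fun h1 => h1.2⟩

lemma sum_n (hS : S.WF) (l : S.Λ) (x : S.ι → ℝ) :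
    ∑ i, (S.n i l : ℝ) * x i = ∑ i ∈ S.J (S.blk l), (S.n i l : ℝ) * x i := by
  refine (sum_subset (subset_univ _) fun i _ hi => ?_).symm
  have h : S.n i l = 0 := by
    by_contra h
    exact hi (mem_filter.2 ⟨mem_univ _, hS.supp i l h⟩)
  rw [h, Int.cast_zero, zero_mul]

lemma sum_Eb (hS : S.WF) (F : Fn S) (P : S.P) : ∑ b ∈ S.Bl P, F.Eb b ≤ F.EP P := by
  have h1 : ∀ b ∈ S.Bl P, F.Eb b =
      (∑ i ∈ S.J b, 𝔼 β, |F.a i β|) / √(S.D P) + ∑ l ∈ S.Lb b, 𝔼 β, |F.er l β| := by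
    intro b hb
    rw [Fn.Eb, (mem_filter.1 hb).2]
  rw [sum_congr rfl h1, sum_add_distrib, ← sum_div, sum_J S hS, sum_Lb, Fn.EP, Fn.I, Fn.Ee]
  exact add_le_add le_rfl (sum_le_sum_of_subset_of_nonneg (subset_univ _)
    fun l _ _ => expect_nonneg fun β _ => abs_nonneg (F.er l β))

lemma sum_act (P : S.P) (ξ : S.G) : ∑ b ∈ S.Bl P, ind (S.act b ξ) ≤ S.M := by
  have h1 : ∀ b ∈ S.Bl P, ind (S.act b ξ) ≤ ∑ _l ∈ S.Lb b, (1 : ℝ) := by
    intro b _
    unfold ind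
    split_ifs with h
    · obtain ⟨l, hl, -⟩ := h
      exact single_le_sum (f := fun _ => (1 : ℝ)) (fun _ _ => zero_le_one)
        (mem_filter.2 ⟨mem_univ l, hl⟩)
    · exact sum_nonneg fun _ _ => zero_le_one
  refine (sum_le_sum h1).trans ?_
  rw [sum_Lb, sum_const, nsmul_eq_mul, mul_one, Sys.M]
  exact Nat.cast_le.2 (card_le_univ _)

end BasicF

open BasicF in
theorem basic_proof : BasicStmt := fun S =>
  { hat_cv := hat_cv S
    hat_ln := hat_ln S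
    hat_Dl := hat_Dl S
    hat_shift := hat_shift S
    hat_sub := hat_sub S
    hat_mul := hat_mul S
    hat_sum := hat_sum S
    hat_zero := hat_zero S
    parseval := parseval S
    var_eq := var_eq S
    hat_inj := hat_inj S
    sy_inj := sy_inj S
    sum_ch := sum_ch S
    shift := shift S
    cv_comm := cv_comm S
    cv_adj := cv_adj S
    cv_sub := cv_sub S
    cv_add := cv_add S
    cv_mul := cv_mul S
    cv_sum := cv_sum S
    Dl_cv := Dl_cv S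
    ex_cv := ex_cv S
    ex_abs := ex_abs S
    cv_le := cv_le S
    le_cv := le_cv S
    abs_cv := abs_cv S
    cv_cs := cv_cs S
    cv_sq := cv_sq S
    y_add := y_add S
    y_unif := y_unif S
    mem_J := fun _ => mem_J S
    pb_mem := pb_mem S
    sum_J := sum_J S
    sum_Lb := sum_Lb S
    sum_n := sum_n S
    sum_Eb := sum_Eb S
    sum_act := sum_act S }

end Vale.Agent.P318.D
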