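import Vale.Agent.P318.RCode
import Vale.Agent.P318.Red

/-!
Track D: the finite crystalline model. Definitions.

The vertices are the points of `G = (ZMod q)^Λ`. Column `i` gives the residue
`y i β = c i + ⟨n i, β⟩`, and the vector of the relaxation is `(y i β).val / q`.
All operators are convolutions `cv k` with real kernels `k` on `G`.
-/

set_option linter.dupNamespace false

namespace Vale.Agent.P318.D

open Finset
open scoped BigOperators
open Vale.Agent.P318.R (ang)

/-- Indicator of a proposition. -/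
noncomputable def ind (p : Prop) : ℝ := open Classical in if p then 1 else 0

/-- The centred representative of a residue. -/
def cen {q : ℕ} (x : ZMod q) : ℝ := (x.valMinAbs : ℝ)

/-- The chordal length `(q / π) sin (π x / q)`. -/
noncomputable def dt {q : ℕ} (x : ZMod q) : ℝ := q / Real.pi * Real.sin (Real.pi * x.val / q)

/-- Clamping to `[-a, a]`. -/
noncomputable def cl (a v : ℝ) : ℝ := max (-a) (min a v)

/-- The odd tent: `v` for `|v| ≤ Λ`, zero for `|v| ≥ 2 Λ`, linear in between. -/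
noncomputable def tent (Λ v : ℝ) : ℝ := 2 * cl Λ v - cl (2 * Λ) v

/-- The kernel on `ZMod q` with symbol `I * tent Λ (a * cen x)`. -/
noncomputable def tk {q : ℕ} [NeZero q] (a Λ : ℝ) (z : ZMod q) : ℝ :=
  𝔼 x : ZMod q, tent Λ (a * cen x) * Real.sin (ang (x * z))

/-- The Fejer kernel of degree `κ`. -/
noncomputable def fej {q : ℕ} (κ : ℕ) (z : ZMod q) : ℝ :=
  ∑ j ∈ Ioo (-(κ : ℤ)) κ, (1 - |(j : ℝ)| / κ) * Real.cos (ang ((j : ZMod q) * z))

/-- The degree of the Fejer kernel at time `t`. -/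
noncomputable def kap (t : ℝ) : ℕ := ⌈8 / √t⌉₊ + 4

/-- The truncation level of the tent. -/
noncomputable def lam (t p D : ℝ) : ℝ := √(200 * p / (t * D))

/-- Sup norm error of the heavy part. -/
noncomputable def l0 (t p D : ℝ) : ℝ := 90 * √(p / (t * D))

/-- Euclidean bound of the heavy part. -/
noncomputable def c0 (t : ℝ) : ℝ := 5 / √t

/-- A system of columns with a block structure. -/
structure Sys where
  /-- the prime modulus -/
  q : ℕ
  hq : Fact q.Prime
  /-- coordinates -/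
  Λ : Type
  /-- columns -/
  ι : Type
  /-- blocks -/
  B : Type
  /-- partitions -/
  P : Type
  fΛ : Fintype Λ
  dΛ : DecidableEq Λ
  fι : Fintype ι
  dι : DecidableEq ι
  fB : Fintype B
  dB : DecidableEq B
  fP : Fintype P
  dP : DecidableEq P
  /-- the block of a coordinate -/
  blk : Λ → B
  /-- the partition to which a block belongs -/
  own : B → P
  /-- the block of a column in a partition -/
  pb : P → ι → B
  /-- the columns -/
  n : ι → Λ → ℤ
  /-- squared length of the part of a column in one block -/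
  ν : P → ℝ
  /-- sparsity of the restricted isometry property -/
  D : P → ℕ

instance (S : Sys) : Fact S.q.Prime := S.hq
instance (S : Sys) : Fintype S.Λ := S.fΛ
instance (S : Sys) : DecidableEq S.Λ := S.dΛ
instance (S : Sys) : Fintype S.ι := S.fι
instance (S : Sys) : DecidableEq S.ι := S.dι
instance (S : Sys) : Fintype S.B := S.fB
instance (S : Sys) : DecidableEq S.B := S.dB
instance (S : Sys) : Fintype S.P := S.fP
instance (S : Sys) : DecidableEq S.P := S.dP

namespace Sys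

variable (S : Sys)

/-- The group of vertices and of frequencies. -/
abbrev G : Type := S.Λ → ZMod S.q

/-- Number of columns. -/
def N : ℝ := Fintype.card S.ι

/-- Number of coordinates. -/
def M : ℝ := Fintype.card S.Λ

/-- The coordinates of a block. -/
def Lb (b : S.B) : Finset S.Λ := univ.filter fun l => S.blk l = b

/-- The columns of a block. -/
def J (b : S.B) : Finset S.ι := univ.filter fun i => S.pb (S.own b) i = b

/-- The blocks of a partition. -/
def Bl (P : S.P) : Finset S.B := univ.filter fun b => S.own b = P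

/-- The coordinates of a partition. -/
def LP (P : S.P) : Finset S.Λ := univ.filter fun l => S.own (S.blk l) = P

/-- Basic requirements. -/
structure WF : Prop where
  own_pb : ∀ P i, S.own (S.pb P i) = P
  ent : ∀ i l, S.n i l = 0 ∨ S.n i l = 1 ∨ S.n i l = -1
  supp : ∀ i l, S.n i l ≠ 0 → S.pb (S.own (S.blk l)) i = S.blk l
  nz : ∀ i, ∃ l, S.n i l ≠ 0
  one_le_ν : ∀ P, 1 ≤ S.ν P
  one_le_D : ∀ P, 1 ≤ S.D P
  big : 100 ≤ S.q

/-- Squared length of the part of `x` in the block `b`. -/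
def sq (b : S.B) (x : S.Λ → ℝ) : ℝ := ∑ l ∈ S.Lb b, x l ^ 2

/-- Inner product of the part of column `i` in the block `b` with `x`. -/
def dotb (i : S.ι) (b : S.B) (x : S.Λ → ℝ) : ℝ := ∑ l ∈ S.Lb b, (S.n i l : ℝ) * x l

/-- The combination of the columns in `T` with coefficients `x`. -/
def comb (T : Finset S.ι) (x : S.ι → ℝ) (l : S.Λ) : ℝ := ∑ i ∈ T, x i * (S.n i l : ℝ)

/-- Restricted isometry in every block. -/
def RIP (δ : ℝ) : Prop :=
  ∀ (b : S.B) (T : Finset S.ι), T ⊆ S.J b → T.card ≤ S.D (S.own b) → ∀ x : S.ι → ℝ,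
    (1 - δ) * S.ν (S.own b) * ∑ i ∈ T, x i ^ 2 ≤ S.sq b (S.comb T x) ∧
      S.sq b (S.comb T x) ≤ (1 + δ) * S.ν (S.own b) * ∑ i ∈ T, x i ^ 2

/-- The pairing on `G`. -/
def dot (ξ β : S.G) : ZMod S.q := ∑ l, ξ l * β l

/-- A column as a point of `G`. -/
def nG (i : S.ι) : S.G := fun l => (S.n i l : ZMod S.q)

/-- The part of a column in a block as a point of `G`. -/
def nv (i : S.ι) (b : S.B) : S.G := fun l => if S.blk l = b then (S.n i l : ZMod S.q) else 0

/-- The residue of column `i` at the vertex `β`. -/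
def y (c : S.ι → ZMod S.q) (i : S.ι) (β : S.G) : ZMod S.q := c i + S.dot (S.nG i) β

/-- The vertex lies on one of the two layers next to the hyperplane `i`. -/
def near (c : S.ι → ZMod S.q) (i : S.ι) (β : S.G) : Prop := S.y c i β = 0 ∨ S.y c i β = -1

/-- Centred representatives of a frequency. -/
def cv0 (ξ : S.G) : S.Λ → ℝ := fun l => cen (ξ l)

/-! ### Fourier analysis and convolution -/

/-- Characters. -/
noncomputable def ch (ξ β : S.G) : ℂ := ZMod.stdAddChar (S.dot ξ β)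

/-- Fourier coefficients. -/
noncomputable def hat (f : S.G → ℝ) (ξ : S.G) : ℂ :=
  𝔼 β, (f β : ℂ) * (starRingEnd ℂ) (S.ch ξ β)

/-- Spectral weights. -/
noncomputable def W (f : S.G → ℝ) (ξ : S.G) : ℝ := ‖S.hat f ξ‖ ^ 2

/-- Convolution with the kernel `k`. -/
def cv (k f : S.G → ℝ) (β : S.G) : ℝ := ∑ w, k w * f (β + w)

/-- The symbol of a kernel. -/
noncomputable def sy (k : S.G → ℝ) (ξ : S.G) : ℂ := ∑ w, (k w : ℂ) * S.ch ξ w

/-- Symmetric probability kernels. -/
def Mk (k : S.G → ℝ) : Prop := (∀ w, 0 ≤ k w) ∧ ∑ w, k w = 1 ∧ ∀ w, k (-w) = k w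

/-- Convolution along the line spanned by `v`. -/
def ln (φ : ZMod S.q → ℝ) (v : S.G) (f : S.G → ℝ) (β : S.G) : ℝ := ∑ z, φ z * f (β + z • v)

/-- The symmetric difference quotient in the coordinate `l`. -/
noncomputable def Dl (l : S.Λ) (f : S.G → ℝ) (β : S.G) : ℝ :=
  (S.q : ℝ) / 2 * (f (β + Pi.single l 1) - f (β - Pi.single l 1))

/-- The symbol of the heat kernel of the block `b`. -/
noncomputable def rs (s : ℝ) (b : S.B) (ξ : S.G) : ℝ :=
  Real.exp (-(s * ∑ l ∈ S.Lb b, dt (ξ l) ^ 2))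

/-- The heat kernel of the block `b`. -/
noncomputable def hk (s : ℝ) (b : S.B) (w : S.G) : ℝ := 𝔼 ξ, S.rs s b ξ * (S.ch ξ w).re

/-- Averaging over all coordinates of the blocks in `A`. -/
noncomputable def eA (A : Finset S.B) (w : S.G) : ℝ :=
  ind (∀ l, S.blk l ∉ A → w l = 0) / (S.q : ℝ) ^ (univ.filter fun l => S.blk l ∈ A).card

/-- The probability of the random set of blocks `A`. -/
def pA (τ : S.B → ℝ) (A : Finset S.B) : ℝ := ∏ b, if b ∈ A then τ b else 1 - τ b

/-- The noise kernel. -/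
noncomputable def nz (τ : S.B → ℝ) (w : S.G) : ℝ := ∑ A, S.pA τ A * S.eA A w

/-- The set of blocks `A` meets the pattern of column `i`. -/
def touch (i : S.ι) (A : Finset S.B) : Prop := ∃ P, S.pb P i ∈ A

/-- The part of the noise that touches the pattern of column `i`. -/
noncomputable def nzT (τ : S.B → ℝ) (i : S.ι) (w : S.G) : ℝ :=
  ∑ A, ind (S.touch i A) * S.pA τ A * S.eA A w

/-- The part of the noise that does not touch the pattern of column `i`. -/
noncomputable def nzN (τ : S.B → ℝ) (i : S.ι) (w : S.G) : ℝ :=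
  ∑ A, ind (¬ S.touch i A) * S.pA τ A * S.eA A w

/-- Average over the partitions in `R` of the averaging over the block of column `i`. -/
noncomputable def zk (R : Finset S.P) (i : S.ι) (w : S.G) : ℝ :=
  (∑ P ∈ R, S.eA {S.pb P i} w) / R.card

/-- The block is active in the frequency `ξ`. -/
def act (b : S.B) (ξ : S.G) : Prop := ∃ l, S.blk l = b ∧ ξ l ≠ 0

/-- The symbol of the noise. -/
noncomputable def mu (τ : S.B → ℝ) (ξ : S.G) : ℝ := ∏ b, (1 - τ b * ind (S.act b ξ))

/-- The fraction of the partitions in `R` in which the block of column `i` is active. -/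
noncomputable def om (R : Finset S.P) (i : S.ι) (ξ : S.G) : ℝ :=
  (∑ P ∈ R, ind (S.act (S.pb P i) ξ)) / R.card

/-- The mean number of active blocks of the partitions in `R`. -/
noncomputable def cnt (R : Finset S.P) (ξ : S.G) : ℝ :=
  (∑ P ∈ R, ∑ b ∈ S.Bl P, ind (S.act b ξ)) / R.card

/-- The columns that are seen by the frequency `ξ`. -/
noncomputable def Om (R : Finset S.P) (ε : ℝ) (ξ : S.G) : Finset S.ι :=
  open Classical in univ.filter fun i => ε ≤ S.om R i ξ

/-- Admissible noise rates. -/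
def Rate (τ : S.B → ℝ) : Prop := ∀ b, 0 ≤ τ b ∧ τ b ≤ 1

/-- Normalisation of the near-line kernel. -/
noncomputable def nrm (s : ℝ) (κ : ℕ) (i : S.ι) (b : S.B) : ℝ :=
  ∑ w, S.hk s b w * fej κ (S.dot (S.nv i b) w)

/-- The near-line kernel. -/
noncomputable def pk (s : ℝ) (κ : ℕ) (i : S.ι) (b : S.B) (w : S.G) : ℝ :=
  S.hk s b w * fej κ (S.dot (S.nv i b) w) / S.nrm s κ i b

/-- The near-line kernel at time `t` with ratio `a ^ 4` for the partition `P`. -/
noncomputable def pkt (a t : ℝ) (P : S.P) (i : S.ι) : S.G → ℝ :=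
  S.pk (2 * a ^ 4 * t / S.ν P) (kap t) i (S.pb P i)

/-- Its symbol. -/
noncomputable def pis (a t : ℝ) (P : S.P) (i : S.ι) (ξ : S.G) : ℝ := (S.sy (S.pkt a t P i) ξ).re

/-- Dual bound: at every vertex the vector `Y` is a sum of a vector with entries at most `ℓ` and a
vector of length at most `c`. -/
def DB (J : Finset S.ι) (Y : S.ι → S.G → ℝ) (ℓ c : ℝ) : Prop :=
  ∀ (β : S.G) (x : S.ι → ℝ),
    |∑ i ∈ J, x i * Y i β| ≤ ℓ * ∑ i ∈ J, |x i| + c * √(∑ i ∈ J, x i ^ 2)

/-- Lossless expansion of the partitions in `R` for sets of size at most `s`. -/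
def EXP (R : Finset S.P) (s η : ℝ) : Prop :=
  ∀ T : Finset S.ι, (T.card : ℝ) ≤ s →
    (1 - η) * R.card * T.card ≤ ∑ P ∈ R, ((T.image (S.pb P)).card : ℝ)

/-- All coordinates of the frequency are at most `Ξ`. -/
def low (Ξ : ℝ) (ξ : S.G) : Prop := ∀ l, |cen (ξ l)| ≤ Ξ

/-- Frequencies in the span of the columns. -/
def Lam (ξ : S.G) : Prop := ∀ γ : S.G, (∀ i, S.dot (S.nG i) γ = 0) → S.dot ξ γ = 0

/-- Minimal distance: active parts of frequencies are long. -/
def MinD (T : ℝ) (ξ : S.G) : Prop := ∀ b, S.act b ξ → S.ν (S.own b) ≤ T * S.sq b (S.cv0 ξ)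

/-- Numerical side conditions of the analytic part. -/
structure Num (δ T p Ξ : ℝ) (Sh : ℕ) : Prop where
  one_le_T : 1 ≤ T
  one_le_p : 1 ≤ p
  p_le_D : ∀ P, p ≤ S.D P
  one_le_Ξ : 1 ≤ Ξ
  wrap : 2 * S.M * Ξ < S.q
  sinc : 40 * Ξ ^ 2 ≤ δ * (S.q : ℝ) ^ 2
  last : T * S.M * Ξ ^ 2 ≤ 4 ^ Sh
  fine : ∀ P, 100 * S.ν P * 2 ^ Sh ≤ S.q

/-! ### Symbols of the test objects -/

/-- Squared symbol of the normalised gradient in the block `b`. -/
noncomputable def gs (b : S.B) (ξ : S.G) : ℝ :=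
  (∑ l ∈ S.Lb b, ((S.q : ℝ) * Real.sin (ang (ξ l))) ^ 2) / S.ν (S.own b)

/-- The weight of the block `b` in the shell `t`. -/
noncomputable def xw (t : ℝ) (b : S.B) (ξ : S.G) : ℝ :=
  t * S.rs (t / S.ν (S.own b)) b ξ ^ 2 * S.gs b ξ

/-- The symbol of the heavy part. -/
noncomputable def hs (t p : ℝ) (i : S.ι) (b : S.B) (ξ : S.G) : ℝ :=
  S.dotb i b (fun l => (S.q : ℝ) * Real.sin (ang (ξ l))) / S.ν (S.own b) -
    tent (lam t p (S.D (S.own b))) (2 * Real.pi / S.ν (S.own b) * cen (S.dot (S.nv i b) ξ))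

/-- The weight of column `i` of the block `b` in the shell `t`. -/
noncomputable def hw (t p : ℝ) (i : S.ι) (b : S.B) (ξ : S.G) : ℝ :=
  t * S.rs (t / S.ν (S.own b)) b ξ ^ 2 * S.hs t p i b ξ ^ 2

/-! ### Geometry -/

/-- The vector of the relaxation. -/
noncomputable def ph (c : S.ι → ZMod S.q) (β : S.G) (i : S.ι) : ℝ := ((S.y c i β).val : ℝ) / S.q

/-- The centred increment of column `i` along `γ`. -/
noncomputable def ep (γ : S.G) (i : S.ι) : ℝ := cen (S.dot (S.nG i) γ) / S.q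

/-- Squared distance of two vertices. -/
noncomputable def rho (c : S.ι → ZMod S.q) (u v : S.G) : ℝ := ∑ i, (S.ph c u i - S.ph c v i) ^ 2

/-- The inner product at the vertex `v`. -/
noncomputable def ip (c : S.ι → ZMod S.q) (u v w : S.G) : ℝ :=
  ∑ i, (S.ph c u i - S.ph c v i) * (S.ph c w i - S.ph c v i)

/-- The two vertices are in the same cell. -/
def same (c : S.ι → ZMod S.q) (u v : S.G) : Prop := ∀ i, |S.ph c u i - S.ph c v i| < 1 / 4

/-- The probability that a vertex is next to two hyperplanes. -/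
noncomputable def dn (c : S.ι → ZMod S.q) : ℝ :=
  𝔼 β, ind (∃ i j, i ≠ j ∧ S.near c i β ∧ S.near c j β)

/-- No increment vector is concentrated on few columns. -/
def Spread (Ne : ℝ) : Prop := ∀ (γ : S.G) (i : S.ι), Ne * |S.ep γ i| ≤ ∑ j, |S.ep γ j|

/-- Typical offsets. -/
structure Off (c : S.ι → ZMod S.q) (lm η : ℝ) : Prop where
  corr : ∀ u v w, -(η * S.rho c u v) - 4 * lm / η ≤ S.ip c u v w
  cross : ∀ u v, (∑ i, |S.ep (u - v) i|) / 2 - lm ≤
    ∑ i, ind (S.ph c u i - S.ph c v i ≠ S.ep (u - v) i)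
  hoef : ∀ u v w, -√(2 * lm * ∑ i, S.ep (u - v) i ^ 2) ≤
    ∑ i, S.ep (u - v) i * (S.ph c w i - S.ph c v i)
  dn_le : S.dn c ≤ 16 * S.N ^ 2 / (S.q : ℝ) ^ 2

/-- Representatives of the cells. -/
structure Rep (c : S.ι → ZMod S.q) (η : ℝ) (r : S.G → S.G) : Prop where
  close : ∀ u i, |S.ph c (r u) i - S.ph c u i| ≤ 1 / 100
  close2 : ∀ u, S.rho c (r u) u ≤ 1
  cell : ∀ u v, S.same c u v → r u = r v
  sep : ∀ u v, r u = r v ∨ 1 / 16 ≤ S.rho c (r u) (r v)
  acute : ∀ u v w, -(η * S.rho c (r u) (r v)) ≤ S.ip c (r u) (r v) (r w)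

/-- The partitions of level `k`. -/
def lv (lev : S.P → ℕ) (k : ℕ) : Finset S.P := univ.filter fun P => lev P = k

/-- The graded structure: level `0` is the dense block, the levels `1, …, L` have `d` partitions
each. -/
structure Grad (lev : S.P → ℕ) (P0 : S.P) (L d : ℕ) (Cm lg : ℝ) : Prop where
  lev_le : ∀ P, lev P ≤ L
  lev_zero : ∀ P, lev P = 0 ↔ P = P0
  one_le_d : 1 ≤ d
  card_lv : ∀ k, 1 ≤ k → k ≤ L → (S.lv lev k).card = d
  dense : (S.Bl P0).card ≤ 1
  blocks : ∀ P, ((S.Bl P).card : ℝ) ≤ Cm * 16 ^ lev P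
  dims : ∀ b, S.own b ≠ P0 → ((S.Lb b).card : ℝ) * 16 ^ lev (S.own b) ≤ 256 ^ L
  sparse : ∀ P, (256 : ℝ) ^ L ≤ lg * 16 ^ lev P * S.D P

/-- The parity checks: minimal distance in every block and the glue. -/
def Code (P0 : S.P) (T h : ℝ) : Prop :=
  ∀ ξ, S.Lam ξ → S.MinD T ξ ∧
    ((∀ b ∈ S.Bl P0, ¬ S.act b ξ) → ((univ.filter fun l => ξ l ≠ 0).card : ℝ) ≤ h → ξ = 0)

/-- Unit steps across the hyperplanes. -/
def Step (v : S.ι → S.G) : Prop :=
  ∀ i, ∃ l, S.n i l ≠ 0 ∧ v i = Pi.single l (S.n i l : ZMod S.q)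

/-- Indicator functions that are constant on the cells. -/
def Cell (c : S.ι → ZMod S.q) (f : S.G → ℝ) : Prop :=
  (∀ β, f β = 0 ∨ f β = 1) ∧ ∀ u v, S.same c u v → f u = f v

/-- The variance. -/
noncomputable def var (f : S.G → ℝ) : ℝ := (𝔼 β, f β ^ 2) - (𝔼 β, f β) ^ 2

end Sys

/-- A function together with its jumps across the hyperplanes. -/
structure Fn (S : Sys) where
  /-- offsets -/
  c : S.ι → ZMod S.q
  /-- the function -/
  f : S.G → ℝ
  /-- the jumps -/
  a : S.ι → S.G → ℝ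

/-- The jumps of a function that is constant on the cells. -/
noncomputable def jump (S : Sys) (c : S.ι → ZMod S.q) (v : S.ι → S.G) (f : S.G → ℝ) : Fn S where
  c := c
  f := f
  a := fun i β => ind (S.near c i β) * ((S.q : ℝ) / 2 * (f (β + v i) - f (β - v i)))

namespace Fn

variable {S : Sys} (F : Fn S)

/-- Basic requirements. -/
structure OK : Prop where
  nonneg : ∀ β, 0 ≤ F.f β
  le_one : ∀ β, F.f β ≤ 1
  lay : ∀ i β, F.a i β ≠ 0 → S.near F.c i β

/-- The error in the gradient identity. -/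
noncomputable def er (l : S.Λ) (β : S.G) : ℝ := S.Dl l F.f β - ∑ i, (S.n i l : ℝ) * F.a i β

/-- The total jump. -/
noncomputable def I : ℝ := ∑ i, 𝔼 β, |F.a i β|

/-- The total error. -/
noncomputable def Ee : ℝ := ∑ l, 𝔼 β, |F.er l β|

/-- The error unit of a block. -/
noncomputable def Eb (b : S.B) : ℝ :=
  (∑ i ∈ S.J b, 𝔼 β, |F.a i β|) / √(S.D (S.own b)) + ∑ l ∈ S.Lb b, 𝔼 β, |F.er l β|

/-- The error unit of a partition. -/
noncomputable def EP (P : S.P) : ℝ := F.I / √(S.D P) + F.Ee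

/-- The spectral mass of the high frequencies. -/
noncomputable def HM (Ξ : ℝ) : ℝ := ∑ ξ, S.W F.f ξ * ind (¬ S.low Ξ ξ)

/-- The negligible terms. -/
noncomputable def Ty (T p Ξ : ℝ) (Sh : ℕ) : ℝ :=
  (Sh + 1) * (S.N + S.M) *
    (F.HM Ξ + Real.exp (-p) + T * S.M ^ 2 * Ξ ^ 6 / (S.q : ℝ) ^ 4 + T * F.I / S.q)

/-- The spectral weights after the noise. -/
noncomputable def Wm (τ : S.B → ℝ) (ξ : S.G) : ℝ := S.W F.f ξ * S.mu τ ξ ^ 2

/-- The smoothed function for the block `b`. -/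
noncomputable def g (τ : S.B → ℝ) (t : ℝ) (b : S.B) : S.G → ℝ :=
  S.cv (S.hk (t / S.ν (S.own b)) b) (S.cv (S.nz τ) F.f)

/-- The normalised gradient. -/
noncomputable def V (τ : S.B → ℝ) (t : ℝ) (l : S.Λ) (β : S.G) : ℝ :=
  S.Dl l (F.g τ t (S.blk l)) β / √(S.ν (S.own (S.blk l)))

/-- The smoothed jumps. -/
noncomputable def al (τ : S.B → ℝ) (t : ℝ) (P : S.P) (i : S.ι) : S.G → ℝ :=
  S.cv (S.hk (t / S.ν P) (S.pb P i)) (S.cv (S.nz τ) (F.a i))

/-- The gradient along column `i`. -/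
noncomputable def U (τ : S.B → ℝ) (t : ℝ) (P : S.P) (i : S.ι) (β : S.G) : ℝ :=
  S.dotb i (S.pb P i) (fun l => F.V τ t l β) / √(S.ν P)

/-- Its light part. -/
noncomputable def UL (τ : S.B → ℝ) (t p : ℝ) (P : S.P) (i : S.ι) : S.G → ℝ :=
  S.ln (tk (2 * Real.pi / S.ν P) (lam t p (S.D P))) (S.nv i (S.pb P i)) (F.g τ t (S.pb P i))

/-- Its heavy part. -/
noncomputable def UH (τ : S.B → ℝ) (t p : ℝ) (P : S.P) (i : S.ι) (β : S.G) : ℝ :=
  F.U τ t P i β - F.UL τ t p P i β

/-- The test vector. -/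
noncomputable def X (τ : S.B → ℝ) (t p : ℝ) (P : S.P) (R : Finset S.P) (i : S.ι) (β : S.G) : ℝ :=
  F.UH τ t p P i β - S.cv (S.zk R i) (F.UH τ t p P i) β

/-- The test vector without its near-line part. -/
noncomputable def X1 (a : ℝ) (τ : S.B → ℝ) (t p : ℝ) (P : S.P) (R : Finset S.P) (i : S.ι)
    (β : S.G) : ℝ :=
  F.X τ t p P R i β - S.cv (S.pkt a t P i) (F.X τ t p P R i) β

/-- The energy of the gradient. -/
noncomputable def Bt (τ : S.B → ℝ) (t : ℝ) (P : S.P) : ℝ := ∑ l ∈ S.LP P, 𝔼 β, F.V τ t l β ^ 2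

/-- The main error term: `m`, `E` belong to the test partition, `m'`, `E'` to the identifying
partitions. -/
noncomputable def Er (p : ℝ) (P : S.P) (m m' E' : ℝ) : ℝ :=
  √(p / S.D P) * F.I + √m * E' + √m' * F.EP P

end Fn

/-- Squared norm of a family of functions. -/
noncomputable def nsq {S : Sys} (Y : S.ι → S.G → ℝ) : ℝ := ∑ i, 𝔼 β, Y i β ^ 2

/-- Size conditions for a family `R` of partitions. -/
structure Fam {S : Sys} (F : Fn S) (R : Finset S.P) (m E : ℝ) : Prop where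
  ne : R.Nonempty
  one_le : 1 ≤ m
  blocks : ∀ P ∈ R, ((S.Bl P).card : ℝ) ≤ m
  err : ∀ P ∈ R, F.EP P ≤ E

end Vale.Agent.P318.D
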