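import Vale.Agent.P318.D.Stmt

/-!
Track D: the gradient identity, the high frequencies and the support of the spectrum.
-/

namespace Vale.Agent.P318.D

open Finset
open scoped BigOperators
open Vale.Agent.P318.R (ang)

namespace Model

lemma ind_pos {p : Prop} (h : p) : ind p = 1 := by simp [ind, h]

lemma ind_neg {p : Prop} (h : ¬ p) : ind p = 0 := by simp [ind, h]

lemma ind_nonneg (p : Prop) : 0 ≤ ind p := by
  by_cases h : p <;> simp [ind, h]

lemma val_step {q : ℕ} [NeZero q] (hq : 2 ≤ q) {y : ZMod q} (h0 : y ≠ 0) (h1 : y ≠ -1) {s : ℤ}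
    (hs : s = 0 ∨ s = 1 ∨ s = -1) : |(((y + s).val : ℕ) : ℝ) - y.val| ≤ 1 := by
  have : Fact (1 < q) := ⟨hq⟩
  have key : ∀ x : ZMod q, x ≠ -1 → (x + 1).val = x.val + 1 := by
    intro x hx
    have hlt : x.val + (1 : ZMod q).val < q := by
      rw [ZMod.val_one]
      have h := ZMod.val_lt x
      rcases Nat.lt_or_ge (x.val + 1) q with h' | h'
      · exact h'
      · exfalso
        apply hx
        have e : x.val + 1 = q := by omega
        have : ((x.val + 1 : ℕ) : ZMod q) = 0 := by rw [e]; exact ZMod.natCast_self q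
        push_cast at this
        rw [ZMod.natCast_zmod_val] at this
        exact eq_neg_of_add_eq_zero_left this
    rw [ZMod.val_add_of_lt hlt, ZMod.val_one]
  rcases hs with rfl | rfl | rfl
  · simp
  · rw [Int.cast_one, key y h1]; simp
  · have h : y + ((-1 : ℤ) : ZMod q) ≠ -1 := by
      intro h; apply h0; simpa using h
    have := key _ h
    have e : y + ((-1 : ℤ) : ZMod q) + 1 = y := by simp
    rw [e] at this
    rw [this]; simp

variable {S : Sys}

/-- Steps which move every residue by at most one. -/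
def Unit (S : Sys) (w : S.G) : Prop :=
  ∀ j, ∃ s : ℤ, (s = 0 ∨ s = 1 ∨ s = -1) ∧ S.dot (S.nG j) w = s

lemma dot_single (ξ : S.G) (l : S.Λ) (t : ZMod S.q) : S.dot ξ (Pi.single l t) = ξ l * t := by
  unfold Sys.dot
  rw [sum_eq_single l]
  · simp
  · intro b _ hb; simp [Pi.single_eq_of_ne hb]
  · simp

lemma dot_neg (ξ w : S.G) : S.dot ξ (-w) = -S.dot ξ w := by
  simp [Sys.dot]

lemma unit_zero : Unit S 0 := fun _ => ⟨0, Or.inl rfl, by simp [Sys.dot]⟩

lemma unit_neg {w : S.G} (h : Unit S w) : Unit S (-w) := fun j => by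
  obtain ⟨s, hs, e⟩ := h j
  refine ⟨-s, by omega, ?_⟩
  rw [dot_neg, e]; simp

lemma unit_single (hW : S.WF) (l : S.Λ) {t : ℤ} (ht : t = 0 ∨ t = 1 ∨ t = -1) :
    Unit S (Pi.single l (t : ZMod S.q)) := fun j => by
  refine ⟨S.n j l * t, ?_, ?_⟩
  · rcases hW.ent j l with h | h | h <;> rcases ht with rfl | rfl | rfl <;> simp [h]
  · rw [dot_single]; simp [Sys.nG]

lemma unit_e (hW : S.WF) (l : S.Λ) : Unit S (Pi.single l 1) := by
  simpa using unit_single hW l (t := 1) (by simp)

lemma same_of (hB : Basic S) (hW : S.WF) (c : S.ι → ZMod S.q) (β : S.G) {w w' : S.G}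
    (hw : Unit S w) (hw' : Unit S w')
    (h : ∀ j, ¬ S.near c j β ∨ S.dot (S.nG j) w = S.dot (S.nG j) w') :
    S.same c (β + w) (β + w') := by
  intro j
  unfold Sys.ph
  rw [hB.y_add, hB.y_add]
  rcases h j with h | h
  · obtain ⟨s, hs, e⟩ := hw j
    obtain ⟨s', hs', e'⟩ := hw' j
    have hq : (100 : ℝ) ≤ S.q := by exact_mod_cast hW.big
    have h2 : 2 ≤ S.q := le_trans (by norm_num) hW.big
    unfold Sys.near at h
    push Not at h
    have a := val_step h2 h.1 h.2 hs
    have b := val_step h2 h.1 h.2 hs'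
    rw [e, e', ← sub_div, abs_div, abs_of_pos (by linarith : (0 : ℝ) < S.q),
      div_lt_iff₀ (by linarith)]
    rw [abs_le] at a b
    rw [abs_lt]
    constructor <;> linarith [a.1, a.2, b.1, b.2]
  · rw [h]; simp

lemma abs_sub_le {c : S.ι → ZMod S.q} {f : S.G → ℝ} (hf : S.Cell c f) (x y : S.G) :
    |f x - f y| ≤ 1 := by
  rcases hf.1 x with h | h <;> rcases hf.1 y with h' | h' <;> simp [h, h']

lemma er_zero (hB : Basic S) (hW : S.WF) {c : S.ι → ZMod S.q} {v : S.ι → S.G} {f : S.G → ℝ}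
    (hv : S.Step v) (hf : S.Cell c f) (l : S.Λ) (β : S.G)
    (h : ¬ ∃ i j, i ≠ j ∧ S.near c i β ∧ S.near c j β) : (jump S c v f).er l β = 0 := by
  have he := unit_e hW l
  have hne := unit_neg he
  unfold Fn.er Sys.Dl jump
  simp only [sub_eq_add_neg β]
  by_cases hn : ∃ i, S.near c i β
  · obtain ⟨i, hi⟩ := hn
    have ho : ∀ j, j ≠ i → ¬ S.near c j β := fun j hj hj' => h ⟨j, i, hj, hj', hi⟩
    rw [sum_eq_single i (fun j _ hj => by rw [ind_neg (ho j hj)]; simp) (by simp), ind_pos hi]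
    obtain ⟨l', hl', e⟩ := hv i
    have hu : Unit S (v i) := e ▸ unit_single hW l' (hW.ent i l')
    have hvi : S.dot (S.nG i) (v i) = 1 := by
      rw [e, dot_single]
      rcases hW.ent i l' with h' | h' | h'
      · exact absurd h' hl'
      · simp [Sys.nG, h']
      · simp [Sys.nG, h']
    have hei : S.dot (S.nG i) (Pi.single l 1) = (S.n i l : ZMod S.q) := by
      rw [dot_single]; simp [Sys.nG]
    have gen : ∀ {w w' : S.G}, Unit S w → Unit S w' →
        S.dot (S.nG i) w = S.dot (S.nG i) w' → f (β + w) = f (β + w') := by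
      intro w w' hw hw' e'
      refine hf.2 _ _ (same_of hB hW c β hw hw' fun j => ?_)
      by_cases hj : j = i
      · subst hj; exact Or.inr e'
      · exact Or.inl (ho j hj)
    rcases hW.ent i l with h' | h' | h'
    · rw [gen he hne (by rw [dot_neg, hei, h']; simp), h']; simp
    · rw [gen he hu (by rw [hei, hvi, h']; simp),
        gen hne (unit_neg hu) (by rw [dot_neg, dot_neg, hei, hvi, h']; simp), h']
      simp
    · rw [gen he (unit_neg hu) (by rw [dot_neg, hei, hvi, h']; simp),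
        gen hne hu (by rw [dot_neg, hei, hvi, h']; simp), h']
      push_cast; ring
  · push Not at hn
    rw [hf.2 _ _ (same_of hB hW c β he hne fun j => Or.inl (hn j))]
    simp [ind_neg (hn _)]

lemma er_le (hB : Basic S) (hW : S.WF) {c : S.ι → ZMod S.q} {v : S.ι → S.G} {f : S.G → ℝ}
    (hv : S.Step v) (hf : S.Cell c f) (l : S.Λ) (β : S.G) :
    |(jump S c v f).er l β| ≤
      S.q * S.N * ind (∃ i j, i ≠ j ∧ S.near c i β ∧ S.near c j β) := by
  by_cases h : ∃ i j, i ≠ j ∧ S.near c i β ∧ S.near c j β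
  · rw [ind_pos h, mul_one]
    obtain ⟨i, -⟩ := h
    have hN : (1 : ℝ) ≤ S.N := by
      unfold Sys.N
      exact_mod_cast Fintype.card_pos_iff.2 ⟨i⟩
    have hq : (0 : ℝ) ≤ S.q := by positivity
    have h1 : ∀ x y, |(S.q : ℝ) / 2 * (f x - f y)| ≤ S.q / 2 := fun x y => by
      rw [abs_mul, abs_of_nonneg (by positivity)]
      exact mul_le_of_le_one_right (by positivity) (abs_sub_le hf x y)
    have h2 : |∑ j, (S.n j l : ℝ) * (jump S c v f).a j β| ≤ S.N * (S.q / 2) := by
      refine (abs_sum_le_sum_abs _ _).trans ?_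
      refine (sum_le_card_nsmul _ _ ((S.q : ℝ) / 2) fun j _ => ?_).trans ?_
      · have a : |(S.n j l : ℝ)| ≤ 1 := by
          rcases hW.ent j l with h' | h' | h' <;> simp [h']
        have b : |(jump S c v f).a j β| ≤ S.q / 2 := by
          by_cases hj : S.near c j β
          · simpa [jump, ind_pos hj] using h1 _ _
          · simp only [jump, ind_neg hj, zero_mul, abs_zero]; positivity
        rw [abs_mul]
        calc _ ≤ 1 * ((S.q : ℝ) / 2) := mul_le_mul a b (abs_nonneg _) zero_le_one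
          _ = _ := one_mul _
      · simp [Sys.N]
    have h3 := h1 (β + Pi.single l 1) (β - Pi.single l 1)
    calc |(jump S c v f).er l β| ≤ S.q / 2 + S.N * (S.q / 2) :=
          (abs_sub _ _).trans (add_le_add h3 h2)
      _ ≤ S.q * S.N := by nlinarith
  · rw [er_zero hB hW hv hf l β h, ind_neg h]; simp

lemma ex_near (hB : Basic S) (hW : S.WF) (c : S.ι → ZMod S.q) (i : S.ι) :
    𝔼 β, ind (S.near c i β) ≤ 2 / S.q := by
  have h := hB.y_unif hW c i fun z => ind (z = 0 ∨ z = -1)
  refine (le_of_eq h).trans ?_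
  rw [expect_eq_sum_div_card, card_univ, ZMod.card]
  refine div_le_div_of_nonneg_right ?_ (by positivity)
  calc ∑ z : ZMod S.q, ind (z = 0 ∨ z = -1)
      ≤ ∑ z : ZMod S.q, ((if z = 0 then (1 : ℝ) else 0) + if z = -1 then (1 : ℝ) else 0) := by
        refine sum_le_sum fun z _ => ?_
        by_cases h0 : z = 0
        · rw [ind_pos (Or.inl h0), if_pos h0]; split_ifs <;> norm_num
        · by_cases h1 : z = -1
          · rw [ind_pos (Or.inr h1), if_neg h0, if_pos h1]; norm_num
          · rw [ind_neg (by tauto), if_neg h0, if_neg h1]; norm_num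
    _ = 2 := by rw [sum_add_distrib]; simp; norm_num

lemma norm_char (q : ℕ) [NeZero q] (x : ZMod q) :
    ‖(ZMod.stdAddChar x : ℂ) - 1‖ ^ 2 = 4 * Real.pi ^ 2 * dt x ^ 2 / (q : ℝ) ^ 2 := by
  have hq : (0 : ℝ) < q := by exact_mod_cast Nat.pos_of_ne_zero (NeZero.ne q)
  rw [R.stdAddChar_eq, mul_comm, Complex.norm_exp_I_mul_ofReal_sub_one, Real.norm_eq_abs, sq_abs]
  unfold dt ang
  have : 2 * Real.pi * (x.val : ℝ) / q / 2 = Real.pi * x.val / q := by ring
  rw [this]
  have := Real.pi_pos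
  field_simp
  ring

lemma sum_cen (hB : Basic S) (hT : TrigStmt) (hW : S.WF) {c : S.ι → ZMod S.q} {f : S.G → ℝ}
    (hf : S.Cell c f) (l : S.Λ) : ∑ ξ, S.W f ξ * cen (ξ l) ^ 2 ≤ S.N * S.q := by
  have hq : (0 : ℝ) < S.q := by
    have := hW.big
    exact_mod_cast (by omega : 0 < S.q)
  have h1 : 𝔼 β, (f (β + Pi.single l 1) - f β) ^ 2 ≤ S.N * (2 / S.q) := by
    calc 𝔼 β, (f (β + Pi.single l 1) - f β) ^ 2 ≤ 𝔼 β, ∑ i, ind (S.near c i β) := by
          refine expect_le_expect fun β _ => ?_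
          by_cases hn : ∃ i, S.near c i β
          · obtain ⟨i, hi⟩ := hn
            have a : (f (β + Pi.single l 1) - f β) ^ 2 ≤ 1 :=
              (sq_le_one_iff_abs_le_one _).2 (abs_sub_le hf _ _)
            refine a.trans ?_
            rw [← ind_pos hi]
            exact single_le_sum (f := fun j => ind (S.near c j β)) (fun j _ => ind_nonneg _)
              (mem_univ i)
          · push Not at hn
            have := hf.2 _ _ (same_of hB hW c β (unit_e hW l) unit_zero fun j => Or.inl (hn j))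
            rw [add_zero] at this
            rw [this, sub_self, zero_pow two_ne_zero]
            exact sum_nonneg fun j _ => ind_nonneg _
      _ = ∑ i, 𝔼 β, ind (S.near c i β) := by rw [expect_sum_comm]
      _ ≤ S.N * (2 / S.q) := by
          refine (sum_le_card_nsmul _ _ _ fun i _ => ex_near hB hW c i).trans ?_
          simp [Sys.N]
  rw [hB.parseval] at h1
  have h2 : ∀ ξ, S.W f ξ * cen (ξ l) ^ 2 ≤
      (S.q : ℝ) ^ 2 / 2 * S.W (fun β => f (β + Pi.single l 1) - f β) ξ := by
    intro ξ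
    have e : S.W (fun β => f (β + Pi.single l 1) - f β) ξ =
        4 * Real.pi ^ 2 * dt (ξ l) ^ 2 / (S.q : ℝ) ^ 2 * S.W f ξ := by
      have e1 := hB.hat_sub (fun β => f (β + Pi.single l 1)) f ξ
      rw [hB.hat_shift, ← sub_one_mul] at e1
      unfold Sys.W
      erw [e1]
      rw [norm_mul, mul_pow, Sys.ch, dot_single, mul_one, norm_char]
    have hW0 : 0 ≤ S.W f ξ := by unfold Sys.W; positivity
    have ht := (hT S.q).1 (ξ l)
    have hp : 4 ≤ Real.pi ^ 2 := by nlinarith [Real.two_le_pi]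
    have a : cen (ξ l) ^ 2 ≤ 2 * Real.pi ^ 2 * dt (ξ l) ^ 2 := by
      nlinarith [sq_nonneg (dt (ξ l))]
    rw [e]
    calc S.W f ξ * cen (ξ l) ^ 2 ≤ S.W f ξ * (2 * Real.pi ^ 2 * dt (ξ l) ^ 2) :=
          mul_le_mul_of_nonneg_left a hW0
      _ = _ := by field_simp; ring
  calc ∑ ξ, S.W f ξ * cen (ξ l) ^ 2
      ≤ ∑ ξ, (S.q : ℝ) ^ 2 / 2 * S.W (fun β => f (β + Pi.single l 1) - f β) ξ :=
        sum_le_sum fun ξ _ => h2 ξ
    _ ≤ (S.q : ℝ) ^ 2 / 2 * (S.N * (2 / S.q)) := by
        rw [← mul_sum]; exact mul_le_mul_of_nonneg_left h1 (by positivity)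
    _ = S.N * S.q := by field_simp

end Model

open Model in
theorem model_proof (hB : BasicStmt) (hT : TrigStmt) : ModelStmt := by
  intro S c v f hW hv hf
  have hB := hB S
  refine ⟨⟨fun β => ?_, fun β => ?_, fun i β h => ?_⟩, ?_, fun Ξ hΞ => ?_, fun ξ hξ γ hγ => ?_⟩
  · rcases hf.1 β with h | h <;> simp [jump, h]
  · rcases hf.1 β with h | h <;> simp [jump, h]
  · by_contra hn
    have hn' : ¬ S.near c i β := hn
    exact h (by simp [jump, ind_neg hn'])
  · unfold Fn.Ee
    refine (sum_le_card_nsmul _ _ (S.q * S.N * S.dn c) fun l _ => ?_).trans ?_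
    · unfold Sys.dn
      rw [mul_expect]
      exact expect_le_expect fun β _ => er_le hB hW hv hf l β
    · simp [Sys.M, mul_assoc]
  · unfold Fn.HM
    calc ∑ ξ, S.W (jump S c v f).f ξ * ind (¬ S.low Ξ ξ)
        ≤ ∑ ξ : S.G, ∑ l, S.W f ξ * cen (ξ l) ^ 2 / Ξ ^ 2 := by
          refine sum_le_sum fun ξ _ => ?_
          have hW0 : 0 ≤ S.W f ξ := by unfold Sys.W; positivity
          by_cases hl : S.low Ξ ξ
          · rw [ind_neg (not_not.2 hl), mul_zero]
            exact sum_nonneg fun l _ => by positivity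
          · rw [ind_pos hl, mul_one]
            unfold Sys.low at hl
            push Not at hl
            obtain ⟨l, hl⟩ := hl
            refine le_trans ?_ (single_le_sum
              (f := fun l => S.W f ξ * cen (ξ l) ^ 2 / Ξ ^ 2) (fun l _ => by positivity)
              (mem_univ l))
            have a : Ξ ^ 2 ≤ cen (ξ l) ^ 2 := by
              rw [← sq_abs (cen _)]; exact pow_le_pow_left₀ hΞ.le hl.le 2
            rw [le_div_iff₀ (by positivity)]
            exact mul_le_mul_of_nonneg_left a hW0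
      _ = ∑ l, (∑ ξ : S.G, S.W f ξ * cen (ξ l) ^ 2) / Ξ ^ 2 := by
          rw [sum_comm]; simp only [sum_div]
      _ ≤ S.M * S.N * S.q / Ξ ^ 2 := by
          refine (sum_le_card_nsmul _ _ (S.N * S.q / Ξ ^ 2) fun l _ =>
            div_le_div_of_nonneg_right (sum_cen hB hT hW hf l) (by positivity)).trans ?_
          simp only [Sys.M, card_univ, nsmul_eq_mul]
          exact le_of_eq (by ring)
  · have e : (fun β => f (β + γ)) = f := by
      funext β
      refine hf.2 _ _ fun i => ?_
      unfold Sys.ph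
      rw [hB.y_add, hγ i]; simp
    have h := hB.hat_shift f γ ξ
    rw [e] at h
    have hne : S.hat f ξ ≠ 0 := by
      intro h0; apply hξ; simp [Sys.W, h0]
    have h1 : S.ch ξ γ = 1 := by
      have : (S.ch ξ γ - 1) * S.hat f ξ = 0 := by rw [sub_mul, ← h]; ring
      exact sub_eq_zero.1 ((mul_eq_zero.1 this).resolve_right hne)
    apply ZMod.injective_stdAddChar
    rw [AddChar.map_zero_eq_one]
    exact h1

end Vale.Agent.P318.D
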