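import Vale.Agent.P318.D.Stmt
import Vale.Agent.P318.RAff
import Vale.Agent.P318.RHash

/-!
Track D: the parts of the proof that the systems exist.
-/

set_option linter.dupNamespace false

namespace Vale.Agent.P318.D

open Finset
open scoped BigOperators
open Vale.Agent.P318.R

/-- The system with other columns. -/
abbrev Sys.wn (S : Sys) (n : S.ι → S.Λ → ℤ) : Sys := { S with n := n }

/-- The coordinates of a block, as a type. -/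
abbrev Sys.Co (S : Sys) (b : S.B) : Type := {l : S.Λ // S.blk l = b}

/-- The dimension of a block. -/
abbrev Sys.dim (S : Sys) (b : S.B) : ℝ := Fintype.card (S.Co b)

namespace Sy

/-- Random partitions: expansion and large blocks. -/
def HashStmt : Prop :=
  ∀ (ι Q : Type) [Fintype ι] [DecidableEq ι] [Fintype Q] [DecidableEq Q] (m : Q → ℕ) (L : ℕ)
    (R : ℕ → Finset Q) (s : ℕ → ℝ) (η : ℝ), 0 < η → (∀ a, 1 ≤ m a) →
    (∀ k, 1 ≤ k → k ≤ L → ∀ a ∈ R k, 8 * s k ≤ η * m a) →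
    (∀ k, 1 ≤ k → k ≤ L → 8 * Real.log (Fintype.card ι) ≤ η * (R k).card) →
    4 * L + 4 ≤ Fintype.card ι → 64 * (∑ a, m a) ^ 2 ≤ Fintype.card ι →
    ∃ π : (a : Q) → ι → Fin (m a),
      (∀ k, 1 ≤ k → k ≤ L → ∀ T : Finset ι, (T.card : ℝ) ≤ s k →
        (1 - η) * (R k).card * T.card ≤ ∑ a ∈ R k, ((T.image (π a)).card : ℝ)) ∧
      ∀ a v, (Fintype.card ι : ℝ) ≤ 2 * m a * (univ.filter fun i => π a i = v).card

/-- The check vectors `W b a`: restricted to the block `b` they form a good parity check matrix,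
and only the checks of the block `b0` have entries outside of their block. -/
structure Chk (S : Sys) (b0 : S.B) (r : S.B → ℕ) (W : (b : S.B) → Fin (r b) → S.G) : Prop where
  far : ∀ b, DualFar fun a (l : S.Co b) => W b a l
  rate : ∀ b, (S.q : ℝ) ^ r b ≤ Real.exp (S.dim b / 50)
  loc : ∀ b, b ≠ b0 → ∀ a l, S.blk l ≠ b → W b a l = 0

/-- Existence of the checks. -/
def ChkStmt : Prop :=
  ∀ (S : Sys) (b0 : S.B) (h : ℕ), (∀ b, 400 ≤ S.dim b) → (∀ b, 200 * Real.log S.q ≤ S.dim b) →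
    S.M ≤ S.q → 100 * h * Real.log S.q ≤ S.dim b0 →
    ∃ (r : S.B → ℕ) (W : (b : S.B) → Fin (r b) → S.G), Chk S b0 r W ∧
      ∀ ξ : S.G, (∀ b a, S.dot ξ (W b a) = 0) →
        (∀ b, S.act b ξ → S.dim b ≤ 10000 * S.sq b (S.cv0 ξ)) ∧
        (¬ S.act b0 ξ → (univ.filter fun l => ξ l ≠ 0).card ≤ h → ξ = 0)

/-- The length of a point of a fibre. -/
def NormStmt : Prop :=
  ∀ (p : ℕ) [Fact p.Prime] (ι κ : Type) [Fintype ι] [DecidableEq ι] [Fintype κ] [DecidableEq κ]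
    (H : κ → ι → ZMod p) (u : κ → ZMod p) (ε : ℝ), DualFar H →
    (p : ℝ) ^ Fintype.card κ ≤ Real.exp (Fintype.card ι / 50) → 400 ≤ Fintype.card ι → 0 ≤ ε →
    ε ≤ 1 / 32 →
    pr (fun e : FibA H u =>
      ε * Fintype.card ι ≤ |∑ j, (rowA e j : ℝ) ^ 2 - Fintype.card ι / 2|) ≤
      8 * Real.exp (-(2 * ε ^ 2 * Fintype.card ι))

/-- The characteristic function of a fibre at a reduced frequency. -/
def CfStmt : Prop :=
  ∀ (p : ℕ) [Fact p.Prime] (ι κ : Type) [Fintype ι] [DecidableEq ι] [Fintype κ] [DecidableEq κ]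
    (H : κ → ι → ZMod p) (u : κ → ZMod p) (x : ι → ZMod p), DualFar H →
    (p : ℝ) ^ Fintype.card κ ≤ Real.exp (Fintype.card ι / 50) →
    (∀ y, ∑ j, Real.cos (ang (x j + dualv H y j)) ≤ ∑ j, Real.cos (ang (x j))) →
    ‖𝔼 e : FibA H u, (ZMod.stdAddChar (∑ j, (rowA e j : ZMod p) * x j) : ℂ) -
      ((∏ j, (1 + Real.cos (ang (x j))) / 2 : ℝ) : ℂ)‖ ≤ 2 * Real.exp (-(Fintype.card ι / 25))

/-- The law of the columns. -/
structure Law (S : Sys) (r : S.B → ℕ) (W : (b : S.B) → Fin (r b) → S.G) (Ω : Type) [Fintype Ω]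
    (col : S.ι → Ω → S.Λ → ℤ) : Prop where
  ent : ∀ i ω l, col i ω l = 0 ∨ col i ω l = 1 ∨ col i ω l = -1
  supp : ∀ i ω l, col i ω l ≠ 0 → S.pb (S.own (S.blk l)) i = S.blk l
  chk : ∀ i ω b a, ∑ l, (col i ω l : ZMod S.q) * W b a l = 0
  sg : ∀ b, ∀ i ∈ S.J b, SG (fun ω (l : S.Co b) => (col i ω l : ℝ)) 2
  nrm : ∀ b, ∀ i ∈ S.J b, ∀ ε : ℝ, 0 ≤ ε → ε ≤ 1 / 32 →
    pr (fun ω => ε * S.dim b ≤ |∑ l : S.Co b, (col i ω l : ℝ) ^ 2 - S.dim b / 2|) ≤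
      8 * Real.exp (-(2 * ε ^ 2 * S.dim b))
  cf : ∀ γ : S.G, ∃ γ' : S.G,
    (∀ i ω, ∑ l, (col i ω l : ZMod S.q) * γ' l = ∑ l, (col i ω l : ZMod S.q) * γ l) ∧
    ∀ l, ∀ i ∈ S.J (S.blk l),
      ‖𝔼 ω, (ZMod.stdAddChar (∑ l, (col i ω l : ZMod S.q) * γ' l) : ℂ)‖ ≤
        (1 + Real.cos (ang (γ' l))) / 2 + 1 / (S.q : ℝ) ^ 2

def LawStmt : Prop :=
  ∀ (S : Sys) (b0 : S.B) (r : S.B → ℕ) (W : (b : S.B) → Fin (r b) → S.G), Chk S b0 r W →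
    (∀ i, i ∈ S.J b0) → (∀ b, 400 ≤ S.dim b) → (∀ b, 200 * Real.log S.q ≤ S.dim b) →
    ∃ (Ω : Type) (_ : Fintype Ω) (_ : Nonempty Ω) (col : S.ι → Ω → S.Λ → ℤ), Law S r W Ω col

/-- Restricted isometry for independent rows. -/
def RipStmt : Prop :=
  ∀ (α Ω ι : Type) [Fintype α] [DecidableEq α] [Fintype Ω] [Nonempty Ω] [Fintype ι]
    (ρ : α → Ω → ι → ℝ) (J : Finset α) (δ : ℝ) (s : ℕ), 0 < δ → δ ≤ 1 / 4 → 2 ≤ s →
    1 ≤ Fintype.card α → (∀ i ∈ J, SG (ρ i) 2) →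
    (∀ i ∈ J, pr (fun ω => δ / 8 * Fintype.card ι ≤ |∑ j, ρ i ω j ^ 2 - Fintype.card ι / 2|) ≤
      8 * Real.exp (-(2 * (δ / 8) ^ 2 * Fintype.card ι))) →
    s * (Real.log (Fintype.card α) + 10) + 1 ≤ δ ^ 2 * Fintype.card ι / 10 ^ 9 →
    pr (fun w : α → Ω => ∃ T ⊆ J, T.card ≤ s ∧ ∃ x : α → ℝ,
      ∑ j, (∑ i ∈ T, x i * ρ i (w i) j) ^ 2 < (1 - δ) * (Fintype.card ι / 2) * ∑ i ∈ T, x i ^ 2 ∨
      (1 + δ) * (Fintype.card ι / 2) * ∑ i ∈ T, x i ^ 2 < ∑ j, (∑ i ∈ T, x i * ρ i (w i) j) ^ 2) ≤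
      1 / (4 * Fintype.card α)

/-- The increments are spread over many columns. -/
def SprStmt : Prop :=
  ∀ (q : ℕ) [Fact q.Prime] (α Ω Λ : Type) [Fintype α] [DecidableEq α] [Fintype Ω] [Nonempty Ω]
    [Fintype Λ] [DecidableEq Λ] (col : α → Ω → Λ → ℤ) (J : Λ → Finset α) (Ne : ℝ),
    (∀ i ω l, col i ω l = 0 ∨ col i ω l = 1 ∨ col i ω l = -1) → Real.log q + 2 ≤ Ne →
    (∀ l, 100 * (Fintype.card Λ : ℝ) ^ 3 * Ne ≤ (J l).card) →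
    (∀ γ : Λ → ZMod q, ∃ γ' : Λ → ZMod q,
      (∀ i ω, ∑ l, (col i ω l : ZMod q) * γ' l = ∑ l, (col i ω l : ZMod q) * γ l) ∧
      ∀ l, ∀ i ∈ J l, ‖𝔼 ω, (ZMod.stdAddChar (∑ l, (col i ω l : ZMod q) * γ' l) : ℂ)‖ ≤
        (1 + Real.cos (ang (γ' l))) / 2 + 1 / (q : ℝ) ^ 2) →
    pr (fun w : α → Ω => ∃ (γ : Λ → ZMod q) (i : α),
      ∑ j, |cen (∑ l, (col j (w j) l : ZMod q) * γ l) / q| <
        Ne * |cen (∑ l, (col i (w i) l : ZMod q) * γ l) / q|) ≤ 1 / 4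

/-- Existence of the columns. -/
def ColStmt : Prop :=
  ∀ (S : Sys) (δ Ne : ℝ) (b0 : S.B) (r : S.B → ℕ) (W : (b : S.B) → Fin (r b) → S.G), 0 < δ →
    δ ≤ 1 / 4 → Chk S b0 r W → (∀ i, i ∈ S.J b0) → (∀ P i, S.own (S.pb P i) = P) →
    (∀ b, 400 ≤ S.dim b) → (∀ b, 200 * Real.log S.q ≤ S.dim b) → 100 ≤ S.q →
    (∀ b, S.ν (S.own b) = S.dim b / 2) → (∀ P, 1 ≤ S.ν P) → (∀ P, 2 ≤ S.D P) →
    (∀ b, S.D (S.own b) * (Real.log S.N + 10) + 1 ≤ δ ^ 2 * S.dim b / 10 ^ 9) → 1 ≤ S.N →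
    (Fintype.card S.B : ℝ) ≤ S.N → Real.log S.q + 2 ≤ Ne →
    (∀ b, 100 * S.M ^ 3 * Ne ≤ (S.J b).card) →
    ∃ n : S.ι → S.Λ → ℤ, (S.wn n).WF ∧ (S.wn n).RIP δ ∧ (S.wn n).Spread Ne ∧
      ∀ i b a, ∑ l, (n i l : ZMod S.q) * W b a l = 0

end Sy

end Vale.Agent.P318.D
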