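import Vale.Agent.P318.D.SysStmt
import Mathlib.NumberTheory.Bertrand

/-!
Track D: the choice of the parameters of the systems.
-/

namespace Vale.Agent.P318.D

open Finset
open scoped BigOperators

namespace SysP

/-- Levels of the partitions. -/
def lev (L d : ℕ) : Option (Fin L × Fin d) → ℕ
  | none => 0
  | some p => p.1.val + 1

lemma lev_le (L d : ℕ) (a : Option (Fin L × Fin d)) : lev L d a ≤ L := by
  rcases a with _ | ⟨k, r⟩
  · exact Nat.zero_le _
  · exact k.2

lemma lev_zero (L d : ℕ) (a : Option (Fin L × Fin d)) : lev L d a = 0 ↔ a = none := by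
  rcases a with _ | ⟨k, r⟩ <;> simp [lev]

lemma card_lev (L d k : ℕ) (h1 : 1 ≤ k) (h2 : k ≤ L) :
    (univ.filter fun a : Option (Fin L × Fin d) => lev L d a = k).card = d := by
  have : (univ.filter fun a : Option (Fin L × Fin d) => lev L d a = k) =
      univ.map ⟨fun r : Fin d => some ((⟨k - 1, by omega⟩ : Fin L), r), fun a b h => by
        simpa using h⟩ := by
    ext a
    rw [mem_filter, mem_map]
    constructor
    · rintro ⟨-, h⟩
      rcases a with _ | ⟨j, r⟩
      · simp only [lev] at h; omega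
      · simp only [lev] at h
        refine ⟨r, mem_univ _, ?_⟩
        have : (⟨k - 1, by omega⟩ : Fin L) = j := Fin.ext (by simp only; omega)
        rw [← this]; rfl
    · rintro ⟨r, -, rfl⟩
      refine ⟨mem_univ _, ?_⟩
      show k - 1 + 1 = k
      omega
  rw [this, card_map, card_univ, Fintype.card_fin]

section
variable {A : Type} [Fintype A] [DecidableEq A] {m Md : A → ℕ}

lemma card_fib {β : A → Type} [∀ a, Fintype (β a)] (a : A) :
    (univ.filter fun b : (Σ a, β a) => b.1 = a).card = Fintype.card (β a) := by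
  have : (univ.filter fun b : (Σ a, β a) => b.1 = a) = univ.map (Function.Embedding.sigmaMk a) := by
    ext ⟨a', v⟩
    simp only [mem_filter, mem_univ, true_and, mem_map, Function.Embedding.sigmaMk_apply]
    constructor
    · rintro rfl
      exact ⟨v, rfl⟩
    · rintro ⟨w, hw⟩
      exact (congrArg Sigma.fst hw).symm
  rw [this, card_map, card_univ]

omit [Fintype A] in
lemma card_img {ι : Type} (π : (a : A) → ι → Fin (m a)) (a : A) (U : Finset ι) :
    (U.image fun i => (⟨a, π a i⟩ : Σ a, Fin (m a))).card = (U.image (π a)).card := by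
  rw [← card_image_of_injective (U.image (π a))
    (sigma_mk_injective (β := fun a => Fin (m a)) (i := a)), image_image]
  rfl

omit [DecidableEq A] in
lemma card_Co : Fintype.card (Co m Md) = ∑ a, m a * Md a := by
  rw [Fintype.card_sigma, Fintype.sum_sigma]
  simp

end

lemma log16 : Real.log 16 ≤ 2.78 := by
  have : (16 : ℝ) = 2 ^ 4 := by norm_num
  rw [this, Real.log_pow]
  have := Real.log_two_lt_d9
  push_cast
  linarith

lemma log_two_pow (k L : ℕ) : Real.log (2 * (16 : ℝ) ^ (k * L)) ≤ 2.78 * k * L + 1 := by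
  rw [Real.log_mul (by norm_num) (by positivity), Real.log_pow]
  have h1 := Real.log_two_lt_d9
  have h2 := log16
  have h3 : ((k * L : ℕ) : ℝ) * Real.log 16 ≤ (k * L : ℕ) * 2.78 :=
    mul_le_mul_of_nonneg_left h2 (Nat.cast_nonneg _)
  push_cast at h3 ⊢
  linarith

lemma big {K : ℝ} {L : ℕ} (hK : K ≤ L) : K * L ^ 2 ≤ 16 ^ L := by
  have h1 : (L : ℝ) ≤ 2 ^ L := by exact_mod_cast (Nat.lt_two_pow_self (n := L)).le
  have h0 : (0 : ℝ) ≤ L := Nat.cast_nonneg _
  have h2 : (1 : ℝ) ≤ 2 ^ L := one_le_pow₀ (by norm_num)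
  calc K * L ^ 2 ≤ L * L ^ 2 := by gcongr
    _ ≤ 2 ^ L * (2 ^ L) ^ 2 := by gcongr
    _ = 1 * (2 ^ L) ^ 3 := by ring
    _ ≤ 2 ^ L * (2 ^ L) ^ 3 := by gcongr
    _ = 16 ^ L := by rw [← pow_succ', ← pow_mul, mul_comm, pow_mul]; norm_num

lemma floor_pred {z : ℝ} (hz : 4 ≤ z) :
    1 ≤ ⌊z⌋₊ - 1 ∧ ((⌊z⌋₊ - 1 : ℕ) : ℝ) + 1 ≤ z ∧ z / 2 ≤ ((⌊z⌋₊ - 1 : ℕ) : ℝ) := by
  have h4 : 4 ≤ ⌊z⌋₊ := Nat.le_floor (by exact_mod_cast hz)
  have h1 := Nat.floor_le (show 0 ≤ z by linarith)
  have h2 := Nat.lt_floor_add_one z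
  rw [Nat.cast_sub (by omega)]
  refine ⟨by omega, ?_, ?_⟩ <;> push_cast <;> linarith

lemma num1 {X Cm M Lq : ℝ} (hX : 1000 ≤ X) (hC : 1 ≤ Cm) (hCX : 360 * Cm ≤ X) (hM0 : 0 ≤ M)
    (hM : M ≤ X ^ 3) (hq0 : 0 ≤ Lq) (hq : Lq ≤ X) :
    14 * X ^ 8 * M ^ 2 ≤ X ^ 16 / (2 * (Cm * X)) ∧
      60 * M ^ 2 * (M * Lq + 2) ≤ X ^ 16 / (2 * (Cm * X)) := by
  have hX0 : 0 < X := by linarith
  have hX1 : 1 ≤ X := by linarith
  have e : 180 * X ^ 14 ≤ X ^ 16 / (2 * (Cm * X)) := by
    rw [le_div_iff₀ (by positivity)]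
    calc 180 * X ^ 14 * (2 * (Cm * X)) = 360 * Cm * X ^ 15 := by ring
      _ ≤ X * X ^ 15 := by gcongr
      _ = X ^ 16 := by ring
  have h2 : M ^ 2 ≤ X ^ 6 := by
    calc M ^ 2 ≤ (X ^ 3) ^ 2 := by gcongr
      _ = X ^ 6 := by ring
  have h4 : (1 : ℝ) ≤ X ^ 4 := one_le_pow₀ hX1
  have h14 : 0 ≤ X ^ 14 := by positivity
  constructor
  · calc 14 * X ^ 8 * M ^ 2 ≤ 14 * X ^ 8 * X ^ 6 := by gcongr
      _ = 14 * X ^ 14 := by ring
      _ ≤ _ := by linarith
  · have h3 : M * Lq ≤ X ^ 4 := by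
      calc M * Lq ≤ X ^ 3 * X := by gcongr
        _ = X ^ 4 := by ring
    calc 60 * M ^ 2 * (M * Lq + 2) ≤ 60 * X ^ 6 * (3 * X ^ 4) := by gcongr; linarith
      _ = 180 * X ^ 10 := by ring
      _ ≤ 180 * X ^ 14 := by gcongr; norm_num
      _ ≤ _ := e

end SysP

set_option maxHeartbeats 800000 in
open SysP in
theorem sys_proof (hH : HashDStmt) (hC : ColStmt) : SysStmt := by
  intro δ η A hδ hδ4 hη hη1 hA
  obtain ⟨C', hC1, hC⟩ := hC
  set Cm : ℝ := 21 * A / η with hCm
  have hCmη : Cm * η = 21 * A := by rw [hCm]; field_simp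
  have hCm1 : 21 ≤ Cm := by
    rw [hCm, le_div_iff₀ hη]; linarith
  set C1 : ℝ := (42000 + Cm) * (401 / η) with hC1d
  set C2 : ℝ := 420 * C' / δ ^ 2 with hC2d
  have hiη : 1 ≤ 1 / η := by rw [le_div_iff₀ hη]; linarith
  have h401 : 401 ≤ 401 / η := by rw [le_div_iff₀ hη]; linarith
  have hC1p : 84000 ≤ C1 :=
    le_trans (by norm_num) (mul_le_mul (show (42000 : ℝ) ≤ 42000 + Cm by linarith) h401
      (by norm_num) (by linarith))
  have hC2δ : C2 * δ ^ 2 = 420 * C' := by rw [hC2d]; field_simp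
  have hC2p : 0 ≤ C2 := by rw [hC2d]; positivity
  set K : ℝ := C1 + C2 + 360 * Cm + 128 * (401 / η) * Cm ^ 2 with hK
  have hK4 : 0 ≤ 128 * (401 / η) * Cm ^ 2 := by positivity
  refine ⟨C1 + C2, ⌈K⌉₊, by linarith, fun L hL => ?_⟩
  have hKL : K ≤ L := (Nat.le_ceil K).trans (by exact_mod_cast hL)
  have hLr : (1000 : ℝ) ≤ L := by linarith
  have hL1 : 1 ≤ L := by
    have : (1 : ℝ) ≤ L := by linarith
    exact_mod_cast this
  have hbig := big hKL
  obtain ⟨X, hX⟩ : ∃ X : ℝ, X = 16 ^ L := ⟨_, rfl⟩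
  rw [← hX] at hbig
  have hL1r : (1 : ℝ) ≤ L := by linarith
  have hL2 : (L : ℝ) ≤ L ^ 2 := le_self_pow₀ hL1r (by norm_num)
  have hK0 : 0 ≤ K := by linarith
  have hKX : K * L ≤ X := le_trans (by gcongr) hbig
  have hKX1 : K ≤ X := le_trans (le_mul_of_one_le_right hK0 hL1r) hKX
  have hLX : 84000 * L ≤ X := le_trans (by gcongr; linarith) hKX
  have hX1000 : 1000 ≤ X := by linarith
  have hX0 : 0 < X := by linarith
  have hX1 : 1 ≤ X := by linarith
  have hpow : ∀ k : ℕ, (16 : ℝ) ^ (k * L) = X ^ k := fun k => by rw [hX, mul_comm, pow_mul]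
  have h256 : (256 : ℝ) ^ L = X ^ 2 := by
    rw [← hpow, pow_mul]; norm_num
  have hlev : ∀ k ≤ L, (16 : ℝ) ^ k ≤ X := fun k hk => by
    rw [hX]; exact pow_le_pow_right₀ (by norm_num) hk
  -- the prime
  obtain ⟨q, hqp, hq1, hq2⟩ := Nat.exists_prime_lt_and_le_two_mul (16 ^ (150 * L)) (by positivity)
  have : Fact q.Prime := ⟨hqp⟩
  have hq1r : (16 : ℝ) ^ (150 * L) ≤ q := by exact_mod_cast hq1.le
  have hq2r : (q : ℝ) ≤ 2 * 16 ^ (150 * L) := by exact_mod_cast hq2
  have hq0 : (0 : ℝ) < q := by exact_mod_cast hqp.pos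
  have hlq : Real.log q ≤ 420 * L := by
    have h1 := Real.log_le_log hq0 hq2r
    have h2 := log_two_pow 150 L
    push_cast at h2
    linarith
  have hlq0 : 0 ≤ Real.log q := Real.log_natCast_nonneg q
  have hXq : X ^ 16 ≤ q := by
    refine le_trans ?_ hq1r
    rw [hpow]; exact pow_le_pow_right₀ hX1 (by norm_num)
  clear hq1 hq2
  -- the number of columns
  obtain ⟨N, hN⟩ : ∃ N : ℕ, N = 16 ^ (16 * L) := ⟨_, rfl⟩
  have hNr : (N : ℝ) = X ^ 16 := by rw [hN, ← hpow]; push_cast; rfl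
  have hX16 : X ≤ X ^ 16 := le_self_pow₀ hX1 (by norm_num)
  have hX316 : X ^ 3 ≤ X ^ 16 := pow_le_pow_right₀ hX1 (by norm_num)
  have hlN : Real.log (N + 2) ≤ 46 * L := by
    have h1 : Real.log (N + 2) ≤ Real.log (2 * (16 : ℝ) ^ (16 * L)) :=
      Real.log_le_log (by positivity) (by rw [hpow, hNr]; linarith)
    have h2 := log_two_pow 16 L
    push_cast at h2
    linarith
  have hlN0 : 0 ≤ Real.log (N + 2) := Real.log_nonneg (by have := Nat.cast_nonneg (α := ℝ) N; linarith)
  have hlN' : Real.log N ≤ 46 * L :=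
    le_trans (Real.log_le_log (by rw [hNr]; positivity) (by linarith)) hlN
  -- the number of partitions
  obtain ⟨d, hd⟩ : ∃ d : ℕ, d = ⌈400 * L / η⌉₊ := ⟨_, rfl⟩
  have hd1 : 400 * L ≤ η * d := by
    have := Nat.le_ceil (400 * L / η)
    rw [← hd, div_le_iff₀ hη] at this
    linarith
  have hd2 : (d : ℝ) ≤ 401 / η * L := by
    have h1 := (Nat.ceil_lt_add_one (show 0 ≤ 400 * L / η by positivity)).le
    rw [← hd] at h1
    have h2 : 401 / η * L = 400 * L / η + 1 / η * L := by ring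
    have h3 := one_le_mul_of_one_le_of_one_le hiη hL1r
    linarith
  have hd0 : (1 : ℝ) ≤ d := by
    have h1 : η * d ≤ 1 * d := mul_le_mul_of_nonneg_right hη1 (Nat.cast_nonneg _)
    linarith
  have hd1n : 1 ≤ d := by exact_mod_cast hd0
  -- blocks and dimensions
  let T := Option (Fin L × Fin d)
  let m : T → ℕ := fun a => if lev L d a = 0 then 1 else ⌊Cm * 16 ^ lev L d a⌋₊
  let Md : T → ℕ := fun a =>
    if lev L d a = 0 then 42000 * L * (d * 256 ^ L) else 16 ^ (2 * L - lev L d a)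
  let D : T → ℕ := fun a => ⌊δ ^ 2 * Md a / (46 * C' * L)⌋₊ - 1
  have h16 : ∀ k : ℕ, (1 : ℝ) ≤ 16 ^ k := fun k => one_le_pow₀ (by norm_num)
  have hm_le : ∀ a, (m a : ℝ) ≤ Cm * 16 ^ lev L d a := fun a => by
    have := h16 (lev L d a)
    simp only [m]
    split_ifs
    · push_cast; exact one_le_mul_of_one_le_of_one_le (by linarith) this
    · exact Nat.floor_le (by positivity)
  have hm_leX : ∀ a, (m a : ℝ) ≤ Cm * X := fun a =>
    (hm_le a).trans (by have := hlev _ (lev_le L d a); gcongr)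
  have hm1 : ∀ a, 1 ≤ m a := fun a => by
    have := h16 (lev L d a)
    simp only [m]
    split_ifs
    · exact le_rfl
    · exact Nat.le_floor (by push_cast; exact one_le_mul_of_one_le_of_one_le (by linarith) this)
  have hMd0 : (Md none : ℝ) = 42000 * L * (d * X ^ 2) := by
    simp only [Md, lev, if_true]; push_cast; rw [h256]
  have hMd1 : ∀ a, a ≠ none → (Md a : ℝ) * 16 ^ lev L d a = X ^ 2 := fun a ha => by
    have h1 := (lev_zero L d a).not.2 ha
    have h2 := lev_le L d a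
    simp only [Md, if_neg h1]
    push_cast
    rw [← pow_add, ← hpow]
    congr 1
    omega
  have hX2 : 0 < X ^ 2 := by positivity
  have hLd : (1 : ℝ) ≤ 42000 * L * d := one_le_mul_of_one_le_of_one_le (by linarith) hd0
  have hMd2 : ∀ a, X ^ 2 ≤ (Md a : ℝ) * 16 ^ lev L d a := fun a => by
    by_cases ha : a = none
    · subst ha
      rw [hMd0]
      simp only [lev, pow_zero, mul_one]
      rw [← mul_assoc]
      exact le_mul_of_one_le_left hX2.le hLd
    · exact (hMd1 a ha).ge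
  have hMdX : ∀ a, X ≤ Md a := fun a => by
    have h1 := hMd2 a
    have h2 := hlev _ (lev_le L d a)
    have h3 : (Md a : ℝ) * 16 ^ lev L d a ≤ Md a * X := by gcongr
    have h4 : X * X ≤ Md a * X := by rw [← sq]; exact h1.trans h3
    exact le_of_mul_le_mul_right h4 hX0
  have hcardT : (Fintype.card T : ℝ) = L * d + 1 := by
    simp [T]
  have hCo : (Fintype.card (Co m Md) : ℝ) ≤ C1 * L ^ 2 * X ^ 2 := by
    rw [card_Co, Fintype.sum_option]
    push_cast
    have h1 : ∑ p : Fin L × Fin d, (m (some p) : ℝ) * Md (some p) ≤ ∑ _p : Fin L × Fin d, Cm * X ^ 2 :=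
      sum_le_sum fun p _ => by
        rw [← hMd1 (some p) (by simp)]
        calc (m (some p) : ℝ) * Md (some p) ≤ Cm * 16 ^ lev L d (some p) * Md (some p) := by
              have := hm_le (some p); gcongr
          _ = _ := by ring
    have h2 : (m none : ℝ) = 1 := by simp [m, lev]
    rw [sum_const, card_univ, Fintype.card_prod, Fintype.card_fin, Fintype.card_fin,
      nsmul_eq_mul] at h1
    push_cast at h1
    rw [h2, hMd0]
    calc 1 * (42000 * L * (d * X ^ 2)) + ∑ p : Fin L × Fin d, (m (some p) : ℝ) * Md (some p)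
        ≤ (42000 + Cm) * L * X ^ 2 * d := by linarith
      _ ≤ (42000 + Cm) * L * X ^ 2 * (401 / η * L) := by gcongr
      _ = C1 * L ^ 2 * X ^ 2 := by rw [hC1d]; ring
  have hC1X : C1 * L ^ 2 ≤ X := le_trans (by gcongr; linarith) hbig
  have hCo3 : (Fintype.card (Co m Md) : ℝ) ≤ X ^ 3 :=
    hCo.trans (by calc C1 * L ^ 2 * X ^ 2 ≤ X * X ^ 2 := by gcongr
      _ = X ^ 3 := by ring)
  have hMdCo : ∀ a, Md a ≤ Fintype.card (Co m Md) := fun a => by
    rw [card_Co]
    exact le_trans (Nat.le_mul_of_pos_left _ (hm1 a))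
      (single_le_sum (f := fun a => m a * Md a) (fun _ _ => Nat.zero_le _) (mem_univ a))
  have hCoq : Fintype.card (Co m Md) ≤ q := by
    have : (Fintype.card (Co m Md) : ℝ) ≤ q := by linarith
    exact_mod_cast this
  have hδ2 : 0 < δ ^ 2 := by positivity
  have hC2X : 420 * C' * L ≤ δ ^ 2 * X := by
    have h1 : C2 * L ≤ X := le_trans (by gcongr; linarith) hKX
    calc 420 * C' * L = δ ^ 2 * (C2 * L) := by rw [← hC2δ]; ring
      _ ≤ δ ^ 2 * X := by gcongr
  have hCL : 0 < 46 * C' * L := by positivity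
  have hz : ∀ a, 4 ≤ δ ^ 2 * Md a / (46 * C' * L) := fun a => by
    rw [le_div_iff₀ hCL]
    have := hMdX a
    have h2 : δ ^ 2 * X ≤ δ ^ 2 * Md a := by gcongr
    linarith
  -- partitions
  obtain ⟨π, hπ1, hπ2⟩ := hH (Fin N) T m (lev L d) L (fun k => A * 16 ^ k) η hη hη1 hm1
    (by
      rw [Fintype.card_fin]
      have : (16 : ℝ) * (L + 1) ≤ N := by rw [hNr]; linarith
      exact_mod_cast this)
    (fun a => by
      rw [Fintype.card_fin]
      have : (64 : ℝ) * Fintype.card T * (m a) ^ 2 ≤ N := by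
        rw [hNr, hcardT]
        have h1 := hm_leX a
        have h2 : (L : ℝ) * d + 1 ≤ 2 * (401 / η * L ^ 2) := by
          have h4 : (L : ℝ) * d ≤ L * (401 / η * L) := by gcongr
          have h5 := one_le_mul_of_one_le_of_one_le hL1r hd0
          have h6 : (L : ℝ) * (401 / η * L) = 401 / η * L ^ 2 := by ring
          linarith
        have h3 : 128 * (401 / η) * Cm ^ 2 * L ^ 2 ≤ X := le_trans (by gcongr; linarith) hbig
        calc (64 : ℝ) * (L * d + 1) * (m a) ^ 2 ≤ 64 * (2 * (401 / η * L ^ 2)) * (Cm * X) ^ 2 := by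
              gcongr
          _ = 128 * (401 / η) * Cm ^ 2 * L ^ 2 * X ^ 2 := by ring
          _ ≤ X * X ^ 2 := by gcongr
          _ = X ^ 3 := by ring
          _ ≤ _ := hX316
      exact_mod_cast this)
    (fun a ha => by
      have h1 : lev L d a ≠ 0 := by omega
      have h2 := Nat.lt_floor_add_one (Cm * 16 ^ lev L d a)
      have h3 := h16 (lev L d a)
      simp only [m, if_neg h1]
      have h4 : η * (Cm * 16 ^ lev L d a) ≤ η * (⌊Cm * 16 ^ lev L d a⌋₊ + 1) := by gcongr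
      have h5 : η * (Cm * 16 ^ lev L d a) = 21 * (A * 16 ^ lev L d a) := by
        rw [← mul_assoc, mul_comm η, hCmη]; ring
      have h6 := one_le_mul_of_one_le_of_one_le hA h3
      linarith)
    (fun k h1 h2 => by
      rw [card_lev L d k h1 h2, Fintype.card_fin]
      linarith)
  have hn := num1 hX1000 (show 1 ≤ Cm by linarith) (show 360 * Cm ≤ X by linarith)
    (Nat.cast_nonneg (Fintype.card (Co m Md))) hCo3 hlq0 (show Real.log q ≤ X by linarith)
  obtain ⟨x, hW, hR, hCd, hSp⟩ := hC q (Fin N) T none m Md D (d * 256 ^ L) π δ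
    (X ^ 16 / (2 * (Cm * X))) (X ^ 8) hδ hδ4
    (by
      have : (100 : ℝ) ≤ q := by linarith
      exact_mod_cast this)
    (by simp [m, lev])
    (fun a => by
      have : (400 : ℝ) ≤ Md a := by linarith [hMdX a]
      exact_mod_cast this)
    (fun a => (hMdCo a).trans hCoq)
    (fun a => by
      have := hMdX a
      linarith)
    (by
      rw [hMd0]
      push_cast
      rw [h256]
      calc 100 * (d * X ^ 2) * Real.log q ≤ 100 * (d * X ^ 2) * (420 * L) := by gcongr
        _ = _ := by ring)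
    hCoq
    (by
      rw [Fintype.card_fin]
      have : (N : ℝ) ≤ q := by linarith
      exact_mod_cast this)
    (fun a => (floor_pred (hz a)).1)
    (fun a => by
      have h1 := (floor_pred (hz a)).2.1
      rw [le_div_iff₀ hCL] at h1
      rw [Fintype.card_fin]
      calc C' * (D a + 1) * Real.log (N + 2) ≤ C' * (D a + 1) * (46 * L) := by gcongr
        _ = (D a + 1) * (46 * C' * L) := by ring
        _ ≤ _ := h1)
    (fun a => by
      have h1 := hMdX a
      calc C' * Real.log q ≤ C' * (420 * L) := by gcongr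
        _ = 420 * C' * L := by ring
        _ ≤ δ ^ 2 * X := hC2X
        _ ≤ _ := by gcongr)
    (fun a v => by
      refine le_trans ?_ (hπ1 a v)
      rw [Fintype.card_fin, hNr]
      have h1 := hm_leX a
      have h2 : (0 : ℝ) < m a := by exact_mod_cast hm1 a
      gcongr)
    hn.1 hn.2
  refine ⟨mkSys q π x D, lev L d, none, d, hW, hR, ?_, ?_, ?_, ?_, ?_, ?_, ?_, hq1r, hq2r⟩
  · have hBl : ∀ a, ((mkSys q π x D).Bl a).card = m a := fun a =>
      (card_fib (β := fun a => Fin (m a)) a).trans (Fintype.card_fin _)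
    refine ⟨lev_le L d, lev_zero L d, hd1n, card_lev L d, ?_, ?_, ?_, ?_⟩
    · exact (hBl none).trans_le (by simp [m, lev])
    · intro a; rw [hBl]; exact hm_le a
    · intro b hb
      have : ((mkSys q π x D).Lb b).card = Md b.1 :=
        (card_fib (β := fun b : (Σ a : T, Fin (m a)) => Fin (Md b.1)) b).trans (Fintype.card_fin _)
      rw [this, h256]
      exact (hMd1 b.1 hb).le
    · intro a
      have h1 := (floor_pred (hz a)).2.2
      have h2 := hMd2 a
      have h3 := h16 (lev L d a)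
      rw [div_div, div_le_iff₀ (by positivity)] at h1
      rw [h256]
      show X ^ 2 ≤ (C1 + C2) * L * 16 ^ lev L d a * (D a : ℝ)
      have h4 : δ ^ 2 * (Md a : ℝ) ≤ δ ^ 2 * (C2 * L * D a) := by
        have : δ ^ 2 * (C2 * L * D a) = 420 * C' * L * D a := by rw [← hC2δ]; ring
        rw [this]
        have h5 : (0 : ℝ) ≤ C' * L * D a := by positivity
        have h6 : (D a : ℝ) * (46 * C' * L * 2) = 92 * (C' * L * D a) := by ring
        have h7 : δ ^ 2 * (Md a : ℝ) ≤ D a * (46 * C' * L * 2) := h1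
        linarith
      have h5 := le_of_mul_le_mul_left h4 hδ2
      calc X ^ 2 ≤ Md a * 16 ^ lev L d a := h2
        _ ≤ C2 * L * D a * 16 ^ lev L d a := by gcongr
        _ ≤ (C1 + C2) * L * D a * 16 ^ lev L d a := by gcongr; linarith
        _ = _ := by ring
  · intro k h1 h2 U hU
    refine (hπ2 k h1 h2 U hU).trans (le_of_eq (sum_congr rfl fun a _ => ?_))
    exact congrArg Nat.cast (card_img π a U).symm
  · have : ((d * 256 ^ L : ℕ) : ℝ) = d * 256 ^ L := by push_cast; rfl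
    rw [← this]; exact hCd
  · rw [hpow]; exact hSp
  · show (Fintype.card (Fin N) : ℝ) = _
    rw [Fintype.card_fin, hNr, hpow]
  · show (Fintype.card (Co m Md) : ℝ) ≤ _
    rw [h256]
    exact hCo.trans (by gcongr; linarith)
  · intro a
    show (Md a : ℝ) / 2 ≤ _
    have h1 : (Md a : ℝ) ≤ Fintype.card (Co m Md) := by exact_mod_cast hMdCo a
    have h2 : (0 : ℝ) ≤ Md a := Nat.cast_nonneg _
    rw [h256]
    have h3 : C1 * L ^ 2 * X ^ 2 ≤ (C1 + C2) * L ^ 2 * X ^ 2 := by gcongr; linarith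
    linarith

end Vale.Agent.P318.D
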